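import Mathlib
import Vale.Agent.P205.Full.Global.Chart

/-!
# P205: cross caps of a map of a surface into three-space

`CrossCap ψ y`: the differential of `ψ` at `y` has a kernel vector `k ≠ 0`, and the second
derivatives along `k` span three-space together with the image of the differential. For a
planar `ψ` this is a corank one point with the second derivative along the kernel injective
modulo the image, a Whitney umbrella.
-/

namespace Vale.Agent.P205.Full.Topo

open scoped Manifold ContDiff

noncomputable section

/-- Three-space, as functions. -/
abbrev V3 := Fin 3 → ℝ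

/-- A cross cap of a map into three-space. -/
def CrossCap {X : Type*} [NormedAddCommGroup X] [NormedSpace ℝ X] (ψ : X → V3) (y : X) : Prop :=
  ∃ k : X, k ≠ 0 ∧ fderiv ℝ ψ y k = 0 ∧ Function.Surjective fun hl : X × X =>
    fderiv ℝ (fun x => fderiv ℝ ψ x k) y hl.1 + fderiv ℝ ψ y hl.2

/-- A cross cap at a point of a surface, read in the chart of the point. -/
def CrossCapAt {M : Type*} [TopologicalSpace M] [ChartedSpace E2 M] (φ : M → V3) (p : M) :
    Prop :=
  CrossCap (φ ∘ (extChartAt (𝓡 2) p).symm) (extChartAt (𝓡 2) p p)

end

end Vale.Agent.P205.Full.Topo
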