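import Mathlib
import Vale.Agent.P205.Full.Topology.Defs

/-!
# P205: the cubic Veronese map separates two-point jets

After composing an embedding with the monomials of degree at most three, the chord and the four
tangent vectors at two distinct points are independent, as are the first two derivatives at one
point in the directions needed for cross caps.
-/

namespace Vale.Agent.P205.Full.Topo

open Function
open scoped ContDiff Topology

noncomputable section

variable {N : ℕ}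

/-- Coordinates of the monomials of degree at most three. -/
abbrev Ver (N : ℕ) :=
  (Fin N → ℝ) × (Fin N × Fin N → ℝ) × (Fin N × Fin N × Fin N → ℝ)

/-- The cubic Veronese map. -/
def ver (x : Fin N → ℝ) : Ver N :=
  (x, fun i => x i.1 * x i.2, fun i => x i.1 * x i.2.1 * x i.2.2)

theorem contDiff_ver : ContDiff ℝ ∞ (ver (N := N)) := by
  refine contDiff_id.prodMk ((contDiff_pi.2 fun i => ?_).prodMk (contDiff_pi.2 fun i => ?_))
  · exact (contDiff_apply ℝ ℝ i.1).mul (contDiff_apply ℝ ℝ i.2)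
  · exact ((contDiff_apply ℝ ℝ i.1).mul (contDiff_apply ℝ ℝ i.2.1)).mul (contDiff_apply ℝ ℝ i.2.2)

/-- A power of a linear form is linear in the monomials. -/
theorem exists_power (l : (Fin N → ℝ) →ₗ[ℝ] ℝ) (k : Fin 3) :
    ∃ Λ : Ver N →L[ℝ] ℝ, ∀ x, Λ (ver x) = l x ^ ((k : ℕ) + 1) := by
  classical
  set c : Fin N → ℝ := fun i => l (Pi.single i 1)
  have hl : ∀ x, l x = ∑ i, c i * x i := fun x => by
    conv_lhs => rw [pi_eq_sum_univ' x]
    simp [c, map_sum, mul_comm]
  match k with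
  | 0 =>
    exact ⟨LinearMap.toContinuousLinearMap (l ∘ₗ LinearMap.fst ℝ _ _), fun x => by simp [ver]⟩
  | 1 =>
    refine ⟨LinearMap.toContinuousLinearMap
      (∑ i : Fin N × Fin N, (c i.1 * c i.2) • (LinearMap.proj i ∘ₗ LinearMap.fst ℝ _ _ ∘ₗ
        LinearMap.snd ℝ (Fin N → ℝ) _)), fun x => ?_⟩
    simp only [LinearMap.coe_toContinuousLinearMap', LinearMap.coe_sum, Finset.sum_apply,
      LinearMap.smul_apply, LinearMap.comp_apply, LinearMap.fst_apply, LinearMap.snd_apply,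
      LinearMap.proj_apply, smul_eq_mul, ver, hl]
    rw [show ((1 : Fin 3) : ℕ) + 1 = 2 from rfl, pow_two, Finset.sum_mul_sum,
      Fintype.sum_prod_type]
    exact Finset.sum_congr rfl fun i _ => Finset.sum_congr rfl fun j _ => by ring
  | 2 =>
    refine ⟨LinearMap.toContinuousLinearMap
      (∑ i : Fin N × Fin N × Fin N, (c i.1 * c i.2.1 * c i.2.2) • (LinearMap.proj i ∘ₗ
        LinearMap.snd ℝ _ _ ∘ₗ LinearMap.snd ℝ (Fin N → ℝ) _)), fun x => ?_⟩
    simp only [LinearMap.coe_toContinuousLinearMap', LinearMap.coe_sum, Finset.sum_apply,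
      LinearMap.smul_apply, LinearMap.comp_apply, LinearMap.snd_apply,
      LinearMap.proj_apply, smul_eq_mul, ver, hl]
    rw [show ((2 : Fin 3) : ℕ) + 1 = 3 from rfl, pow_succ, pow_two, Finset.sum_mul_sum]
    simp only [Finset.sum_mul, Finset.mul_sum, Fintype.sum_prod_type]
    exact Finset.sum_congr rfl fun i _ => Finset.sum_congr rfl fun j _ =>
      Finset.sum_congr rfl fun m _ => by ring

variable {ε ε₀ ε₁ : E2 → Fin N → ℝ}

theorem fderiv_power {Λ : Ver N →L[ℝ] ℝ} {l : (Fin N → ℝ) →ₗ[ℝ] ℝ} {k : ℕ}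
    (h : ∀ x, Λ (ver x) = l x ^ k) {y : E2} (hε : DifferentiableAt ℝ ε y) (w : E2) :
    Λ (fderiv ℝ (ver ∘ ε) y w) = k * l (ε y) ^ (k - 1) * l (fderiv ℝ ε y w) := by
  set L := LinearMap.toContinuousLinearMap l
  have h1 : HasFDerivAt (fun z => Λ (ver (ε z))) (Λ.comp (fderiv ℝ (ver ∘ ε) y)) y :=
    Λ.hasFDerivAt.comp y
      (((contDiff_ver.differentiable (by simp)) (ε y)).comp y hε).hasFDerivAt
  have h2 : HasFDerivAt (fun z => Λ (ver (ε z)))
      ((k * L (ε y) ^ (k - 1)) • L.comp (fderiv ℝ ε y)) y := by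
    simp only [h]
    exact (L.hasFDerivAt.comp y hε.hasFDerivAt).pow k |>.congr_fderiv (by ext; simp [L])
  simpa [L] using DFunLike.congr_fun (h1.unique h2) w

/-- A linear form with prescribed values on two independent vectors. -/
theorem exists_form {T : E2 →L[ℝ] (Fin N → ℝ)} (hT : Injective T) (φ : E2 →L[ℝ] ℝ) :
    ∃ l : (Fin N → ℝ) →ₗ[ℝ] ℝ, ∀ w, l (T w) = φ w := by
  obtain ⟨g, hg⟩ := (T : E2 →ₗ[ℝ] Fin N → ℝ).exists_leftInverse_of_injective
    (LinearMap.ker_eq_bot.2 hT)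
  exact ⟨(φ : E2 →ₗ[ℝ] ℝ) ∘ₗ g, fun w => congrArg φ (LinearMap.congr_fun hg w)⟩

/-- Chord and tangents at two points of the image are independent. -/
theorem chord_tangents {y z : E2} (h₀ : DifferentiableAt ℝ ε₀ y) (h₁ : DifferentiableAt ℝ ε₁ z)
    (i₀ : Injective (fderiv ℝ ε₀ y)) (i₁ : Injective (fderiv ℝ ε₁ z)) (hne : ε₀ y ≠ ε₁ z)
    {c : ℝ} {v w : E2}
    (h : c • (ver (ε₁ z) - ver (ε₀ y)) + fderiv ℝ (ver ∘ ε₀) y v + fderiv ℝ (ver ∘ ε₁) z w = 0) :
    c = 0 ∧ v = 0 ∧ w = 0 := by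
  set a := ε₀ y
  set b := ε₁ z
  have key : ∀ l : (Fin N → ℝ) →ₗ[ℝ] ℝ, l a ≠ l b →
      c = 0 ∧ l (fderiv ℝ ε₀ y v) = 0 ∧ l (fderiv ℝ ε₁ z w) = 0 := by
    intro l hl
    obtain ⟨L1, hL1⟩ := exists_power l 0
    obtain ⟨L2, hL2⟩ := exists_power l 1
    obtain ⟨L3, hL3⟩ := exists_power l 2
    have e : ∀ (L : Ver N →L[ℝ] ℝ) (k : ℕ), (∀ x, L (ver x) = l x ^ k) →
        c * (l b ^ k - l a ^ k) + k * l a ^ (k - 1) * l (fderiv ℝ ε₀ y v)
          + k * l b ^ (k - 1) * l (fderiv ℝ ε₁ z w) = 0 := fun L k hk => by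
      have := congrArg L h
      rwa [map_add, map_add, map_smul, map_sub, hk, hk, fderiv_power hk h₀, fderiv_power hk h₁,
        map_zero, smul_eq_mul] at this
    have e1 := e L1 1 hL1
    have e2 := e L2 2 hL2
    have e3 := e L3 3 hL3
    set X := l (fderiv ℝ ε₀ y v)
    set Y := l (fderiv ℝ ε₁ z w)
    set p := l a
    set q := l b
    norm_num at e1 e2 e3
    have hd : q - p ≠ 0 := sub_ne_zero.2 hl.symm
    have hY : 2 * Y + c * (q - p) = 0 := by
      have : (q - p) * (2 * Y + c * (q - p)) = 0 := by linear_combination e2 - 2 * p * e1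
      exact (mul_eq_zero.1 this).resolve_left hd
    have hX : 2 * X + c * (q - p) = 0 := by linarith
    have hc : c * (q - p) ^ 3 = 0 := by
      linear_combination -2 * e3 + 3 * p ^ 2 * hX + 3 * q ^ 2 * hY
    have hc0 : c = 0 := (mul_eq_zero.1 hc).resolve_right (pow_ne_zero 3 hd)
    rw [hc0] at hX hY
    exact ⟨hc0, by linarith, by linarith⟩
  obtain ⟨i, hi⟩ : ∃ i, a i ≠ b i := Function.ne_iff.1 hne
  set P : (Fin N → ℝ) →ₗ[ℝ] ℝ := LinearMap.proj i
  refine ⟨(key P hi).1, i₀ ?_, i₁ ?_⟩ <;> rw [map_zero] <;> funext j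
  · rcases eq_or_ne (a j) (b j) with hj | hj
    · have := (key (P + LinearMap.proj j) (by simp [P, hj, hi])).2.1
      simpa [P, show fderiv ℝ ε₀ y v i = 0 from (key P hi).2.1] using this
    · exact (key (LinearMap.proj j) hj).2.1
  · rcases eq_or_ne (a j) (b j) with hj | hj
    · have := (key (P + LinearMap.proj j) (by simp [P, hj, hi])).2.2
      simpa [P, show fderiv ℝ ε₁ z w i = 0 from (key P hi).2.2] using this
    · exact (key (LinearMap.proj j) hj).2.2

/-- First derivatives and the second derivatives along `u` are independent. -/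
theorem jet_independent {y : E2} (hε : ContDiffAt ℝ 2 ε y) (hi : Injective (fderiv ℝ ε y))
    {u : E2} (hu : u ≠ 0) {a w : E2}
    (h : fderiv ℝ (fderiv ℝ (ver ∘ ε)) y a u + fderiv ℝ (ver ∘ ε) y w = 0) : a = 0 ∧ w = 0 := by
  have hd : ∀ᶠ z in 𝓝 y, DifferentiableAt ℝ ε z :=
    (hε.eventually (by simp)).mono fun z hz => hz.differentiableAt (by simp)
  have hψ : ContDiffAt ℝ 2 (ver ∘ ε) y := (contDiff_ver.of_le (by norm_cast)).contDiffAt.comp y hε
  have hDε : DifferentiableAt ℝ (fderiv ℝ ε) y :=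
    (hε.fderiv_right (m := 1) (by norm_num)).differentiableAt (by simp)
  have hDψ : DifferentiableAt ℝ (fderiv ℝ (ver ∘ ε)) y :=
    (hψ.fderiv_right (m := 1) (by norm_num)).differentiableAt (by simp)
  have second : ∀ (l : (Fin N → ℝ) →ₗ[ℝ] ℝ) (L : Ver N →L[ℝ] ℝ) (k : ℕ), (1 ≤ k ∧ k ≤ 2) →
      (∀ x, L (ver x) = l x ^ k) →
      L (fderiv ℝ (fderiv ℝ (ver ∘ ε)) y a u) =
        k * ((k - 1 : ℕ) : ℝ) * l (fderiv ℝ ε y a) * l (fderiv ℝ ε y u)
          + k * l (ε y) ^ (k - 1) * l (fderiv ℝ (fderiv ℝ ε) y a u) := by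
    intro l L k hk hL
    set Lc := LinearMap.toContinuousLinearMap l
    have h1 : HasFDerivAt (fun z => L (fderiv ℝ (ver ∘ ε) z u))
        (L.comp ((fderiv ℝ (fderiv ℝ (ver ∘ ε)) y).flip u)) y := by
      have := L.hasFDerivAt.comp y (hDψ.hasFDerivAt.clm_apply (hasFDerivAt_const u y))
      simpa [Function.comp_def] using this
    have h2 : HasFDerivAt (fun z => L (fderiv ℝ (ver ∘ ε) z u))
        ((k * Lc (ε y) ^ (k - 1)) • Lc.comp ((fderiv ℝ (fderiv ℝ ε) y).flip u)
          + (k * ((k - 1 : ℕ) : ℝ) * Lc (fderiv ℝ ε y u)) • Lc.comp (fderiv ℝ ε y)) y := by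
      refine HasFDerivAt.congr_of_eventuallyEq ?_ (hd.mono fun z hz => fderiv_power hL hz u)
      have g1 : HasFDerivAt (fun z => l (ε z)) (Lc.comp (fderiv ℝ ε y)) y :=
        Lc.hasFDerivAt.comp y hd.self_of_nhds.hasFDerivAt
      have g2 : HasFDerivAt (fun z => l (fderiv ℝ ε z u))
          (Lc.comp ((fderiv ℝ (fderiv ℝ ε) y).flip u)) y := by
        have := Lc.hasFDerivAt.comp y (hDε.hasFDerivAt.clm_apply (hasFDerivAt_const u y))
        simpa [Lc, Function.comp_def] using this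
      refine (((g1.pow (k - 1)).const_mul (k : ℝ)).mul g2).congr_fderiv ?_
      ext v
      have : k = 1 ∨ k = 2 := by omega
      rcases this with rfl | rfl <;> simp [Lc] <;> ring
    have := DFunLike.congr_fun (h1.unique h2) a
    simp [Lc] at this
    rw [this]; ring
  have key : ∀ l : (Fin N → ℝ) →ₗ[ℝ] ℝ,
      l (fderiv ℝ ε y a) * l (fderiv ℝ ε y u) = 0 ∧
        l (fderiv ℝ (fderiv ℝ ε) y a u) + l (fderiv ℝ ε y w) = 0 := by
    intro l
    obtain ⟨L1, hL1⟩ := exists_power l 0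
    obtain ⟨L2, hL2⟩ := exists_power l 1
    have e1 := congrArg L1 h
    have e2 := congrArg L2 h
    rw [map_add, second l L1 1 ⟨le_rfl, by norm_num⟩ hL1, fderiv_power hL1 hd.self_of_nhds,
      map_zero] at e1
    rw [map_add, second l L2 2 ⟨by norm_num, le_rfl⟩ hL2, fderiv_power hL2 hd.self_of_nhds,
      map_zero] at e2
    norm_num at e1 e2
    constructor
    · linear_combination (1 / 2 : ℝ) * e2 - l (ε y) * e1
    · linarith
  have ha : a = 0 := by
    have hx : ∀ φ : E2 →L[ℝ] ℝ, φ a * φ u = 0 := fun φ => by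
      obtain ⟨l, hl⟩ := exists_form hi φ
      simpa [hl] using (key l).1
    by_contra hne
    have h1 := hx (innerSL ℝ a)
    have h2 := hx (innerSL ℝ (a + u))
    have h3 := hx (innerSL ℝ u)
    simp only [innerSL_apply_apply, inner_add_left, real_inner_comm u a] at h1 h2 h3
    have haa : (inner ℝ a a : ℝ) ≠ 0 := inner_self_ne_zero.2 hne
    have huu : (inner ℝ u u : ℝ) ≠ 0 := inner_self_ne_zero.2 hu
    have hau : (inner ℝ u a : ℝ) = 0 := (mul_eq_zero.1 h1).resolve_left haa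
    rw [hau] at h2
    simp [hne, hu] at h2
  subst ha
  refine ⟨rfl, hi ?_⟩
  rw [map_zero]
  funext j
  simpa using (key (LinearMap.proj j)).2

end

end Vale.Agent.P205.Full.Topo
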