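import Mathlib
import Vale.Agent.P205.Full.Topology.Veronese
import Vale.Agent.P205.Full.Global.Avoid

/-!
# P205: a generic linear projection of the cubic Veronese image

Four conditions on a linear map to four-space, each failing only on a set of parameters of
positive codimension: immersion, nondegenerate double points, regular double curve of the first
three coordinates and nondegenerate zeros of the vertical vector.
-/

namespace Vale.Agent.P205.Full.Topo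

open Set Function Module
open scoped ContDiff Topology

noncomputable section

/-- Four-space, split as three-space and a height. -/
abbrev V4' := V3 × ℝ

/-- The vertical vector. -/
def e₀ : V4' := (0, 1)

section linear

variable {W V : Type*} [NormedAddCommGroup W] [NormedSpace ℝ W] [FiniteDimensional ℝ W]
  [NormedAddCommGroup V] [NormedSpace ℝ V] [FiniteDimensional ℝ V]

/-- Values of a linear map at a family of vectors. -/
def evalAt {n : ℕ} (w : Fin n → W) : (W →L[ℝ] V) →L[ℝ] (Fin n → V) :=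
  ContinuousLinearMap.pi fun j => ContinuousLinearMap.apply ℝ V (w j)

theorem evalAt_surjective {n : ℕ} {w : Fin n → W}
    (h : ∀ c : Fin n → ℝ, ∑ j, c j • w j = 0 → c = 0) :
    Surjective (evalAt (V := V) w) := by
  obtain ⟨g, hg⟩ := (Fintype.linearCombination ℝ w).exists_leftInverse_of_injective
    (LinearMap.ker_eq_bot'.2 fun c hc => h c (by rwa [Fintype.linearCombination_apply] at hc))
  intro v
  refine ⟨LinearMap.toContinuousLinearMap (Fintype.linearCombination ℝ v ∘ₗ g), funext fun j => ?_⟩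
  have := LinearMap.congr_fun hg (Pi.single j 1)
  rw [LinearMap.comp_apply, Fintype.linearCombination_apply_single, one_smul,
    LinearMap.id_apply] at this
  simp [evalAt, this, Fintype.linearCombination_apply_single]

/-- A nontrivial relation makes one vector a combination of the others. -/
theorem exists_comb {m : ℕ} {t : Fin (m + 1) → V} {c : Fin (m + 1) → ℝ} {r : V}
    (h : ∑ j, c j • t j + r = 0) {k : Fin (m + 1)} (hk : c k ≠ 0) :
    t k = ∑ i, (-(c (k.succAbove i)) / c k) • t (k.succAbove i) + (-1 / c k) • r := by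
  rw [Fin.sum_univ_succAbove _ k] at h
  have h2 : c k • t k = -(∑ i, c (k.succAbove i) • t (k.succAbove i)) - r := by
    rw [← sub_eq_zero]; rw [← h]; abel
  have h3 := congrArg (fun v => (c k)⁻¹ • v) h2
  simp only [smul_smul, inv_mul_cancel₀ hk, one_smul, smul_sub, smul_neg, Finset.smul_sum] at h3
  have hs : ∀ i, (-(c (k.succAbove i)) / c k) • t (k.succAbove i)
      = -(((c k)⁻¹ * c (k.succAbove i)) • t (k.succAbove i)) := fun i => by
    rw [← neg_smul]; congr 1; ring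
  rw [h3, Finset.sum_congr rfl fun i _ => hs i, Finset.sum_neg_distrib,
    show (-1 / c k) = -(c k)⁻¹ by ring, neg_smul]
  abel

/-- A dependent family of as many vectors as the dimension. -/
theorem exists_relation {m : ℕ} {t : Fin m → V} (hm : finrank ℝ V = m)
    (h : ¬ Surjective (Fintype.linearCombination ℝ t)) :
    ∃ c : Fin m → ℝ, c ≠ 0 ∧ ∑ j, c j • t j = 0 := by
  have h1 : ¬ Injective (Fintype.linearCombination ℝ t) := fun hi =>
    h ((LinearMap.injective_iff_surjective_of_finrank_eq_finrank (by simp [hm])).1 hi)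
  rw [← LinearMap.ker_eq_bot, Submodule.eq_bot_iff] at h1
  push Not at h1
  obtain ⟨c, hc, hc0⟩ := h1
  exact ⟨c, hc0, by simpa [Fintype.linearCombination_apply] using hc⟩

end linear

/-- A unit vector of the plane. -/
def ax (j : Fin 2) : E2 := EuclideanSpace.single j 1

/-- The line of slope `s` over the axis `j`. -/
def dir (j : Fin 2) (s : ℝ) : E2 := ax j + s • ax (1 - j)

theorem expand (j : Fin 2) (s : ℝ) (x : E2) :
    x = x j • dir j s + (x (1 - j) - s * x j) • ax (1 - j) := by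
  ext i
  fin_cases j <;> fin_cases i <;> simp [dir, ax] <;> ring

theorem dir_ne (j : Fin 2) (s : ℝ) : dir j s ≠ 0 := fun h => by
  have := congrFun (congrArg WithLp.ofLp h) j
  fin_cases j <;> simp [dir, ax] at this

theorem contDiff_dir (j : Fin 2) : ContDiff ℝ ∞ (dir j) := by unfold dir; fun_prop

variable {N : ℕ}

/-- The chord and tangent vectors of two plane curves. -/
def pairVecs (ψ₀ ψ₁ : E2 → Ver N) (x : E2 × E2) : Fin 5 → Ver N :=
  ![ψ₁ x.2 - ψ₀ x.1, fderiv ℝ ψ₀ x.1 (ax 0), fderiv ℝ ψ₀ x.1 (ax 1),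
    fderiv ℝ ψ₁ x.2 (ax 0), fderiv ℝ ψ₁ x.2 (ax 1)]

/-- The jets used for cross caps. -/
def capVecs (ψ : E2 → Ver N) (j : Fin 2) (x : E2 × ℝ) : Fin 4 → Ver N :=
  ![fderiv ℝ ψ x.1 (dir j x.2), fderiv ℝ (fderiv ℝ ψ) x.1 (dir j x.2) (dir j x.2),
    fderiv ℝ (fderiv ℝ ψ) x.1 (ax (1 - j)) (dir j x.2), fderiv ℝ ψ x.1 (ax (1 - j))]

/-- The direction alone. -/
def immVecs (ψ : E2 → Ver N) (j : Fin 2) (x : E2 × ℝ) : Fin 1 → Ver N :=
  fun _ => fderiv ℝ ψ x.1 (dir j x.2)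

/-- The bad double points: a vanishing chord and dependent tangents. -/
def badDbl (k : Fin 4) (w : (Fin 3 → ℝ) × (Fin 3 → V4')) : Fin 5 → V4' :=
  Fin.cons 0 (k.insertNth (∑ i, w.1 i • w.2 i) w.2)

/-- The bad points of the double curve: all tangents in one plane. -/
def badCurve (k : Fin 3) (w : (Fin 2 → ℝ) × (Fin 4 → Fin 2 → ℝ)) : Fin 5 → V3 :=
  Fin.cons 0 fun j => k.insertNth (∑ i, w.1 i * w.2 j i) (w.2 j)

/-- The bad cross caps. -/
def badCap (k : Fin 3) (w : ℝ × (Fin 3 → ℝ) × (Fin 2 → V4')) : Fin 4 → V4' :=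
  Fin.cons (w.1 • e₀) (k.insertNth (w.2.1 0 • e₀ + ∑ i : Fin 2, w.2.1 i.succ • w.2.2 i) w.2.2)

theorem contDiff_badDbl (k : Fin 4) : ContDiff ℝ 1 (badDbl k) := by
  refine contDiff_pi.2 (Fin.cases ?_ fun j => ?_)
  · simp only [badDbl, Fin.cons_zero]; exact contDiff_const
  simp only [badDbl, Fin.cons_succ]
  refine Fin.succAboveCases k ?_ (fun i => ?_) j
  · simp only [Fin.insertNth_apply_same]; fun_prop
  · simp only [Fin.insertNth_apply_succAbove]; fun_prop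

theorem contDiff_badCurve (k : Fin 3) : ContDiff ℝ 1 (badCurve k) := by
  refine contDiff_pi.2 (Fin.cases ?_ fun j => ?_)
  · simp only [badCurve, Fin.cons_zero]; exact contDiff_const
  simp only [badCurve, Fin.cons_succ]
  refine contDiff_pi.2 fun m => ?_
  refine Fin.succAboveCases k ?_ (fun i => ?_) m
  · simp only [Fin.insertNth_apply_same]; fun_prop
  · simp only [Fin.insertNth_apply_succAbove]; fun_prop

theorem contDiff_badCap (k : Fin 3) : ContDiff ℝ 1 (badCap k) := by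
  refine contDiff_pi.2 (Fin.cases ?_ fun j => ?_)
  · simp only [badCap, Fin.cons_zero]; fun_prop
  simp only [badCap, Fin.cons_succ]
  refine Fin.succAboveCases k ?_ (fun i => ?_) j
  · simp only [Fin.insertNth_apply_same]; fun_prop
  · simp only [Fin.insertNth_apply_succAbove]; fun_prop

/-- A generic projection. -/
structure IsGeneric {ι : Type*} (Ω : ι → Set E2) (ε : ι → E2 → Fin N → ℝ)
    (A : Ver N →L[ℝ] V4') : Prop where
  imm : ∀ i, ∀ y ∈ Ω i, Injective (fderiv ℝ (A ∘ ver ∘ ε i) y)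
  dbl : ∀ i j, ∀ y ∈ Ω i, ∀ z ∈ Ω j, ε i y ≠ ε j z → A (ver (ε i y)) = A (ver (ε j z)) →
    Surjective fun ab : E2 × E2 =>
      fderiv ℝ (A ∘ ver ∘ ε j) z ab.2 - fderiv ℝ (A ∘ ver ∘ ε i) y ab.1
  curve : ∀ i j, ∀ y ∈ Ω i, ∀ z ∈ Ω j, ε i y ≠ ε j z →
    (A (ver (ε i y))).1 = (A (ver (ε j z))).1 →
    Surjective fun ab : E2 × E2 =>
      (fderiv ℝ (A ∘ ver ∘ ε j) z ab.2 - fderiv ℝ (A ∘ ver ∘ ε i) y ab.1).1
  cap : ∀ i, ∀ y ∈ Ω i, ∀ u, fderiv ℝ (A ∘ ver ∘ ε i) y u = e₀ →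
    Bijective fun ab : E2 × E2 =>
      fderiv ℝ (fderiv ℝ (A ∘ ver ∘ ε i)) y ab.1 u + fderiv ℝ (A ∘ ver ∘ ε i) y ab.2

/-- The parameters sending some vectors of a family into a bad image. -/
def bad {X W : Type*} {V : Type*} [NormedAddCommGroup V] [NormedSpace ℝ V] {n : ℕ}
    (w : X → Fin n → Ver N) (U : Set X) (T : V4' →L[ℝ] V) (b : W → Fin n → V) :
    Set (Ver N →L[ℝ] V4') :=
  {c | ∃ x ∈ U, ∃ z, ∀ m, T (c (w x m)) = b z m}

theorem dimH_bad {X W V : Type*} [NormedAddCommGroup X] [NormedSpace ℝ X] [FiniteDimensional ℝ X]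
    [NormedAddCommGroup W] [NormedSpace ℝ W] [FiniteDimensional ℝ W] [NormedAddCommGroup V]
    [NormedSpace ℝ V] [FiniteDimensional ℝ V] {n : ℕ} {w : X → Fin n → Ver N} {U : Set X}
    {T : V4' →L[ℝ] V} {b : W → Fin n → V} (hU : IsOpen U) (hT : Surjective T)
    (hw : ∀ m, ContDiffOn ℝ 1 (fun x => w x m) U)
    (hind : ∀ x ∈ U, ∀ c : Fin n → ℝ, ∑ m, c m • w x m = 0 → c = 0) (hb : ContDiff ℝ 1 b)
    (hdim : finrank ℝ X + finrank ℝ W < n * finrank ℝ V) :
    dimH (bad w U T b) ≤ ((finrank ℝ (Ver N →L[ℝ] V4') - 1 : ℕ) : ENNReal) := by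
  rcases U.eq_empty_or_nonempty with h | ⟨x₀, hx₀⟩
  · simp [bad, h]
  let Tn : (Fin n → V4') →L[ℝ] (Fin n → V) :=
    ContinuousLinearMap.pi fun m => T.comp (ContinuousLinearMap.proj m)
  let Q : X → (Ver N →L[ℝ] V4') →L[ℝ] (Fin n → V) := fun x => Tn.comp (evalAt (w x))
  have hQ : ∀ x ∈ U, Surjective (Q x) := by
    intro x hx v
    choose v' hv' using fun m => hT (v m)
    obtain ⟨c, hc⟩ := evalAt_surjective (V := V4') (hind x hx) v'
    exact ⟨c, by ext m : 1; simp [Q, Tn, hc, hv']⟩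
  have hQs : ContDiffOn ℝ 1 Q U := contDiffOn_clm_apply.2 fun c => contDiffOn_pi.2 fun m =>
    (T.comp c).contDiff.comp_contDiffOn (hw m)
  have hsub : bad w U T b ⊆ exceptional Q (fun _ => 0) b U univ := by
    rintro c ⟨x, hx, z, hz⟩
    exact ⟨x, hx, z, trivial, by ext m : 1; simpa [Q, Tn, evalAt] using hz m⟩
  refine (dimH_mono hsub).trans ((dimH_exceptional_le hU isOpen_univ hQs contDiffOn_const
    hb.contDiffOn hQ).trans ?_)
  have h1 := (Q x₀ : (Ver N →L[ℝ] V4') →ₗ[ℝ] Fin n → V).finrank_le_finrank_of_surjective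
    (hQ x₀ hx₀)
  simp only [Module.finrank_pi_fintype, Finset.sum_const, Finset.card_univ, Fintype.card_fin,
    smul_eq_mul] at h1 ⊢
  norm_cast
  omega

theorem finrank_V4 : finrank ℝ V4' = 4 := by simp

variable {ι : Type*} [Finite ι] {Ω : ι → Set E2} {ε : ι → E2 → Fin N → ℝ}

section charts

variable (hΩ : ∀ i, IsOpen (Ω i)) (hε : ∀ i, ContDiffOn ℝ ∞ (ε i) (Ω i))
  (hinj : ∀ i, ∀ y ∈ Ω i, Injective (fderiv ℝ (ε i) y))

/-- The pairs of different points. -/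
def offDiag (Ω : ι → Set E2) (ε : ι → E2 → Fin N → ℝ) (i j : ι) : Set (E2 × E2) :=
  (Ω i ×ˢ Ω j) ∩ (fun x => ε j x.2 - ε i x.1) ⁻¹' {0}ᶜ

omit [Finite ι] in
include hΩ hε in
theorem isOpen_offDiag (i j : ι) : IsOpen (offDiag Ω ε i j) :=
  (((hε j).continuousOn.comp continuousOn_snd fun x hx => hx.2).sub
    ((hε i).continuousOn.comp continuousOn_fst fun x hx => hx.1)).isOpen_inter_preimage
    ((hΩ i).prod (hΩ j)) isOpen_compl_singleton

omit [Finite ι] in
include hΩ hε in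
theorem diff_ver (i : ι) {y : E2} (hy : y ∈ Ω i) :
    ContDiffAt ℝ ∞ (ver ∘ ε i) y ∧ ContDiffAt ℝ 2 (ε i) y := by
  have h := (hε i).contDiffAt ((hΩ i).mem_nhds hy)
  exact ⟨contDiff_ver.contDiffAt.comp y h, h.of_le (by norm_cast)⟩

omit [Finite ι] in
include hΩ hε in
theorem contDiffOn_fderiv_ver (i : ι) :
    ContDiffOn ℝ 1 (fderiv ℝ (ver ∘ ε i)) (Ω i) ∧
      ContDiffOn ℝ 1 (fderiv ℝ (fderiv ℝ (ver ∘ ε i))) (Ω i) := by
  have h1 : ContDiffOn ℝ 2 (fderiv ℝ (ver ∘ ε i)) (Ω i) :=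
    (contDiff_ver.comp_contDiffOn (hε i)).fderiv_of_isOpen (hΩ i) (by norm_cast)
  exact ⟨h1.of_le (by norm_num), h1.fderiv_of_isOpen (hΩ i) (by norm_num)⟩

omit [Finite ι] in
include hΩ hε in
theorem smooth_pair (i j : ι) (m : Fin 5) :
    ContDiffOn ℝ 1 (fun x => pairVecs (ver ∘ ε i) (ver ∘ ε j) x m) (offDiag Ω ε i j) := by
  have a1 := ((contDiffOn_fderiv_ver hΩ hε i).1).comp (contDiffOn_fst (𝕜 := ℝ) (E := E2) (F := E2)
    (s := offDiag Ω ε i j)) fun x hx => hx.1.1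
  have a2 := ((contDiffOn_fderiv_ver hΩ hε j).1).comp (contDiffOn_snd (𝕜 := ℝ) (E := E2) (F := E2)
    (s := offDiag Ω ε i j)) fun x hx => hx.1.2
  have b1 : ContDiffOn ℝ 1 (fun x : E2 × E2 => (ver ∘ ε i) x.1) (offDiag Ω ε i j) :=
    ((contDiff_ver.comp_contDiffOn (hε i)).of_le (by norm_cast)).comp contDiffOn_fst
      fun x hx => hx.1.1
  have b2 : ContDiffOn ℝ 1 (fun x : E2 × E2 => (ver ∘ ε j) x.2) (offDiag Ω ε i j) :=
    ((contDiff_ver.comp_contDiffOn (hε j)).of_le (by norm_cast)).comp contDiffOn_snd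
      fun x hx => hx.1.2
  fin_cases m
  · exact b2.sub b1
  · exact a1.clm_apply contDiffOn_const
  · exact a1.clm_apply contDiffOn_const
  · exact a2.clm_apply contDiffOn_const
  · exact a2.clm_apply contDiffOn_const

omit [Finite ι] in
include hΩ hε in
theorem smooth_cap (i : ι) (j : Fin 2) (m : Fin 4) :
    ContDiffOn ℝ 1 (fun x => capVecs (ver ∘ ε i) j x m) (Ω i ×ˢ univ) := by
  have a1 := ((contDiffOn_fderiv_ver hΩ hε i).1).comp (contDiffOn_fst (𝕜 := ℝ) (E := E2) (F := ℝ)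
    (s := Ω i ×ˢ univ)) fun x hx => hx.1
  have a2 := ((contDiffOn_fderiv_ver hΩ hε i).2).comp (contDiffOn_fst (𝕜 := ℝ) (E := E2) (F := ℝ)
    (s := Ω i ×ˢ univ)) fun x hx => hx.1
  have d : ContDiffOn ℝ 1 (fun x : E2 × ℝ => dir j x.2) (Ω i ×ˢ univ) :=
    (((contDiff_dir j).of_le (by norm_cast)).comp contDiff_snd).contDiffOn
  fin_cases m
  · exact a1.clm_apply d
  · exact (a2.clm_apply d).clm_apply d
  · exact (a2.clm_apply contDiffOn_const).clm_apply d
  · exact a1.clm_apply contDiffOn_const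

omit [Finite ι] in
include hΩ hε hinj in
theorem ind_pair (i j : ι) : ∀ x ∈ offDiag Ω ε i j, ∀ c : Fin 5 → ℝ,
    ∑ k, c k • pairVecs (ver ∘ ε i) (ver ∘ ε j) x k = 0 → c = 0 := by
  intro x hx c hc
  obtain ⟨⟨h1, h2⟩, h3⟩ := hx
  simp only [pairVecs, Fin.sum_univ_five] at hc
  obtain ⟨hc0, hv, hw⟩ := chord_tangents ((diff_ver hΩ hε i h1).2.differentiableAt (by simp))
    ((diff_ver hΩ hε j h2).2.differentiableAt (by simp)) (hinj i _ h1) (hinj j _ h2)
    (fun h => h3 (sub_eq_zero.2 h.symm)) (c := c 0) (v := c 1 • ax 0 + c 2 • ax 1)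
    (w := c 3 • ax 0 + c 4 • ax 1) (by
      simp at hc
      rw [← hc]; simp only [map_add, map_smul]; abel)
  have g0 := congrFun (congrArg WithLp.ofLp hv) 0
  have g1 := congrFun (congrArg WithLp.ofLp hv) 1
  have g3 := congrFun (congrArg WithLp.ofLp hw) 0
  have g4 := congrFun (congrArg WithLp.ofLp hw) 1
  simp [ax] at g0 g1 g3 g4
  ext k; fin_cases k <;> simp [hc0, g0, g1, g3, g4]

omit [Finite ι] in
include hΩ hε hinj in
theorem ind_cap (i : ι) (j : Fin 2) : ∀ x ∈ Ω i ×ˢ (univ : Set ℝ), ∀ c : Fin 4 → ℝ,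
    ∑ k, c k • capVecs (ver ∘ ε i) j x k = 0 → c = 0 := by
  intro x hx c hc
  simp only [capVecs, Fin.sum_univ_four] at hc
  obtain ⟨ha, hw⟩ := jet_independent (diff_ver hΩ hε i hx.1).2 (hinj i _ hx.1) (dir_ne j x.2)
    (a := c 1 • dir j x.2 + c 2 • ax (1 - j)) (w := c 0 • dir j x.2 + c 3 • ax (1 - j)) (by
      simp at hc
      rw [← hc]
      simp only [map_add, map_smul, ContinuousLinearMap.add_apply, ContinuousLinearMap.smul_apply]
      abel)
  have g1 := congrFun (congrArg WithLp.ofLp ha) j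
  have g2 := congrFun (congrArg WithLp.ofLp ha) (1 - j)
  have g0 := congrFun (congrArg WithLp.ofLp hw) j
  have g3 := congrFun (congrArg WithLp.ofLp hw) (1 - j)
  ext k
  fin_cases j <;> simp [dir, ax] at g0 g1 g2 g3 <;> fin_cases k <;> simp_all

omit [Finite ι] in
include hΩ hε hinj in
theorem ind_imm (i : ι) (j : Fin 2) : ∀ x ∈ Ω i ×ˢ (univ : Set ℝ), ∀ c : Fin 1 → ℝ,
    ∑ k, c k • immVecs (ver ∘ ε i) j x k = 0 → c = 0 := by
  intro x hx c hc
  obtain ⟨-, hw⟩ := jet_independent (diff_ver hΩ hε i hx.1).2 (hinj i _ hx.1) (dir_ne j x.2)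
    (a := 0) (w := c 0 • dir j x.2) (by simpa [immVecs] using hc)
  ext k
  rw [Subsingleton.elim k 0]
  simpa [dir_ne] using hw

omit [Finite ι] in
include hΩ hε in
theorem fderiv_proj (A : Ver N →L[ℝ] V4') (i : ι) {y : E2} (hy : y ∈ Ω i) (v : E2) :
    fderiv ℝ (A ∘ ver ∘ ε i) y v = A (fderiv ℝ (ver ∘ ε i) y v) := by
  rw [fderiv_comp y A.differentiableAt ((diff_ver hΩ hε i hy).1.differentiableAt (by simp))]
  simp

omit [Finite ι] in
include hΩ hε in
theorem fderiv2_proj (A : Ver N →L[ℝ] V4') (i : ι) {y : E2} (hy : y ∈ Ω i) (a u : E2) :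
    fderiv ℝ (fderiv ℝ (A ∘ ver ∘ ε i)) y a u = A (fderiv ℝ (fderiv ℝ (ver ∘ ε i)) y a u) := by
  have he : fderiv ℝ (A ∘ ver ∘ ε i) =ᶠ[𝓝 y] fun z => A.comp (fderiv ℝ (ver ∘ ε i) z) :=
    Filter.eventually_of_mem ((hΩ i).mem_nhds hy) fun z hz =>
      ContinuousLinearMap.ext (fderiv_proj hΩ hε A i hz)
  have hd : DifferentiableAt ℝ (fderiv ℝ (ver ∘ ε i)) y :=
    ((diff_ver hΩ hε i hy).1.fderiv_right (m := 1) (by norm_cast)).differentiableAt (by simp)
  rw [he.fderiv_eq, fderiv_clm_comp (differentiableAt_const A) hd]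
  simp

include hΩ hε in
omit [Finite ι] in
theorem imm_of_not_bad {A : Ver N →L[ℝ] V4'} {i : ι}
    (hA : ∀ j, A ∉ bad (immVecs (ver ∘ ε i) j) (Ω i ×ˢ univ) (.id ℝ V4')
      (fun _ : Fin 0 → ℝ => (0 : Fin 1 → V4'))) {y : E2} (hy : y ∈ Ω i) :
    Injective (fderiv ℝ (A ∘ ver ∘ ε i) y) := by
  rw [injective_iff_map_eq_zero]
  intro v hv
  by_contra hne
  obtain ⟨j, hj⟩ : ∃ j, v j ≠ 0 := by
    by_contra h; push Not at h; exact hne (PiLp.ext h)
  refine hA j ⟨(y, v (1 - j) / v j), ⟨hy, trivial⟩, 0, fun m => ?_⟩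
  have hvd : v = v j • dir j (v (1 - j) / v j) := by
    conv_lhs => rw [expand j (v (1 - j) / v j) v]
    simp [hj]
  rw [hvd, map_smul, fderiv_proj hΩ hε A i hy] at hv
  simpa [immVecs] using (smul_eq_zero.1 hv).resolve_left hj

include hΩ hε in
omit [Finite ι] in
theorem dbl_of_not_bad {A : Ver N →L[ℝ] V4'} {i j : ι}
    (hA : ∀ k, A ∉ bad (pairVecs (ver ∘ ε i) (ver ∘ ε j)) (offDiag Ω ε i j) (.id ℝ V4') (badDbl k))
    {y z : E2} (hy : y ∈ Ω i) (hz : z ∈ Ω j) (hne : ε i y ≠ ε j z)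
    (heq : A (ver (ε i y)) = A (ver (ε j z))) :
    Surjective fun ab : E2 × E2 =>
      fderiv ℝ (A ∘ ver ∘ ε j) z ab.2 - fderiv ℝ (A ∘ ver ∘ ε i) y ab.1 := by
  by_contra hs
  set t : Fin 4 → V4' := fun m => A (pairVecs (ver ∘ ε i) (ver ∘ ε j) (y, z) m.succ)
  obtain ⟨c, hc0, hc⟩ := exists_relation (t := t) finrank_V4 fun hsur => hs fun v => by
    obtain ⟨c, hc⟩ := hsur v
    refine ⟨(-(c 0 • ax 0 + c 1 • ax 1), c 2 • ax 0 + c 3 • ax 1), ?_⟩
    rw [← hc]
    simp [Fintype.linearCombination_apply, Fin.sum_univ_four, t, pairVecs,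
      fderiv_proj hΩ hε A i hy, fderiv_proj hΩ hε A j hz]
    abel
  obtain ⟨k, hk⟩ := Function.ne_iff.1 hc0
  refine hA k ⟨(y, z), ⟨⟨hy, hz⟩, fun h => hne (sub_eq_zero.1 h).symm⟩,
    (fun m => -(c (k.succAbove m)) / c k, fun m => t (k.succAbove m)), fun m => ?_⟩
  refine Fin.cases ?_ (fun m => ?_) m
  · simp [badDbl, pairVecs, heq]
  refine Fin.succAboveCases k ?_ (fun l => ?_) m
  · have h := exists_comb (t := t) (r := 0) (by rw [add_zero]; exact hc) hk
    simpa [badDbl, t] using h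
  · simp [badDbl, t]

include hΩ hε in
omit [Finite ι] in
theorem curve_of_not_bad {A : Ver N →L[ℝ] V4'} {i j : ι}
    (hA : ∀ k, A ∉ bad (pairVecs (ver ∘ ε i) (ver ∘ ε j)) (offDiag Ω ε i j)
      (.fst ℝ V3 ℝ) (badCurve k))
    {y z : E2} (hy : y ∈ Ω i) (hz : z ∈ Ω j) (hne : ε i y ≠ ε j z)
    (heq : (A (ver (ε i y))).1 = (A (ver (ε j z))).1) :
    Surjective fun ab : E2 × E2 =>
      (fderiv ℝ (A ∘ ver ∘ ε j) z ab.2 - fderiv ℝ (A ∘ ver ∘ ε i) y ab.1).1 := by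
  by_contra hs
  set t : Fin 4 → V3 := fun m => (A (pairVecs (ver ∘ ε i) (ver ∘ ε j) (y, z) m.succ)).1
  have hlt : LinearMap.range (Fintype.linearCombination ℝ t) < ⊤ := by
    refine lt_top_iff_ne_top.2 fun htop => hs fun v => ?_
    obtain ⟨c, hc⟩ := LinearMap.range_eq_top.1 htop v
    refine ⟨(-(c 0 • ax 0 + c 1 • ax 1), c 2 • ax 0 + c 3 • ax 1), ?_⟩
    rw [← hc]
    simp [Fintype.linearCombination_apply, Fin.sum_univ_four, t, pairVecs,
      fderiv_proj hΩ hε A i hy, fderiv_proj hΩ hε A j hz]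
    abel
  obtain ⟨ξ, hξ0, hξ⟩ := Submodule.exists_le_ker_of_lt_top _ hlt
  have hsum : ∀ v : V3, ∑ m, ξ (Pi.single m 1) * v m = ξ v := fun v => by
    conv_rhs => rw [pi_eq_sum_univ' v]
    simp [map_sum, mul_comm]
  obtain ⟨k, hk⟩ : ∃ k, ξ (Pi.single k 1) ≠ 0 := by
    by_contra h
    push Not at h
    exact hξ0 (LinearMap.ext fun v => by rw [← hsum]; simp [h])
  set c := fun m => ξ (Pi.single m 1)
  refine hA k ⟨(y, z), ⟨⟨hy, hz⟩, fun h => hne (sub_eq_zero.1 h).symm⟩,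
    (fun m => -(c (k.succAbove m)) / c k, fun l m => t l (k.succAbove m)), fun m => ?_⟩
  refine Fin.cases ?_ (fun m => ?_) m
  · simp [badCurve, pairVecs, heq]
  funext l
  refine Fin.succAboveCases k ?_ (fun l => ?_) l
  · have h0 : ∑ l, c l • t m l + 0 = 0 := by
      rw [add_zero]
      simp only [c, smul_eq_mul, hsum]
      exact LinearMap.mem_ker.1 (hξ ⟨Pi.single m 1, by
        rw [Fintype.linearCombination_apply_single, one_smul]⟩)
    simpa [badCurve, t] using exists_comb h0 hk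
  · simp [badCurve, t]

include hΩ hε in
omit [Finite ι] in
theorem cap_of_not_bad {A : Ver N →L[ℝ] V4'} {i : ι}
    (hA : ∀ j k, A ∉ bad (capVecs (ver ∘ ε i) j) (Ω i ×ˢ univ) (.id ℝ V4') (badCap k))
    {y : E2} (hy : y ∈ Ω i) {u : E2} (hu : fderiv ℝ (A ∘ ver ∘ ε i) y u = e₀) :
    Bijective fun ab : E2 × E2 =>
      fderiv ℝ (fderiv ℝ (A ∘ ver ∘ ε i)) y ab.1 u + fderiv ℝ (A ∘ ver ∘ ε i) y ab.2 := by
  have hu0 : u ≠ 0 := by
    rintro rfl; simp [e₀, Prod.ext_iff] at hu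
  obtain ⟨j, hj⟩ : ∃ j, u j ≠ 0 := by
    by_contra h; push Not at h; exact hu0 (PiLp.ext h)
  set s := u (1 - j) / u j
  have hud : u = u j • dir j s := by
    conv_lhs => rw [expand j s u]
    simp [s, hj]
  set F : E2 × E2 →L[ℝ] V4' :=
    (((fderiv ℝ (fderiv ℝ (A ∘ ver ∘ ε i)) y).flip u).comp (.fst ℝ E2 E2)) +
      (fderiv ℝ (A ∘ ver ∘ ε i) y).comp (.snd ℝ E2 E2)
  suffices h : Injective F by
    exact (show Bijective F from ⟨h, (LinearMap.injective_iff_surjective_of_finrank_eq_finrank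
      (f := (F : E2 × E2 →ₗ[ℝ] V4')) (by simp)).1 h⟩)
  rw [injective_iff_map_eq_zero]
  rintro ⟨a, b⟩ hab
  change fderiv ℝ (fderiv ℝ (A ∘ ver ∘ ε i)) y a u + fderiv ℝ (A ∘ ver ∘ ε i) y b = 0 at hab
  set g : Fin 4 → V4' := fun m => A (capVecs (ver ∘ ε i) j (y, s) m)
  have hg0 : g 0 = (u j)⁻¹ • e₀ := by
    have h := hu
    rw [fderiv_proj hΩ hε A i hy, hud, map_smul, map_smul] at h
    rw [← h, smul_smul, inv_mul_cancel₀ hj, one_smul]
    simp [g, capVecs]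
  set c : Fin 3 → ℝ := ![u j * a j, u j * (a (1 - j) - s * a j), b (1 - j) - s * b j]
  have hrel : ∑ m, c m • g m.succ + b j • g 0 = 0 := by
    rw [← hab, fderiv2_proj hΩ hε A i hy, fderiv_proj hΩ hε A i hy]
    conv_rhs => rw [hud]; rw [expand j s a, expand j s b]
    simp [g, capVecs, Fin.sum_univ_three, c]
    module
  by_cases hc : c = 0
  · have hbj : b j = 0 := by
      rw [hc] at hrel
      simp [hg0, hj, e₀, Prod.ext_iff] at hrel
      exact hrel
    have e1 := congrFun hc 0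
    have e2 := congrFun hc 1
    have e3 := congrFun hc 2
    simp [c, hj] at e1 e2 e3
    rw [expand j s a, expand j s b]
    simp only [e1, mul_zero, sub_zero] at e2
    simp only [hbj, mul_zero, sub_zero] at e3
    simp [e1, e2, e3, hbj]
  · exfalso
    obtain ⟨k, hk⟩ := Function.ne_iff.1 hc
    refine hA j k ⟨(y, s), ⟨hy, trivial⟩,
      ((u j)⁻¹, Fin.cons ((-1 / c k) * (b j * (u j)⁻¹)) (fun m => -(c (k.succAbove m)) / c k),
        fun m => g (k.succAbove m).succ), fun m => ?_⟩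
    refine Fin.cases ?_ (fun m => ?_) m
    · simpa [badCap, g] using hg0
    refine Fin.succAboveCases k ?_ (fun l => ?_) m
    · have h := exists_comb (t := fun m => g m.succ) hrel hk
      simp only [hg0, smul_smul] at h
      simp [badCap, g] at h ⊢
      rw [h]
      module
    · simp [badCap, g]

include hΩ hε hinj in
theorem exists_generic : ∃ A : Ver N →L[ℝ] V4', IsGeneric Ω ε A := by
  set P := Ver N →L[ℝ] V4'
  by_cases hempty : ∀ i, Ω i = ∅
  · exact ⟨0, ⟨fun i y hy => absurd hy (by simp [hempty]),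
      fun i j y hy => absurd hy (by simp [hempty]), fun i j y hy => absurd hy (by simp [hempty]),
      fun i y hy => absurd hy (by simp [hempty])⟩⟩
  push Not at hempty
  obtain ⟨i₀, y₀, hy₀⟩ := hempty
  have hpos : 0 < finrank ℝ P := by
    refine Module.finrank_pos_iff_exists_ne_zero.2 ?_
    obtain ⟨c, hc⟩ := evalAt_surjective (V := V4')
      (ind_imm hΩ hε hinj i₀ 0 (y₀, 0) ⟨hy₀, trivial⟩) fun _ => e₀
    refine ⟨c, fun h => ?_⟩
    have := congrFun hc 0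
    simp [h, evalAt, e₀, Prod.ext_iff] at this
  have hid : Surjective (ContinuousLinearMap.id ℝ V4') := surjective_id
  have hfst : Surjective (ContinuousLinearMap.fst ℝ V3 ℝ) := fun v => ⟨(v, 0), rfl⟩
  have h1 : ∀ q : ι × Fin 2, dimH (bad (immVecs (ver ∘ ε q.1) q.2) (Ω q.1 ×ˢ univ) (.id ℝ V4')
      (fun _ : Fin 0 → ℝ => (0 : Fin 1 → V4'))) ≤ ((finrank ℝ P - 1 : ℕ) : ENNReal) := fun q =>
    dimH_bad ((hΩ q.1).prod isOpen_univ) hid (fun m => smooth_cap hΩ hε q.1 q.2 0)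
      (ind_imm hΩ hε hinj q.1 q.2) contDiff_const (by simp)
  have h2 : ∀ q : ι × ι × Fin 4, dimH (bad (pairVecs (ver ∘ ε q.1) (ver ∘ ε q.2.1))
      (offDiag Ω ε q.1 q.2.1) (.id ℝ V4') (badDbl q.2.2)) ≤ ((finrank ℝ P - 1 : ℕ) : ENNReal) :=
    fun q => dimH_bad (isOpen_offDiag hΩ hε _ _) hid (smooth_pair hΩ hε _ _)
      (ind_pair hΩ hε hinj _ _) (contDiff_badDbl _) (by simp [Module.finrank_pi_fintype])
  have h4 : ∀ q : ι × ι × Fin 3, dimH (bad (pairVecs (ver ∘ ε q.1) (ver ∘ ε q.2.1))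
      (offDiag Ω ε q.1 q.2.1) (.fst ℝ V3 ℝ) (badCurve q.2.2)) ≤
      ((finrank ℝ P - 1 : ℕ) : ENNReal) :=
    fun q => dimH_bad (isOpen_offDiag hΩ hε _ _) hfst (smooth_pair hΩ hε _ _)
      (ind_pair hΩ hε hinj _ _) (contDiff_badCurve _) (by simp [Module.finrank_pi_fintype])
  have h3 : ∀ q : ι × Fin 2 × Fin 3, dimH (bad (capVecs (ver ∘ ε q.1) q.2.1) (Ω q.1 ×ˢ univ)
      (.id ℝ V4') (badCap q.2.2)) ≤ ((finrank ℝ P - 1 : ℕ) : ENNReal) :=
    fun q => dimH_bad ((hΩ q.1).prod isOpen_univ) hid (smooth_cap hΩ hε q.1 q.2.1)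
      (ind_cap hΩ hε hinj _ _) (contDiff_badCap _) (by simp [Module.finrank_pi_fintype])
  obtain ⟨A, -, hA⟩ := exists_not_mem_of_dimH_lt (P := P)
    (s := ((⋃ q : ι × Fin 2, bad (immVecs (ver ∘ ε q.1) q.2) (Ω q.1 ×ˢ univ) (.id ℝ V4')
          (fun _ : Fin 0 → ℝ => (0 : Fin 1 → V4'))) ∪
        (⋃ q : ι × ι × Fin 4, bad (pairVecs (ver ∘ ε q.1) (ver ∘ ε q.2.1))
          (offDiag Ω ε q.1 q.2.1) (.id ℝ V4') (badDbl q.2.2))) ∪
      ((⋃ q : ι × Fin 2 × Fin 3, bad (capVecs (ver ∘ ε q.1) q.2.1) (Ω q.1 ×ˢ univ)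
          (.id ℝ V4') (badCap q.2.2)) ∪
        (⋃ q : ι × ι × Fin 3, bad (pairVecs (ver ∘ ε q.1) (ver ∘ ε q.2.1))
          (offDiag Ω ε q.1 q.2.1) (.fst ℝ V3 ℝ) (badCurve q.2.2)))) isOpen_univ ⟨0, trivial⟩ (by
      simp only [dimH_union, dimH_iUnion]
      refine lt_of_le_of_lt (max_le (max_le (iSup_le h1) (iSup_le h2))
        (max_le (iSup_le h3) (iSup_le h4))) ?_
      norm_cast; omega)
  simp only [mem_union, mem_iUnion, not_or, not_exists] at hA
  obtain ⟨⟨hA1, hA2⟩, hA3, hA4⟩ := hA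
  exact ⟨A, fun i y hy => imm_of_not_bad hΩ hε (fun j => hA1 (i, j)) hy,
    fun i j y hy z hz => dbl_of_not_bad hΩ hε (fun k => hA2 (i, j, k)) hy hz,
    fun i j y hy z hz => curve_of_not_bad hΩ hε (fun k => hA4 (i, j, k)) hy hz,
    fun i y hy u => cap_of_not_bad hΩ hε (fun j k => hA3 (i, j, k)) hy⟩

end charts

end

end Vale.Agent.P205.Full.Topo
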