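import Mathlib
import Vale.Agent.P205.Full.Topology.Generic
import Vale.Agent.P205.Full.ParamInt

/-!
# P205: pairs of points with a small vertical chord

Near a nondegenerate double point, and near a nondegenerate zero of the vertical vector (blown
up), the pairs whose chord is `(0, ε)` form one germ.
-/

namespace Vale.Agent.P205.Full.Topo

open Set Function Filter Module
open scoped ContDiff Topology

noncomputable section

/-- The derivative of the chord of two plane maps. -/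
def chordDeriv (g₀ g₁ : E2 → V4') (y z : E2) : E2 × E2 →L[ℝ] V4' :=
  (fderiv ℝ g₁ z).comp (.snd ℝ E2 E2) - (fderiv ℝ g₀ y).comp (.fst ℝ E2 E2)

@[simp] theorem chordDeriv_apply (g₀ g₁ : E2 → V4') (y z : E2) (ab : E2 × E2) :
    chordDeriv g₀ g₁ y z ab = fderiv ℝ g₁ z ab.2 - fderiv ℝ g₀ y ab.1 := rfl

theorem chord_hasStrictFDerivAt {g₀ g₁ : E2 → V4'} {y z : E2} (h₀ : ContDiffAt ℝ ∞ g₀ y)
    (h₁ : ContDiffAt ℝ ∞ g₁ z) :
    HasStrictFDerivAt (fun w : E2 × E2 => g₁ w.2 - g₀ w.1) (chordDeriv g₀ g₁ y z) (y, z) :=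
  ((h₁.hasStrictFDerivAt (by simp)).comp (y, z) hasStrictFDerivAt_snd).sub
    ((h₀.hasStrictFDerivAt (by simp)).comp (y, z) hasStrictFDerivAt_fst)

/-- An equivalence out of an injective map between spaces of equal dimension. -/
def equivOfInj {E F : Type*} [NormedAddCommGroup E] [NormedSpace ℝ E] [FiniteDimensional ℝ E]
    [NormedAddCommGroup F] [NormedSpace ℝ F] [FiniteDimensional ℝ F]
    (L : E →L[ℝ] F) (h : Injective L) (hd : finrank ℝ E = finrank ℝ F) : E ≃L[ℝ] F :=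
  (LinearMap.linearEquivOfInjective (L : E →ₗ[ℝ] F) h hd).toContinuousLinearEquiv

theorem coe_equivOfInj {E F : Type*} [NormedAddCommGroup E] [NormedSpace ℝ E]
    [FiniteDimensional ℝ E] [NormedAddCommGroup F] [NormedSpace ℝ F] [FiniteDimensional ℝ F]
    (L : E →L[ℝ] F) (h : Injective L) (hd : finrank ℝ E = finrank ℝ F) :
    (equivOfInj L h hd : E →L[ℝ] F) = L := by
  ext x; rfl

theorem injective_of_surjective_plane {L : E2 × E2 →L[ℝ] V4'} (h : Surjective L) : Injective L :=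
  (LinearMap.injective_iff_surjective_of_finrank_eq_finrank
    (f := (L : E2 × E2 →ₗ[ℝ] V4')) (by simp)).2 h

theorem surjective_of_injective_plane {L : E2 × E2 →L[ℝ] V4'} (h : Injective L) : Surjective L :=
  (LinearMap.injective_iff_surjective_of_finrank_eq_finrank
    (f := (L : E2 × E2 →ₗ[ℝ] V4')) (by simp)).1 h

/-- The germ at a nondegenerate double point. -/
theorem exists_double_germ {g₀ g₁ : E2 → V4'} {y₀ z₀ : E2} (h₀ : ContDiffAt ℝ ∞ g₀ y₀)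
    (h₁ : ContDiffAt ℝ ∞ g₁ z₀) (heq : g₁ z₀ = g₀ y₀)
    (hsur : Surjective (chordDeriv g₀ g₁ y₀ z₀)) :
    ∃ b : ℝ → E2 × E2, Tendsto b (𝓝[>] 0) (𝓝 (y₀, z₀)) ∧
      (∀ᶠ ε in 𝓝[>] (0 : ℝ), g₁ (b ε).2 - g₀ (b ε).1 = (0, ε) ∧
        Surjective (chordDeriv g₀ g₁ (b ε).1 (b ε).2)) ∧
      ∀ᶠ p in 𝓝[>] (0 : ℝ) ×ˢ 𝓝 (y₀, z₀),
        g₁ p.2.2 - g₀ p.2.1 = (0, p.1) → p.2 = b p.1 := by
  set G := fun w : E2 × E2 => g₁ w.2 - g₀ w.1
  set e := equivOfInj (chordDeriv g₀ g₁ y₀ z₀) (injective_of_surjective_plane hsur) (by simp)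
  have hG : HasStrictFDerivAt G (e : E2 × E2 →L[ℝ] V4') (y₀, z₀) := by
    rw [coe_equivOfInj]; exact chord_hasStrictFDerivAt h₀ h₁
  set P := hG.toOpenPartialHomeomorph G
  have hP : (P : E2 × E2 → V4') = G := rfl
  have hc : (y₀, z₀) ∈ P.source := hG.mem_toOpenPartialHomeomorph_source
  have hG0 : G (y₀, z₀) = 0 := by simp [G, heq]
  have hline : Tendsto (fun ε : ℝ => ((0 : V3), ε)) (𝓝[>] 0) (𝓝 (G (y₀, z₀))) := by
    rw [hG0]
    exact (((continuous_const (y := (0 : V3))).prodMk continuous_id).tendsto' (0 : ℝ) (0 : V4')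
      rfl).mono_left nhdsWithin_le_nhds
  have hb : Tendsto (fun ε : ℝ => P.symm (0, ε)) (𝓝[>] 0) (𝓝 (y₀, z₀)) :=
    (P.tendsto_symm hc).comp hline
  refine ⟨fun ε => P.symm (0, ε), hb, ?_, ?_⟩
  · have htar : ∀ᶠ ε in 𝓝[>] (0 : ℝ), ((0 : V3), ε) ∈ P.target :=
      hline.eventually (P.open_target.mem_nhds (hP ▸ P.map_source hc))
    have hopen : IsOpen {L : E2 × E2 →L[ℝ] V4' | ∃ e' : (E2 × E2) ≃L[ℝ] V4', ↑e' = L} :=
      ContinuousLinearEquiv.isOpen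
    have d₀ : ContinuousAt (fun w : E2 × E2 => fderiv ℝ g₀ w.1) (y₀, z₀) :=
      (h₀.continuousAt_fderiv (by simp)).comp_of_eq continuousAt_fst rfl
    have d₁ : ContinuousAt (fun w : E2 × E2 => fderiv ℝ g₁ w.2) (y₀, z₀) :=
      (h₁.continuousAt_fderiv (by simp)).comp_of_eq continuousAt_snd rfl
    have hcont : ContinuousAt (fun w : E2 × E2 => chordDeriv g₀ g₁ w.1 w.2) (y₀, z₀) :=
      (d₁.clm_comp continuousAt_const).sub (d₀.clm_comp continuousAt_const)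
    have hnear := (hcont.eventually (hopen.mem_nhds ⟨e, coe_equivOfInj _ _ _⟩))
    filter_upwards [htar, hb.eventually hnear] with ε hε hL
    refine ⟨P.right_inv hε, ?_⟩
    obtain ⟨e', he'⟩ := hL
    rw [← he']; exact e'.surjective
  · filter_upwards [tendsto_snd.eventually (P.open_source.mem_nhds hc)] with p hp h
    rw [← h]
    exact (P.left_inv hp).symm

/-- A global smooth map equal to a given one near a point. -/
theorem exists_global {g : E2 → V4'} {Ω : Set E2} {y₀ : E2} (hΩ : IsOpen Ω) (hy : y₀ ∈ Ω)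
    (hg : ContDiffOn ℝ ∞ g Ω) : ∃ G : E2 → V4', ContDiff ℝ ∞ G ∧ G =ᶠ[𝓝 y₀] g := by
  obtain ⟨r, hr, hball⟩ := Metric.nhds_basis_closedBall.mem_iff.1 (hΩ.mem_nhds hy)
  let β : ContDiffBump y₀ := ⟨r / 2, r, half_pos hr, half_lt_self hr⟩
  refine ⟨fun y => β y • g y, contDiff_iff_contDiffAt.2 fun y => ?_,
    β.eventuallyEq_one.mono fun y hy => by simp [hy]⟩
  by_cases h : y ∈ Ω
  · exact β.contDiff.contDiffAt.smul (hg.contDiffAt (hΩ.mem_nhds h))
  · refine contDiffAt_const (c := (0 : V4')).congr_of_eventuallyEq ?_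
    have hn : y ∉ tsupport (β : E2 → ℝ) := by
      rw [β.tsupport_eq]; exact fun h' => h (hball h')
    filter_upwards [(isClosed_tsupport _).isOpen_compl.mem_nhds hn] with z hz
    simp [image_eq_zero_of_notMem_tsupport hz]

/-- First order: a small vertical chord near the diagonal points along the vertical vector. -/
theorem eventually_direction {g : E2 → V4'} {y₀ : E2} (hg : ContDiffAt ℝ ∞ g y₀) {c : ℝ}
    (hc : 0 < c) : ∀ᶠ p in 𝓝[>] (0 : ℝ) ×ˢ 𝓝 (y₀, y₀), g p.2.2 - g p.2.1 = (0, p.1) →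
      ‖fderiv ℝ g y₀ (p.1⁻¹ • (p.2.2 - p.2.1)) - e₀‖ ≤ c * ‖p.1⁻¹ • (p.2.2 - p.2.1)‖ := by
  have h := (hg.hasStrictFDerivAt (by simp)).isLittleO.def hc
  have hswap : Tendsto (fun p : ℝ × E2 × E2 => (p.2.2, p.2.1)) (𝓝[>] (0 : ℝ) ×ˢ 𝓝 (y₀, y₀))
      (𝓝 (y₀, y₀)) :=
    ((continuous_snd.prodMk continuous_fst).tendsto (y₀, y₀)).comp tendsto_snd
  have hpos : ∀ᶠ p in 𝓝[>] (0 : ℝ) ×ˢ 𝓝 (y₀, y₀), 0 < p.1 :=
    tendsto_fst.eventually (eventually_mem_nhdsWithin)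
  filter_upwards [hswap.eventually h, hpos] with p hp hε heq
  have he : p.1⁻¹ • ((0 : V3), p.1) = e₀ := by simp [e₀, hε.ne']
  rw [map_smul, ← he, ← smul_sub, norm_smul, norm_smul, heq.symm, mul_left_comm c]
  refine mul_le_mul_of_nonneg_left ?_ (norm_nonneg _)
  rw [norm_sub_rev]
  exact hp

/-- A cluster point of small vertical chords on the diagonal sees the vertical vector. -/
theorem exists_vertical {g : E2 → V4'} {y₀ : E2} (hg : ContDiffAt ℝ ∞ g y₀)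
    (hinj : Injective (fderiv ℝ g y₀))
    (hfreq : ∃ᶠ p in 𝓝[>] (0 : ℝ) ×ˢ 𝓝 (y₀, y₀), g p.2.2 - g p.2.1 = (0, p.1)) :
    ∃ u, fderiv ℝ g y₀ u = e₀ := by
  set L := fderiv ℝ g y₀
  obtain ⟨K, hK, hanti⟩ := (L : E2 →ₗ[ℝ] V4').exists_antilipschitzWith
    (LinearMap.ker_eq_bot.2 hinj)
  have hKb : ∀ w, ‖w‖ ≤ K * ‖L w‖ := fun w => by
    simpa using hanti.le_mul_dist w 0
  have hclosed : IsClosed (LinearMap.range (L : E2 →ₗ[ℝ] V4') : Set V4') :=
    Submodule.closed_of_finiteDimensional _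
  suffices h : e₀ ∈ closure (LinearMap.range (L : E2 →ₗ[ℝ] V4') : Set V4') by
    rw [hclosed.closure_eq] at h; exact h
  refine Metric.mem_closure_iff.2 fun δ hδ => ?_
  have hK' : (0 : ℝ) < K := NNReal.coe_pos.2 hK
  set c := min (1 / (2 * (K : ℝ))) (δ / (4 * K * ‖e₀‖ + 1))
  have hden : (0 : ℝ) < 4 * K * ‖e₀‖ + 1 := by positivity
  have hc : 0 < c := lt_min (by positivity) (div_pos hδ hden)
  obtain ⟨p, hp, heq⟩ := ((eventually_direction hg hc).and_frequently hfreq).exists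
  set u := p.1⁻¹ • (p.2.2 - p.2.1)
  have h1 := hp heq
  have h2 : ‖L u‖ ≤ ‖e₀‖ + c * ‖u‖ := (norm_le_norm_add_norm_sub' _ e₀).trans (by linarith)
  have h3 : K * c ≤ 1 / 2 := by
    have := mul_le_mul_of_nonneg_left (min_le_left (1 / (2 * (K : ℝ))) (δ / (4 * K * ‖e₀‖ + 1))) hK'.le
    calc K * c ≤ K * (1 / (2 * K)) := this
      _ = 1 / 2 := by field_simp
  have h4 : ‖u‖ ≤ 2 * K * ‖e₀‖ := by
    have := (hKb u).trans (mul_le_mul_of_nonneg_left h2 hK'.le)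
    nlinarith [mul_le_mul_of_nonneg_right h3 (norm_nonneg u)]
  refine ⟨L u, ⟨u, rfl⟩, ?_⟩
  rw [dist_comm, dist_eq_norm]
  refine h1.trans_lt ?_
  calc c * ‖u‖ ≤ δ / (4 * K * ‖e₀‖ + 1) * (2 * K * ‖e₀‖) :=
        mul_le_mul (min_le_right _ _) h4 (norm_nonneg _) (div_pos hδ hden).le
    _ < δ := by rw [div_mul_eq_mul_div, div_lt_iff₀ hden]; nlinarith [norm_nonneg e₀]

/-- The divided difference in blown-up coordinates `(point, direction, length)`. -/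
def blow (G : E2 → V4') (x : E2 × E2 × ℝ) : V4' :=
  ∫ σ in (0 : ℝ)..1, fderiv ℝ G (x.1 + (σ * x.2.2) • x.2.1) x.2.1

theorem contDiff_blow {G : E2 → V4'} (hG : ContDiff ℝ ∞ G) : ContDiff ℝ ∞ (blow G) :=
  ParamInt.contDiff_integral01 (F := fun z : (E2 × E2 × ℝ) × ℝ =>
      fderiv ℝ G (z.1.1 + (z.2 * z.1.2.2) • z.1.2.1) z.1.2.1)
    (((hG.fderiv_right (m := ∞) le_rfl).comp (by fun_prop)).clm_apply (by fun_prop))

theorem smul_blow {G : E2 → V4'} (hG : ContDiff ℝ ∞ G) (x : E2 × E2 × ℝ) :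
    x.2.2 • blow G x = G (x.1 + x.2.2 • x.2.1) - G x.1 := by
  have hd : ∀ σ : ℝ, HasDerivAt (fun σ : ℝ => G (x.1 + (σ * x.2.2) • x.2.1))
      (x.2.2 • fderiv ℝ G (x.1 + (σ * x.2.2) • x.2.1) x.2.1) σ := by
    intro σ
    have h1 : HasDerivAt (fun σ : ℝ => x.1 + (σ * x.2.2) • x.2.1) (x.2.2 • x.2.1) σ := by
      simpa using (((hasDerivAt_id σ).mul_const x.2.2).smul_const x.2.1).const_add x.1
    have := ((hG.differentiable (by simp)) _).hasFDerivAt.comp_hasDerivAt σ h1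
    simpa [Function.comp_def] using this
  rw [blow, ← intervalIntegral.integral_smul,
    intervalIntegral.integral_eq_sub_of_hasDerivAt (fun σ _ => hd σ)]
  · simp
  · exact (Continuous.intervalIntegrable (by
      have := hG.continuous_fderiv (by simp)
      fun_prop) _ _)

/-- Freezing the length. -/
def incl (s : ℝ) : E2 × E2 → E2 × E2 × ℝ := fun w => (w.1, w.2, s)

/-- The two space directions. -/
def inclL : E2 × E2 →L[ℝ] E2 × E2 × ℝ :=
  (ContinuousLinearMap.fst ℝ E2 E2).prod ((ContinuousLinearMap.snd ℝ E2 E2).prod 0)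

theorem hasFDerivAt_incl (s : ℝ) (w : E2 × E2) : HasFDerivAt (incl s) inclL w :=
  hasFDerivAt_fst.prodMk (hasFDerivAt_snd.prodMk (hasFDerivAt_const s w))

/-- The derivative of the divided difference at length zero. -/
theorem fderiv_blow_zero {G : E2 → V4'} (hG : ContDiff ℝ ∞ G) (y₀ u₀ a b : E2) :
    fderiv ℝ (blow G) (y₀, u₀, 0) (a, b, 0) =
      fderiv ℝ (fderiv ℝ G) y₀ a u₀ + fderiv ℝ G y₀ b := by
  have h1 : HasFDerivAt (fun w => blow G (incl 0 w))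
      ((fderiv ℝ (blow G) (y₀, u₀, 0)).comp inclL) (y₀, u₀) :=
    (((contDiff_blow hG).differentiable (by simp)) (incl 0 (y₀, u₀))).hasFDerivAt.comp (y₀, u₀)
      (hasFDerivAt_incl 0 _)
  have he : (fun w => blow G (incl 0 w)) = fun w : E2 × E2 => fderiv ℝ G w.1 w.2 := by
    funext w; simp [blow, incl]
  have hG1 : HasFDerivAt (fderiv ℝ G) (fderiv ℝ (fderiv ℝ G) y₀) y₀ :=
    (((hG.fderiv_right (m := ∞) le_rfl).differentiable (by simp)) y₀).hasFDerivAt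
  have hF : HasFDerivAt (fun w : E2 × E2 => fderiv ℝ G w.1)
      ((fderiv ℝ (fderiv ℝ G) y₀).comp (ContinuousLinearMap.fst ℝ E2 E2)) (y₀, u₀) :=
    hG1.comp (y₀, u₀) hasFDerivAt_fst
  have h2 := hF.clm_apply (hasFDerivAt_snd : HasFDerivAt (Prod.snd : E2 × E2 → E2)
    (ContinuousLinearMap.snd ℝ E2 E2) (y₀, u₀))
  rw [he] at h1
  have := DFunLike.congr_fun (h1.unique h2) (a, b)
  simp [inclL] at this
  rw [this, add_comm]

/-- A nondegenerate blown-up solution gives a nondegenerate chord. -/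
theorem surjective_chord_blow {G : E2 → V4'} (hG : ContDiff ℝ ∞ G) (x : E2 × E2 × ℝ)
    (hs : x.2.2 ≠ 0) (hiso : ∃ e' : (E2 × E2 × ℝ) ≃L[ℝ] V4' × ℝ, ↑e' = (fderiv ℝ (blow G) x).prod
      ((ContinuousLinearMap.snd ℝ E2 ℝ).comp (ContinuousLinearMap.snd ℝ E2 (E2 × ℝ)))) :
    Surjective (chordDeriv G G x.1 (x.1 + x.2.2 • x.2.1)) := by
  obtain ⟨y, u, ε⟩ := x
  dsimp only at hs ⊢
  refine surjective_of_injective_plane ((injective_iff_map_eq_zero _).2 ?_)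
  rintro ⟨a, c⟩ h
  rw [chordDeriv_apply] at h
  set b := ε⁻¹ • (c - a)
  have hcb : c = a + ε • b := by simp [b, smul_smul, hs]
  have k1 : HasFDerivAt (fun w => ε • blow G (incl ε w))
      (ε • (fderiv ℝ (blow G) (y, u, ε)).comp inclL) (y, u) :=
    ((((contDiff_blow hG).differentiable (by simp)) (incl ε (y, u))).hasFDerivAt.comp (y, u)
      (hasFDerivAt_incl ε _)).const_smul ε
  have k2 : HasFDerivAt (fun w : E2 × E2 => G (w.1 + ε • w.2) - G w.1)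
      ((fderiv ℝ G (y + ε • u)).comp (.fst ℝ E2 E2 + ε • .snd ℝ E2 E2) -
        (fderiv ℝ G y).comp (.fst ℝ E2 E2)) (y, u) :=
    (((hG.differentiable (by simp)) _).hasFDerivAt.comp (y, u)
      (hasFDerivAt_fst.add (hasFDerivAt_snd.const_smul ε))).sub
    (((hG.differentiable (by simp)) _).hasFDerivAt.comp (y, u) hasFDerivAt_fst)
  have hfun : (fun w => ε • blow G (incl ε w)) = fun w : E2 × E2 => G (w.1 + ε • w.2) - G w.1 :=
    funext fun w => smul_blow hG (incl ε w)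
  rw [hfun] at k1
  have hk := DFunLike.congr_fun (k1.unique k2) (a, b)
  obtain ⟨e', he'⟩ := hiso
  have hzero : fderiv ℝ (blow G) (y, u, ε) (a, b, 0) = 0 := by
    have h' : fderiv ℝ G (y + ε • u) (a + ε • b) - fderiv ℝ G y a = 0 := by
      rw [← hcb]; exact h
    have h'' : ε • fderiv ℝ (blow G) (y, u, ε) (a, b, 0) = 0 := by
      rw [← h']; simpa [inclL] using hk
    exact (smul_eq_zero.1 h'').resolve_left hs
  have he0 : e' (a, b, 0) = 0 := by
    show (e' : E2 × E2 × ℝ →L[ℝ] V4' × ℝ) (a, b, 0) = 0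
    rw [he']; simp [hzero]
  rw [map_eq_zero_iff _ e'.injective, Prod.mk_eq_zero, Prod.mk_eq_zero] at he0
  simp [hcb, he0.1, he0.2.1]

/-- The germ at a nondegenerate zero of the vertical vector. -/
theorem exists_cap_germ {g : E2 → V4'} {Ω : Set E2} {y₀ u₀ : E2} (hΩ : IsOpen Ω) (hy : y₀ ∈ Ω)
    (hg : ContDiffOn ℝ ∞ g Ω) (hinj : Injective (fderiv ℝ g y₀))
    (hu : fderiv ℝ g y₀ u₀ = e₀)
    (hcap : Bijective fun ab : E2 × E2 =>
      fderiv ℝ (fderiv ℝ g) y₀ ab.1 u₀ + fderiv ℝ g y₀ ab.2) :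
    ∃ b : ℝ → E2 × E2, Tendsto b (𝓝[>] 0) (𝓝 (y₀, y₀)) ∧
      (∀ᶠ ε in 𝓝[>] (0 : ℝ), g (b ε).2 - g (b ε).1 = (0, ε) ∧
        Surjective (chordDeriv g g (b ε).1 (b ε).2)) ∧
      ∀ᶠ p in 𝓝[>] (0 : ℝ) ×ˢ 𝓝 (y₀, y₀), g p.2.2 - g p.2.1 = (0, p.1) → p.2 = b p.1 := by
  obtain ⟨G, hG, hGg⟩ := exists_global hΩ hy hg
  have hGg2 : ∀ᶠ y in 𝓝 y₀, G y = g y ∧ fderiv ℝ G y = fderiv ℝ g y := hGg.and hGg.fderiv
  have hD1 : fderiv ℝ G y₀ = fderiv ℝ g y₀ := hGg.fderiv_eq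
  have hD2 : fderiv ℝ (fderiv ℝ G) y₀ = fderiv ℝ (fderiv ℝ g) y₀ := hGg.fderiv.fderiv_eq
  have hB := contDiff_blow hG
  set x₀ : E2 × E2 × ℝ := (y₀, u₀, 0)
  set DB := fderiv ℝ (blow G) x₀
  have hDB : ∀ a b : E2, DB (a, b, 0) =
      fderiv ℝ (fderiv ℝ g) y₀ a u₀ + fderiv ℝ g y₀ b := fun a b => by
    rw [← hD1, ← hD2]; exact fderiv_blow_zero hG y₀ u₀ a b
  set Φ := fun x : E2 × E2 × ℝ => (blow G x, x.2.2)
  set DΦ : E2 × E2 × ℝ →L[ℝ] V4' × ℝ :=
    DB.prod ((ContinuousLinearMap.snd ℝ E2 ℝ).comp (ContinuousLinearMap.snd ℝ E2 (E2 × ℝ)))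
  have hDΦinj : Injective DΦ := by
    rw [injective_iff_map_eq_zero]
    rintro ⟨a, b, s⟩ h
    simp [DΦ, Prod.ext_iff] at h
    obtain ⟨h1, rfl⟩ := h
    rw [← Prod.mk_zero_zero, ← Prod.mk_zero_zero, Prod.mk.injEq, Prod.mk.injEq]
    have := hcap.1 (a₁ := (a, b)) (a₂ := (0, 0)) (by
      simpa [hDB] using (show DB (a, b, 0) = 0 from Prod.ext (by simpa using h1.1) (by simpa using h1.2)))
    simp only [Prod.mk.injEq] at this
    exact ⟨this.1, this.2, rfl⟩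
  set eΦ := equivOfInj DΦ hDΦinj (by simp)
  have hΦ : HasStrictFDerivAt Φ (eΦ : E2 × E2 × ℝ →L[ℝ] V4' × ℝ) x₀ := by
    rw [coe_equivOfInj]
    exact ((hB.contDiffAt.hasStrictFDerivAt (by simp))).prodMk
      (((ContinuousLinearMap.snd ℝ E2 ℝ).comp
        (ContinuousLinearMap.snd ℝ E2 (E2 × ℝ))).hasStrictFDerivAt)
  set P := hΦ.toOpenPartialHomeomorph Φ
  have hP : (P : E2 × E2 × ℝ → V4' × ℝ) = Φ := rfl
  have hc : x₀ ∈ P.source := hΦ.mem_toOpenPartialHomeomorph_source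
  have hΦ0 : Φ x₀ = (e₀, 0) := by
    simp [Φ, x₀, blow, hD1, hu]
  have hline : Tendsto (fun ε : ℝ => (e₀, ε)) (𝓝[>] 0) (𝓝 (Φ x₀)) := by
    rw [hΦ0]
    exact (((continuous_const (y := e₀)).prodMk continuous_id).tendsto' (0 : ℝ) (e₀, (0 : ℝ))
      rfl).mono_left nhdsWithin_le_nhds
  have hx : Tendsto (fun ε : ℝ => P.symm (e₀, ε)) (𝓝[>] 0) (𝓝 x₀) :=
    (P.tendsto_symm hc).comp hline
  set toPair := fun x : E2 × E2 × ℝ => (x.1, x.1 + x.2.2 • x.2.1)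
  have htp : Continuous toPair := by fun_prop
  have htp0 : toPair x₀ = (y₀, y₀) := by simp [toPair, x₀]
  have hb : Tendsto (fun ε : ℝ => toPair (P.symm (e₀, ε))) (𝓝[>] 0) (𝓝 (y₀, y₀)) :=
    htp0 ▸ (htp.tendsto x₀).comp hx
  have hnear : ∀ᶠ w : E2 × E2 in 𝓝 (y₀, y₀), (G w.1 = g w.1 ∧ fderiv ℝ G w.1 = fderiv ℝ g w.1) ∧
      (G w.2 = g w.2 ∧ fderiv ℝ G w.2 = fderiv ℝ g w.2) := by
    rw [nhds_prod_eq]; exact hGg2.prod_mk hGg2
  refine ⟨fun ε => toPair (P.symm (e₀, ε)), hb, ?_, ?_⟩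
  · have htar : ∀ᶠ ε in 𝓝[>] (0 : ℝ), (e₀, ε) ∈ P.target :=
      hline.eventually (P.open_target.mem_nhds (hP ▸ P.map_source hc))
    have hopen : IsOpen {L : E2 × E2 × ℝ →L[ℝ] V4' × ℝ |
        ∃ e' : (E2 × E2 × ℝ) ≃L[ℝ] V4' × ℝ, ↑e' = L} := ContinuousLinearEquiv.isOpen
    have hcont : Continuous fun x => (fderiv ℝ (blow G) x).prod
        ((ContinuousLinearMap.snd ℝ E2 ℝ).comp (ContinuousLinearMap.snd ℝ E2 (E2 × ℝ))) :=
      (ContinuousLinearMap.prodₗᵢ ℝ).continuous.comp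
        ((hB.continuous_fderiv (by simp)).prodMk continuous_const)
    have hiso := hx.eventually
      (hcont.continuousAt.eventually (hopen.mem_nhds ⟨eΦ, coe_equivOfInj _ _ _⟩))
    filter_upwards [htar, hiso, hb.eventually hnear, eventually_mem_nhdsWithin]
      with ε hε hiso hn (hpos : 0 < ε)
    set x := P.symm (e₀, ε)
    obtain ⟨hB1, hs⟩ : blow G x = e₀ ∧ x.2.2 = ε := Prod.mk.injEq _ _ _ _ ▸ P.right_inv hε
    obtain ⟨⟨n1, n2⟩, n3, n4⟩ := hn
    constructor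
    · rw [← n1, ← n3, ← smul_blow hG x, hB1, hs]; simp [e₀]
    have hc' := surjective_chord_blow hG x (hs.symm ▸ hpos.ne') hiso
    simp only [chordDeriv, toPair] at hc' n2 n4 ⊢
    rwa [← n2, ← n4]
  · set L := fderiv ℝ g y₀
    obtain ⟨K, hK, hanti⟩ := (L : E2 →ₗ[ℝ] V4').exists_antilipschitzWith
      (LinearMap.ker_eq_bot.2 hinj)
    have hKb : ∀ w, ‖w‖ ≤ K * ‖L w‖ := fun w => by
      simpa using hanti.le_mul_dist w 0
    have hK' : (0 : ℝ) < K := NNReal.coe_pos.2 hK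
    obtain ⟨r, hr, hsrc⟩ := Metric.mem_nhds_iff.1 (P.open_source.mem_nhds hc)
    set c := min (1 / (2 * (K : ℝ))) (r / (4 * K * (‖u₀‖ + 1)))
    have hc' : 0 < c := lt_min (by positivity) (by positivity)
    have e1 : ∀ᶠ p in 𝓝[>] (0 : ℝ) ×ˢ 𝓝 (y₀, y₀),
        0 < p.1 ∧ p.1 < r ∧ dist p.2.1 y₀ < r := by
      refine (tendsto_fst.eventually eventually_mem_nhdsWithin).and
        ((tendsto_fst.eventually (nhdsWithin_le_nhds (Iio_mem_nhds hr))).and ?_)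
      exact tendsto_snd.eventually ((continuous_fst.tendsto (y₀, y₀)).eventually
        (Metric.ball_mem_nhds y₀ hr))
    filter_upwards [e1, eventually_direction (hg.contDiffAt (hΩ.mem_nhds hy)) hc',
      tendsto_snd.eventually hnear] with p hp hdir hn heq
    obtain ⟨hpos, hpr, hyr⟩ := hp
    set u := p.1⁻¹ • (p.2.2 - p.2.1)
    have hz : p.2.2 = p.2.1 + p.1 • u := by simp [u, smul_smul, hpos.ne']
    have hur : ‖u - u₀‖ < r := by
      have h1 : ‖L (u - u₀)‖ ≤ c * ‖u‖ := by rw [map_sub, hu]; exact hdir heq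
      have h2 := (hKb (u - u₀)).trans (mul_le_mul_of_nonneg_left h1 hK'.le)
      have h3 : K * c ≤ 1 / 2 := by
        calc K * c ≤ K * (1 / (2 * K)) := mul_le_mul_of_nonneg_left (min_le_left _ _) hK'.le
          _ = 1 / 2 := by field_simp
      have h4 : K * c * (4 * (‖u₀‖ + 1)) ≤ r := by
        calc K * c * (4 * (‖u₀‖ + 1))
            ≤ K * (r / (4 * K * (‖u₀‖ + 1))) * (4 * (‖u₀‖ + 1)) := by
              gcongr; exact min_le_right _ _
          _ = r := by field_simp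
      have h5 := norm_le_norm_add_norm_sub' u u₀
      nlinarith [mul_le_mul_of_nonneg_left h5 (mul_pos hK' hc').le,
        mul_le_mul_of_nonneg_right h3 (norm_nonneg (u - u₀)), norm_nonneg u₀,
        mul_pos hK' hc']
    have hmem : (p.2.1, u, p.1) ∈ P.source := hsrc (by
      rw [dist_eq_norm] at hyr
      rw [Metric.mem_ball, dist_eq_norm]
      simp only [x₀, Prod.mk_sub_mk, sub_zero, Prod.norm_def]
      exact max_lt hyr (max_lt hur (by simpa [abs_of_pos hpos] using hpr)))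
    have hΦp : Φ (p.2.1, u, p.1) = (e₀, p.1) := by
      have h := smul_blow hG (p.2.1, u, p.1)
      simp only [← hz, hn.1.1, hn.2.1, heq] at h
      refine Prod.ext ?_ rfl
      have h' := congrArg (fun v : V4' => p.1⁻¹ • v) h
      simpa [Φ, smul_smul, hpos.ne', e₀] using h'
    rw [← hΦp]
    show p.2 = toPair (P.symm (P (p.2.1, u, p.1)))
    rw [P.left_inv hmem]
    exact Prod.ext rfl hz

end

end Vale.Agent.P205.Full.Topo
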