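import Mathlib
import Vale.Agent.P205.Full.Topology.Local
import Vale.Agent.P205.Topo.Handshake

/-!
# P205: parity of the points with a vertical tangent vector

For a generic map to four-space the pairs with chord `(0, s)`, `s ≥ ε`, form a compact curve with
ends the pairs with chord `(0, ε)`. As `ε → 0` these ends are in bijection with the ordered double
points and the vertical tangent points; the double points pair up, so the vertical tangent points
are even in number on every clopen set.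
-/

namespace Vale.Agent.P205.Full.Topo

open Set Function Filter Module
open scoped Manifold ContDiff Topology

noncomputable section

variable {M : Type*} [TopologicalSpace M] [ChartedSpace E2 M] [IsManifold (𝓡 2) ∞ M]

/-- The chart at a point, with open source and target. -/
def oc (x : M) : OpenPartialHomeomorph M E2 where
  toPartialEquiv := extChartAt (𝓡 2) x
  open_source := isOpen_extChartAt_source x
  open_target := isOpen_extChartAt_target x
  continuousOn_toFun := continuousOn_extChartAt x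
  continuousOn_invFun := continuousOn_extChartAt_symm x

/-- A map read in a chart. -/
def rd (f : M → V4') (x : M) : E2 → V4' := f ∘ (extChartAt (𝓡 2) x).symm

/-- The differential, as a map from the plane. -/
def df (f : M → V4') (p : M) : E2 →L[ℝ] V4' := mfderiv (𝓡 2) 𝓘(ℝ, V4') f p

/-- The differential of the inverse chart, as a map of the plane. -/
def cd (x : M) (y : E2) : E2 →L[ℝ] E2 := chartDeriv x y

theorem bijective_cd {x : M} {y : E2} (hy : y ∈ (extChartAt (𝓡 2) x).target) :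
    Bijective (cd x y) :=
  ⟨injective_chartDeriv hy, (LinearMap.injective_iff_surjective
    (f := (cd x y : E2 →ₗ[ℝ] E2))).1 (injective_chartDeriv hy)⟩

theorem contDiffOn_rd {f : M → V4'} (hf : ContMDiff (𝓡 2) 𝓘(ℝ, V4') ∞ f) (x : M) :
    ContDiffOn ℝ ∞ (rd f x) (extChartAt (𝓡 2) x).target :=
  contMDiffOn_iff_contDiffOn.1 (hf.comp_contMDiffOn (contMDiffOn_extChartAt_symm x))

theorem fderiv_rd {f : M → V4'} (hf : ContMDiff (𝓡 2) 𝓘(ℝ, V4') ∞ f) {x : M} {y : E2}
    (hy : y ∈ (extChartAt (𝓡 2) x).target) :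
    fderiv ℝ (rd f x) y = (df f ((extChartAt (𝓡 2) x).symm y)).comp (cd x y) := by
  have h := mdifferentiableWithinAt_extChartAt_symm (I := 𝓡 2) hy
  rw [ModelWithCorners.range_eq_univ, mdifferentiableWithinAt_univ] at h
  rw [← mfderiv_eq_fderiv]
  exact mfderiv_comp y (hf.mdifferentiableAt (by simp)) h

/-- The chord. -/
def Δ (f : M → V4') (q : M × M) : V4' := f q.2 - f q.1

/-- The derivative of the chord. -/
def DΔ (f : M → V4') (q : M × M) (ab : E2 × E2) : V4' := df f q.2 ab.2 - df f q.1 ab.1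

/-- The points with a vertical tangent vector. -/
def capPts (f : M → V4') : Set M := {p | ∃ u, df f p u = e₀}

/-- The limits of small vertical chords. -/
def IsEnd (f : M → V4') (q : M × M) : Prop :=
  (q.1 ≠ q.2 ∧ Δ f q = 0) ∨ (q.1 = q.2 ∧ q.1 ∈ capPts f)

/-- A generic map to four-space. -/
structure GenMap (f : M → V4') : Prop where
  smooth : ContMDiff (𝓡 2) 𝓘(ℝ, V4') ∞ f
  imm : ∀ p, Injective (df f p)
  dbl : ∀ q : M × M, q.1 ≠ q.2 → Δ f q = 0 → Surjective (DΔ f q)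
  curve : ∀ q : M × M, q.1 ≠ q.2 → (Δ f q).1 = 0 → Surjective fun ab => (DΔ f q ab).1
  cap : ∀ p, ∃ x, p ∈ (extChartAt (𝓡 2) x).source ∧ ∀ u,
    fderiv ℝ (rd f x) (extChartAt (𝓡 2) x p) u = e₀ → Bijective fun ab : E2 × E2 =>
      fderiv ℝ (fderiv ℝ (rd f x)) (extChartAt (𝓡 2) x p) ab.1 u +
        fderiv ℝ (rd f x) (extChartAt (𝓡 2) x p) ab.2

theorem chord_eq {f : M → V4'} (hf : ContMDiff (𝓡 2) 𝓘(ℝ, V4') ∞ f) {x x' : M} {y z : E2}
    (hy : y ∈ (extChartAt (𝓡 2) x).target) (hz : z ∈ (extChartAt (𝓡 2) x').target) :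
    ⇑(chordDeriv (rd f x) (rd f x') y z) =
      DΔ f ((extChartAt (𝓡 2) x).symm y, (extChartAt (𝓡 2) x').symm z) ∘
        Prod.map (cd x y) (cd x' z) := by
  funext ab
  simp only [chordDeriv_apply, fderiv_rd hf hy, fderiv_rd hf hz]
  rfl

theorem surjective_chord {f : M → V4'} (hf : ContMDiff (𝓡 2) 𝓘(ℝ, V4') ∞ f) {x x' : M} {y z : E2}
    (hy : y ∈ (extChartAt (𝓡 2) x).target) (hz : z ∈ (extChartAt (𝓡 2) x').target) :
    Surjective (chordDeriv (rd f x) (rd f x') y z) ↔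
      Surjective (DΔ f ((extChartAt (𝓡 2) x).symm y, (extChartAt (𝓡 2) x').symm z)) := by
  rw [chord_eq hf hy hz]
  exact ⟨fun h => h.of_comp,
    fun h => h.comp (Prod.map_surjective.2 ⟨(bijective_cd hy).2, (bijective_cd hz).2⟩)⟩

/-- An arc from a chart straightening the curve. -/
theorem exists_arc {X : Type*} [TopologicalSpace X] {Z B : Set X}
    (Ψ : OpenPartialHomeomorph X V4') {q₀ : X} (hq : q₀ ∈ Ψ.source) (h0 : Ψ q₀ = 0) {a : ℝ}
    (ha : a = 0 ∨ a = -1)
    (hZ : ∀ q ∈ Ψ.source, q ∈ Z ↔ (Ψ q).1 = 0 ∧ (a = 0 → 0 ≤ (Ψ q).2))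
    (hB : ∀ q ∈ Ψ.source, q ∈ B ↔ a = 0 ∧ Ψ q = 0) : ∃ A : Topo.Arc Z B, q₀ ∈ A.U := by
  obtain ⟨δ, hδ, hball⟩ := Metric.nhds_basis_closedBall.mem_iff.1
    (Ψ.open_target.mem_nhds (h0 ▸ Ψ.map_source hq))
  have ha' : -1 ≤ a ∧ a ≤ 0 := by rcases ha with rfl | rfl <;> norm_num
  set v : ℝ → V4' := fun t => (0, δ * t)
  have htar : ∀ t ∈ Icc a 1, v t ∈ Ψ.target := fun t ht => hball (by
    have : |t| ≤ 1 := abs_le.2 ⟨ha'.1.trans ht.1, ht.2⟩
    simp [v, Prod.norm_def, abs_of_pos hδ]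
    exact ⟨hδ.le, mul_le_of_le_one_right hδ.le this⟩)
  refine ⟨⟨fun t => Ψ.symm (v t), a, Ψ.source ∩ Ψ ⁻¹' {w | |w.2| < δ}, by linarith [ha'.2],
    Ψ.continuousOn_symm.comp (by fun_prop) htar, ?_, fun t ht => ?_,
    Ψ.isOpen_inter_preimage (isOpen_lt (by fun_prop) continuous_const), fun t ht => ?_,
    fun x => ?_⟩, hq, by simp [h0, hδ]⟩
  · intro s hs t ht h
    have h' := congrArg Ψ h
    simp only [Ψ.right_inv (htar s hs), Ψ.right_inv (htar t ht)] at h'
    simpa [v, hδ.ne'] using h'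
  · rw [hZ _ (Ψ.map_target (htar t ht)), Ψ.right_inv (htar t ht)]
    exact ⟨rfl, fun h => mul_nonneg hδ.le (h ▸ ht.1)⟩
  · rw [hB _ (Ψ.map_target (htar t (Ioc_subset_Icc_self ht))),
      Ψ.right_inv (htar t (Ioc_subset_Icc_self ht))]
    rintro ⟨rfl, h⟩
    simp [v, hδ.ne'] at h
    linarith [ht.1]
  constructor
  · rintro ⟨⟨hx, hsmall : |(Ψ x).2| < δ⟩, hxZ⟩
    obtain ⟨h1, h2⟩ := (hZ x hx).1 hxZ
    set t := (Ψ x).2 / δ
    have hv : v t = Ψ x := Prod.ext h1.symm (mul_div_cancel₀ _ hδ.ne')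
    obtain ⟨hlo, hhi⟩ : -1 < t ∧ t < 1 := by
      have := abs_lt.1 hsmall
      constructor
      · rw [lt_div_iff₀ hδ]; linarith
      · rw [div_lt_one hδ]; exact this.2
    have hxt : Ψ.symm (v t) = x := by rw [hv, Ψ.left_inv hx]
    have hat : a ≤ t := by
      rcases ha with rfl | rfl
      · exact div_nonneg (h2 rfl) hδ.le
      · exact hlo.le
    rcases hat.lt_or_eq with h | h
    · exact .inl ⟨t, ⟨h, hhi⟩, hxt⟩
    · refine .inr ⟨?_, by rw [h, hxt]⟩
      have ha0 : a = 0 := by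
        rcases ha with rfl | rfl
        · rfl
        · linarith
      rw [h, hxt, hB x hx, ← hv, ← h]
      exact ⟨ha0, by simp [v, ha0]⟩
  · rintro (⟨t, ht, rfl⟩ | ⟨hγ, rfl⟩)
    · have hI := Ioo_subset_Icc_self ht
      refine ⟨⟨Ψ.map_target (htar t hI), ?_⟩, ?_⟩
      · show |(Ψ (Ψ.symm (v t))).2| < δ
        rw [Ψ.right_inv (htar t hI)]
        have : |t| < 1 := abs_lt.2 ⟨ha'.1.trans_lt ht.1, ht.2⟩
        simpa [v, abs_mul, abs_of_pos hδ] using mul_lt_of_lt_one_right hδ this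
      · rw [hZ _ (Ψ.map_target (htar t hI)), Ψ.right_inv (htar t hI)]
        exact ⟨rfl, fun h => mul_nonneg hδ.le (h ▸ ht.1.le)⟩
    · have hI : a ∈ Icc a 1 := ⟨le_rfl, by linarith [ha'.2]⟩
      have hs := Ψ.map_target (htar a hI)
      obtain ⟨ha0, h⟩ := (hB _ hs).1 hγ
      exact ⟨⟨hs, by show |(Ψ (Ψ.symm (v a))).2| < δ; rw [h]; simpa using hδ⟩,
        (hZ _ hs).2 ⟨by rw [h]; rfl, fun _ => by rw [h]; exact le_rfl⟩⟩

/-- The pairs in `U` with chord `(0, ε)`. -/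
def pairsAt (f : M → V4') (U : Set M) (ε : ℝ) : Set (M × M) := U ×ˢ U ∩ {q | Δ f q = (0, ε)}

/-- The pairs in `U` with vertical chord of length at least `ε`. -/
def pairsFrom (f : M → V4') (U : Set M) (ε : ℝ) : Set (M × M) :=
  U ×ˢ U ∩ {q | (Δ f q).1 = 0 ∧ ε ≤ (Δ f q).2}

variable [T2Space M] [CompactSpace M]

/-- At a regular value the pairs are finite and even in number. -/
theorem even_pairsAt {f : M → V4'} (hf : GenMap f) {U : Set M} (hU : IsClopen U) {ε : ℝ}
    (hε : 0 < ε) (hreg : ∀ q ∈ pairsAt f U ε, Surjective (DΔ f q)) :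
    (pairsAt f U ε).Finite ∧ Even (pairsAt f U ε).ncard := by
  have hc : Continuous (Δ f) :=
    (hf.smooth.continuous.comp continuous_snd).sub (hf.smooth.continuous.comp continuous_fst)
  have hclosed : IsClosed (pairsFrom f U ε) :=
    (hU.isClosed.prod hU.isClosed).inter ((isClosed_eq (continuous_fst.comp hc) continuous_const).inter
      (isClosed_le continuous_const (continuous_snd.comp hc)))
  refine Topo.even_ends hclosed.isCompact (fun q hq => ⟨hq.1, by
    show (Δ f q).1 = 0 ∧ ε ≤ (Δ f q).2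
    rw [hq.2.out]; simp⟩)
    fun q₀ ⟨hqU, h1, h2⟩ => ?_
  set x := q₀.1
  set x' := q₀.2
  set C := (oc x).prod (oc x')
  set w₀ : E2 × E2 := (extChartAt (𝓡 2) x x, extChartAt (𝓡 2) x' x')
  have hy := mem_extChartAt_target (I := 𝓡 2) x
  have hz := mem_extChartAt_target (I := 𝓡 2) x'
  have hy' : w₀.1 ∈ (extChartAt (𝓡 2) x).target := hy
  have hz' : w₀.2 ∈ (extChartAt (𝓡 2) x').target := hz
  have hq0 : q₀ ∈ C.source := ⟨mem_extChartAt_source x, mem_extChartAt_source x'⟩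
  have hsym : ((extChartAt (𝓡 2) x).symm w₀.1, (extChartAt (𝓡 2) x').symm w₀.2) = q₀ :=
    C.left_inv hq0
  set G : E2 × E2 → V4' := fun w => rd f x' w.2 - rd f x w.1
  set DG := chordDeriv (rd f x) (rd f x') w₀.1 w₀.2
  have hG : HasStrictFDerivAt G DG w₀ := chord_hasStrictFDerivAt
    ((contDiffOn_rd hf.smooth x).contDiffAt ((isOpen_extChartAt_target x).mem_nhds hy'))
    ((contDiffOn_rd hf.smooth x').contDiffAt ((isOpen_extChartAt_target x').mem_nhds hz'))
  have hGC : ∀ q ∈ C.source, G (C q) = Δ f q := fun q hq => congrArg (Δ f) (C.left_inv hq)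
  rcases h2.lt_or_eq with h2 | h2
  · -- an interior point
    have hne : q₀.1 ≠ q₀.2 := fun h => by
      have : Δ f q₀ = 0 := by simp [Δ, h]
      rw [this] at h2; exact lt_asymm hε h2
    have hsur : Surjective fun ab => (DG ab).1 := by
      simp only [DG, chord_eq hf.smooth hy' hz', hsym]
      exact (hf.curve q₀ hne h1).comp
        (Prod.map_surjective.2 ⟨(bijective_cd hy').2, (bijective_cd hz').2⟩)
    set D1 := (ContinuousLinearMap.fst ℝ V3 ℝ).comp DG
    have hdim : finrank ℝ (LinearMap.ker (D1 : E2 × E2 →ₗ[ℝ] V3)) = 1 := by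
      have h := (D1 : E2 × E2 →ₗ[ℝ] V3).finrank_range_add_finrank_ker
      rw [LinearMap.range_eq_top.2 hsur, finrank_top] at h
      have h4 : finrank ℝ (E2 × E2) = 4 := by simp
      have h3 : finrank ℝ V3 = 3 := by simp
      omega
    obtain ⟨⟨k, hk⟩, hk0⟩ : ∃ k : LinearMap.ker (D1 : E2 × E2 →ₗ[ℝ] V3), k ≠ 0 :=
      Module.finrank_pos_iff_exists_ne_zero.1 (hdim ▸ one_pos)
    obtain ⟨L, hL⟩ := SeparatingDual.exists_eq_one (R := ℝ) (show k ≠ 0 by simpa using hk0)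
    have hinj : Injective (D1.prod L) := by
      rw [injective_iff_map_eq_zero]
      intro v hv
      obtain ⟨hv1, hv2⟩ := Prod.mk_eq_zero.1 hv
      obtain ⟨c, hc⟩ := exists_smul_eq_of_finrank_eq_one hdim hk0 ⟨v, hv1⟩
      have hcv : c • k = v := congrArg Subtype.val hc
      have hv3 : L v = 0 := hv2
      have : c = 0 := by simpa [← hcv, hL] using hv3
      rw [← hcv, this, zero_smul]
    have hF : HasStrictFDerivAt (fun w => ((G w).1, L w - L w₀))
        ((equivOfInj (D1.prod L) hinj (by simp) : (E2 × E2) ≃L[ℝ] V4') : E2 × E2 →L[ℝ] V4') w₀ := by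
      rw [coe_equivOfInj]
      exact ((ContinuousLinearMap.fst ℝ V3 ℝ).hasStrictFDerivAt.comp w₀ hG).prodMk
        (L.hasStrictFDerivAt.sub_const _)
    set P := hF.toOpenPartialHomeomorph _
    have hW : IsOpen (U ×ˢ U ∩ {q | ε < (Δ f q).2}) :=
      (hU.isOpen.prod hU.isOpen).inter (isOpen_lt continuous_const (continuous_snd.comp hc))
    set Ψ := (C.trans P).restrOpen _ hW
    have hmem : q₀ ∈ Ψ.source := by
      refine ⟨⟨hq0, ?_⟩, hqU, h2⟩
      show C q₀ ∈ P.source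
      exact hF.mem_toOpenPartialHomeomorph_source
    have hΨ : ∀ q ∈ Ψ.source, (Ψ q).1 = (Δ f q).1 := fun q hq =>
      show (G (C q)).1 = (Δ f q).1 from congrArg Prod.fst (hGC q hq.1.1)
    refine exists_arc Ψ hmem ?_ (a := -1) (.inr rfl) (fun q hq => ?_) (fun q hq => ?_)
    · refine Prod.ext ((hΨ q₀ hmem).trans h1) ?_
      show L (C q₀) - L w₀ = 0
      exact sub_self _
    · rw [hΨ q hq]
      exact ⟨fun h => ⟨h.2.1, fun h' => by norm_num at h'⟩,
        fun h => ⟨hq.2.1, h.1, hq.2.2.out.le⟩⟩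
    · exact ⟨fun h => absurd (congrArg Prod.snd h.2.out) hq.2.2.out.ne',
        fun h => absurd h.1 (by norm_num)⟩
  · -- an end
    have hval : Δ f q₀ = (0, ε) := Prod.ext h1 h2.symm
    have hsur : Surjective DG := by
      simp only [DG]
      rw [surjective_chord hf.smooth hy' hz', hsym]
      exact hreg q₀ ⟨hqU, hval⟩
    have hF : HasStrictFDerivAt (fun w => G w - ((0 : V3), ε))
        ((equivOfInj DG (injective_of_surjective_plane hsur) (by simp) : (E2 × E2) ≃L[ℝ] V4') :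
          E2 × E2 →L[ℝ] V4') w₀ := by
      rw [coe_equivOfInj]; exact hG.sub_const _
    set P := hF.toOpenPartialHomeomorph _
    set Ψ := (C.trans P).restrOpen _ (hU.isOpen.prod hU.isOpen)
    have hmem : q₀ ∈ Ψ.source := ⟨⟨hq0, hF.mem_toOpenPartialHomeomorph_source⟩, hqU⟩
    have hΨ : ∀ q ∈ Ψ.source, Ψ q = Δ f q - (0, ε) := fun q hq =>
      congrArg (· - ((0 : V3), ε)) (hGC q hq.1.1)
    refine exists_arc Ψ hmem (by rw [hΨ q₀ hmem, hval, sub_self]) (a := 0) (.inl rfl)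
      (fun q hq => ?_) (fun q hq => ?_)
    · rw [hΨ q hq]
      exact ⟨fun h => ⟨by simpa using h.2.1, fun _ => by simpa using h.2.2⟩,
        fun h => ⟨hq.2, by simpa using h.1, by simpa using h.2 rfl⟩⟩
    · rw [hΨ q hq, sub_eq_zero]
      exact ⟨fun h => ⟨rfl, h.2⟩, fun h => ⟨hq.2, h.2⟩⟩

omit [T2Space M] [CompactSpace M] in
/-- A germ read back from the charts. -/
theorem germ_of_chart {f : M → V4'} (hf : ContMDiff (𝓡 2) 𝓘(ℝ, V4') ∞ f) {x x' : M} {q : M × M}
    (h : q.1 ∈ (extChartAt (𝓡 2) x).source) (h' : q.2 ∈ (extChartAt (𝓡 2) x').source)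
    {β : ℝ → E2 × E2} {w : E2 × E2} (hw : w = (extChartAt (𝓡 2) x q.1, extChartAt (𝓡 2) x' q.2))
    (hβ : Tendsto β (𝓝[>] 0) (𝓝 w))
    (hval : ∀ᶠ ε in 𝓝[>] (0 : ℝ), rd f x' (β ε).2 - rd f x (β ε).1 = (0, ε) ∧
      Surjective (chordDeriv (rd f x) (rd f x') (β ε).1 (β ε).2))
    (huniq : ∀ᶠ p in 𝓝[>] (0 : ℝ) ×ˢ 𝓝 w,
      rd f x' p.2.2 - rd f x p.2.1 = (0, p.1) → p.2 = β p.1) :
    ∃ b : ℝ → M × M, Tendsto b (𝓝[>] 0) (𝓝 q) ∧
      (∀ᶠ ε in 𝓝[>] (0 : ℝ), Δ f (b ε) = (0, ε) ∧ Surjective (DΔ f (b ε))) ∧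
      ∀ᶠ p in 𝓝[>] (0 : ℝ) ×ˢ 𝓝 q, Δ f p.2 = (0, p.1) → p.2 = b p.1 := by
  set C := (oc x).prod (oc x')
  have hq : q ∈ C.source := ⟨h, h'⟩
  have hwt : w ∈ C.target := hw ▸ C.map_source hq
  have hwq : C.symm w = q := hw ▸ C.left_inv hq
  refine ⟨fun ε => C.symm (β ε), hwq ▸ (C.symm.continuousAt hwt).tendsto.comp hβ, ?_, ?_⟩
  · filter_upwards [hval, hβ.eventually (C.open_target.mem_nhds hwt)] with ε hε ht
    exact ⟨hε.1, (surjective_chord hf ht.1 ht.2).1 hε.2⟩
  · have ht : Tendsto (fun p : ℝ × M × M => (p.1, C p.2)) (𝓝[>] (0 : ℝ) ×ˢ 𝓝 q)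
        (𝓝[>] (0 : ℝ) ×ˢ 𝓝 w) :=
      tendsto_fst.prodMk (hw ▸ (C.continuousAt hq).tendsto.comp tendsto_snd)
    filter_upwards [ht.eventually huniq,
      tendsto_snd.eventually (C.open_source.mem_nhds hq)] with p hp hs heq
    have := hp ((congrArg (Δ f) (C.left_inv hs)).trans heq)
    exact (C.left_inv hs).symm.trans (congrArg C.symm this)

omit [T2Space M] [CompactSpace M] in
/-- Every limit of small vertical chords carries exactly one germ, other pairs none. -/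
theorem exists_germ {f : M → V4'} (hf : GenMap f) (q : M × M) :
    ∃ b : ℝ → M × M, (IsEnd f q → Tendsto b (𝓝[>] 0) (𝓝 q) ∧
      ∀ᶠ ε in 𝓝[>] (0 : ℝ), Δ f (b ε) = (0, ε) ∧ Surjective (DΔ f (b ε))) ∧
      ∀ᶠ p in 𝓝[>] (0 : ℝ) ×ˢ 𝓝 q, Δ f p.2 = (0, p.1) → IsEnd f q ∧ p.2 = b p.1 := by
  by_cases h : IsEnd f q
  · suffices H : ∃ b : ℝ → M × M, Tendsto b (𝓝[>] 0) (𝓝 q) ∧
        (∀ᶠ ε in 𝓝[>] (0 : ℝ), Δ f (b ε) = (0, ε) ∧ Surjective (DΔ f (b ε))) ∧
        ∀ᶠ p in 𝓝[>] (0 : ℝ) ×ˢ 𝓝 q, Δ f p.2 = (0, p.1) → p.2 = b p.1 by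
      obtain ⟨b, h1, h2, h3⟩ := H
      exact ⟨b, fun _ => ⟨h1, h2⟩, h3.mono fun p hp hd => ⟨h, hp hd⟩⟩
    rcases h with ⟨hne, h0⟩ | ⟨heq, u, hu⟩
    · set x := q.1
      set x' := q.2
      have hx := mem_extChartAt_source (I := 𝓡 2) x
      have hx' := mem_extChartAt_source (I := 𝓡 2) x'
      set c := extChartAt (𝓡 2) x
      set c' := extChartAt (𝓡 2) x'
      have hsym : (c.symm (c x), c'.symm (c' x')) = q := by
        rw [c.left_inv hx, c'.left_inv hx']
      obtain ⟨β, h1, h2, h3⟩ := exists_double_germ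
        ((contDiffOn_rd hf.smooth x).contDiffAt
          ((isOpen_extChartAt_target x).mem_nhds (c.map_source hx)))
        ((contDiffOn_rd hf.smooth x').contDiffAt
          ((isOpen_extChartAt_target x').mem_nhds (c'.map_source hx')))
        (show rd f x' (c' x') = rd f x (c x) by
          rw [← sub_eq_zero]; exact (congrArg (Δ f) hsym).trans h0)
        (by rw [surjective_chord hf.smooth (c.map_source hx) (c'.map_source hx'), hsym]
            exact hf.dbl q hne h0)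
      exact germ_of_chart hf.smooth hx hx' rfl h1 h2 h3
    · obtain ⟨x, hx, hcap⟩ := hf.cap q.1
      set c := extChartAt (𝓡 2) x
      set y := c q.1
      have hy : y ∈ c.target := c.map_source hx
      have hD := fderiv_rd hf.smooth hy
      rw [c.left_inv hx] at hD
      obtain ⟨v, hv⟩ := (bijective_cd hy).2 u
      have hv' : fderiv ℝ (rd f x) y v = e₀ := by rw [hD]; simp [hv, hu]
      obtain ⟨β, h1, h2, h3⟩ := exists_cap_germ (isOpen_extChartAt_target x) hy
        (contDiffOn_rd hf.smooth x) (by rw [hD]; exact (hf.imm _).comp (bijective_cd hy).1) hv'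
        (hcap v hv')
      exact germ_of_chart hf.smooth hx (heq ▸ hx) (by rw [← heq]) h1 h2 h3
  · refine ⟨fun _ => q, fun h' => absurd h' h, ?_⟩
    suffices H : ∀ᶠ p in 𝓝[>] (0 : ℝ) ×ˢ 𝓝 q, Δ f p.2 ≠ (0, p.1) from
      H.mono fun p hp hd => absurd hd hp
    by_cases h0 : Δ f q = 0
    · have heq : q.1 = q.2 := by
        by_contra hne; exact h (.inl ⟨hne, h0⟩)
      by_contra hfr
      simp only [not_eventually, not_not] at hfr
      set x := q.1
      set C := (oc x).prod (oc x)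
      have hx := mem_extChartAt_source (I := 𝓡 2) x
      have hq : q ∈ C.source := ⟨hx, heq ▸ hx⟩
      set y := extChartAt (𝓡 2) x x
      have hy : y ∈ (extChartAt (𝓡 2) x).target := mem_extChartAt_target x
      have hCq : C q = (y, y) := Prod.ext rfl (congrArg (extChartAt (𝓡 2) x) heq.symm)
      have ht : Tendsto (fun p : ℝ × M × M => (p.1, C p.2)) (𝓝[>] (0 : ℝ) ×ˢ 𝓝 q)
          (𝓝[>] (0 : ℝ) ×ˢ 𝓝 (y, y)) :=
        tendsto_fst.prodMk (hCq ▸ (C.continuousAt hq).tendsto.comp tendsto_snd)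
      have hD := fderiv_rd hf.smooth hy
      rw [extChartAt_to_inv x] at hD
      obtain ⟨v, hv⟩ := exists_vertical
        ((contDiffOn_rd hf.smooth x).contDiffAt ((isOpen_extChartAt_target x).mem_nhds hy))
        (by rw [hD]; exact (hf.imm _).comp (bijective_cd hy).1)
        (ht.frequently ((hfr.and_eventually
          (tendsto_snd.eventually (C.open_source.mem_nhds hq))).mono fun p hp =>
          show rd f x (C p.2).2 - rd f x (C p.2).1 = (0, p.1) from
            (congrArg (Δ f) (C.left_inv hp.2)).trans hp.1))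
      rw [hD] at hv
      exact h (.inr ⟨heq, cd x y v, hv⟩)
    · have hc : Continuous fun p : ℝ × M × M => Δ f p.2 - ((0 : V3), p.1) :=
        ((hf.smooth.continuous.comp (continuous_snd.comp continuous_snd)).sub
          (hf.smooth.continuous.comp (continuous_fst.comp continuous_snd))).sub (by fun_prop)
      have hle : 𝓝[>] (0 : ℝ) ×ˢ 𝓝 q ≤ 𝓝 (0, q) :=
        (Filter.prod_mono nhdsWithin_le_nhds le_rfl).trans nhds_prod_eq.ge
      refine (((hc.tendsto (0, q)).mono_left hle).eventually_ne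
        (show Δ f q - ((0 : V3), (0 : ℝ)) ≠ 0 by rwa [Prod.mk_zero_zero, sub_zero])).mono
        fun p hp hd => hp (by rw [hd, sub_self])

/-- A finite set with an involution without fixed point has even size. -/
theorem even_of_involution {X : Type*} {D : Set X} (hD : D.Finite) (σ : X → X)
    (hmaps : ∀ x ∈ D, σ x ∈ D) (hinv : ∀ x ∈ D, σ (σ x) = x) (hne : ∀ x ∈ D, σ x ≠ x) :
    Even D.ncard := by
  rw [Set.ncard_eq_toFinset_card D hD, ← ZMod.natCast_eq_zero_iff_even,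
    ← nsmul_one, ← Finset.sum_const]
  exact Finset.sum_involution (fun x _ => σ x) (fun _ _ => by decide)
    (fun x hx _ => hne x (hD.mem_toFinset.1 hx)) (fun x hx => hD.mem_toFinset.2
      (hmaps x (hD.mem_toFinset.1 hx))) fun x hx => hinv x (hD.mem_toFinset.1 hx)

/-- The vertical tangent points are even in number on every clopen set. -/
theorem even_caps {f : M → V4'} (hf : GenMap f) {U : Set M} (hU : IsClopen U) :
    (U ∩ capPts f).Finite ∧ Even (U ∩ capPts f).ncard := by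
  classical
  choose b hb hN using exists_germ hf
  have hN' : ∀ q, ∃ N ∈ 𝓝 q, ∀ᶠ ε in 𝓝[>] (0 : ℝ), ∀ p ∈ N, Δ f p = (0, ε) →
      IsEnd f q ∧ p = b q ε := fun q => by
    obtain ⟨pa, hpa, pb, hpb, H⟩ := eventually_prod_iff.1 (hN q)
    exact ⟨{p | pb p}, hpb, hpa.mono fun ε hε p hp => H hε hp⟩
  choose N hNnhds hNev using hN'
  have hW : IsCompact (U ×ˢ U) := (hU.isClosed.prod hU.isClosed).isCompact
  obtain ⟨t, -, hcover⟩ := hW.elim_nhds_subcover (fun q => interior (N q))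
    fun q _ => interior_mem_nhds.2 (hNnhds q)
  set L := U ×ˢ U ∩ {q | IsEnd f q}
  have hLfin : L.Finite := by
    refine t.finite_toSet.subset fun q' hq' => ?_
    obtain ⟨q, hqt, hq'q⟩ := mem_iUnion₂.1 (hcover hq'.1)
    obtain ⟨hlim, hval⟩ := hb q' hq'.2
    have hev : ∀ᶠ ε in 𝓝[>] (0 : ℝ), IsEnd f q ∧ b q' ε = b q ε := by
      filter_upwards [hval, hNev q, hlim.eventually (isOpen_interior.mem_nhds hq'q)]
        with ε h1 h2 h3
      exact h2 _ (interior_subset h3) h1.1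
    have hq := hev.exists.choose_spec.1
    have hlim' : Tendsto (b q) (𝓝[>] 0) (𝓝 q') :=
      hlim.congr' (hev.mono fun ε h => h.2)
    rw [← tendsto_nhds_unique (hb q hq).1 hlim']
    exact hqt
  have hWopen : IsOpen (U ×ˢ U) := hU.isOpen.prod hU.isOpen
  have h1 : ∀ᶠ ε in 𝓝[>] (0 : ℝ), ∀ q ∈ L,
      b q ε ∈ pairsAt f U ε ∧ Surjective (DΔ f (b q ε)) := by
    refine (hLfin.eventually_all).2 fun q hq => ?_
    filter_upwards [(hb q hq.2).2, (hb q hq.2).1.eventually (hWopen.mem_nhds hq.1)] with ε h h'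
    exact ⟨⟨h', h.1⟩, h.2⟩
  have h2 : ∀ᶠ ε in 𝓝[>] (0 : ℝ), ∀ q ∈ L, ∀ q' ∈ L, b q ε = b q' ε → q = q' := by
    refine (hLfin.eventually_all).2 fun q hq => (hLfin.eventually_all).2 fun q' hq' => ?_
    by_cases hqq : q = q'
    · exact .of_forall fun ε _ => hqq
    · exact (((hb q hq.2).1.prodMk_nhds (hb q' hq'.2).1).eventually
        (isClosed_diagonal.isOpen_compl.mem_nhds (show (q, q') ∉ diagonal (M × M) from hqq))).mono
        fun ε hε he => absurd he hε
  have h3 : ∀ᶠ ε in 𝓝[>] (0 : ℝ), ∀ q ∈ t, ∀ p ∈ N q, Δ f p = (0, ε) → IsEnd f q ∧ p = b q ε :=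
    (t.finite_toSet.eventually_all).2 fun q _ => hNev q
  have hsurj : ∀ᶠ ε in 𝓝[>] (0 : ℝ), pairsAt f U ε ⊆ (b · ε) '' L := by
    have h4 : ∀ᶠ ε in 𝓝[>] (0 : ℝ), ∀ q ∈ t, IsEnd f q → q ∉ U ×ˢ U → b q ε ∉ U ×ˢ U :=
      (t.finite_toSet.eventually_all).2 fun q _ => by
        by_cases hq : IsEnd f q ∧ q ∉ U ×ˢ U
        · exact ((hb q hq.1).1.eventually ((hU.isClosed.prod hU.isClosed).isOpen_compl.mem_nhds
            hq.2)).mono fun ε hε _ _ => hε
        · exact .of_forall fun ε h h' => absurd ⟨h, h'⟩ hq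
    filter_upwards [h3, h4] with ε h3 h4 p hp
    obtain ⟨q, hqt, hpq⟩ := mem_iUnion₂.1 (hcover hp.1)
    obtain ⟨hq, rfl⟩ := h3 q hqt p (interior_subset hpq) hp.2
    by_contra hno
    exact h4 q hqt hq (fun hqW => hno ⟨q, ⟨hqW, hq⟩, rfl⟩) hp.1
  obtain ⟨ε, ⟨h1, h2, h3⟩, hε⟩ :=
    ((h1.and (h2.and hsurj)).and self_mem_nhdsWithin).exists
  have himage : pairsAt f U ε = (b · ε) '' L :=
    h3.antisymm (image_subset_iff.2 fun q hq => (h1 q hq).1)
  have hevenL : Even L.ncard := by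
    have h := (even_pairsAt hf hU hε fun p hp => by
      obtain ⟨q, hq, rfl⟩ := h3 hp
      exact (h1 q hq).2).2
    rwa [himage, InjOn.ncard_image fun q hq q' hq' => h2 q hq q' hq'] at h
  set D := U ×ˢ U ∩ {q | q.1 ≠ q.2 ∧ Δ f q = 0}
  set C := (fun p => (p, p)) '' (U ∩ capPts f)
  have hLDC : L = D ∪ C := by
    ext q
    constructor
    · rintro ⟨hW, h | ⟨heq, hcap⟩⟩
      · exact .inl ⟨hW, h⟩
      · exact .inr ⟨q.1, ⟨hW.1, hcap⟩, Prod.ext rfl heq⟩
    · rintro (⟨hW, h⟩ | ⟨p, ⟨hp, hcap⟩, rfl⟩)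
      · exact ⟨hW, .inl h⟩
      · exact ⟨⟨hp, hp⟩, .inr ⟨rfl, hcap⟩⟩
  have hdis : Disjoint D C := disjoint_left.2 fun q hq ⟨p, _, hp⟩ => hq.2.1 (by simp [← hp])
  rw [hLDC] at hLfin hevenL
  obtain ⟨hDfin, hCfin⟩ := finite_union.1 hLfin
  have hdiag : Injective fun p : M => (p, p) := fun p p' h => congrArg Prod.fst h
  have hDeven : Even D.ncard := even_of_involution hDfin Prod.swap
    (fun q hq => ⟨⟨hq.1.2, hq.1.1⟩, hq.2.1.symm, by simpa [Δ, sub_eq_zero, eq_comm] using hq.2.2⟩)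
    (fun q _ => Prod.swap_swap q) fun q hq h => hq.2.1 (congrArg Prod.snd h)
  rw [ncard_union_eq hdis hDfin hCfin, Nat.even_add, ncard_image_of_injective _ hdiag] at hevenL
  exact ⟨Finite.of_finite_image hCfin hdiag.injOn, hevenL.1 hDeven⟩

end

end Vale.Agent.P205.Full.Topo
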