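import Mathlib
import Vale.Agent.P205.Full.Topology.Parity
import Vale.Agent.P205.Full.Topology.Defs

/-!
# P205: every closed surface maps to three-space with cross caps, an even number per component
-/

namespace Vale.Agent.P205.Full.Topo

open Set Function Filter Module
open scoped Manifold ContDiff Topology

noncomputable section

variable (M : Type*) [TopologicalSpace M] [ChartedSpace E2 M] [IsManifold (𝓡 2) ∞ M] [T2Space M]
  [CompactSpace M]

/-- A generic map to four-space exists. -/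
theorem exists_genMap : ∃ f : M → V4', GenMap f := by
  obtain ⟨n, e₁, he₁, hemb, hinj₁⟩ :=
    exists_embedding_euclidean_of_compact (I := 𝓡 2) (M := M)
  set T : EuclideanSpace ℝ (Fin n) →L[ℝ] (Fin n → ℝ) :=
    ((EuclideanSpace.equiv (Fin n) ℝ : EuclideanSpace ℝ (Fin n) ≃L[ℝ] (Fin n → ℝ)) :
      EuclideanSpace ℝ (Fin n) →L[ℝ] (Fin n → ℝ))
  have hT : Injective T := (EuclideanSpace.equiv (Fin n) ℝ).injective
  obtain ⟨t, ht⟩ := isCompact_univ.elim_finite_subcover
    (fun x : M => (extChartAt (𝓡 2) x).source) (fun x => isOpen_extChartAt_source x)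
    fun x _ => mem_iUnion.2 ⟨x, mem_extChartAt_source x⟩
  have hcover : ∀ p, ∃ i : t, p ∈ (extChartAt (𝓡 2) (i : M)).source := fun p => by
    obtain ⟨x, hx, hp⟩ := mem_iUnion₂.1 (ht (mem_univ p))
    exact ⟨⟨x, hx⟩, hp⟩
  set Ω : t → Set E2 := fun i => (extChartAt (𝓡 2) (i : M)).target
  set ε : t → E2 → Fin n → ℝ := fun i => T ∘ e₁ ∘ (extChartAt (𝓡 2) (i : M)).symm
  have hΩ : ∀ i, IsOpen (Ω i) := fun i => isOpen_extChartAt_target _
  have he₁' : ∀ i : t, ContDiffOn ℝ ∞ (e₁ ∘ (extChartAt (𝓡 2) (i : M)).symm) (Ω i) := fun i =>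
    contMDiffOn_iff_contDiffOn.1 (he₁.comp_contMDiffOn (contMDiffOn_extChartAt_symm _))
  have hε : ∀ i, ContDiffOn ℝ ∞ (ε i) (Ω i) := fun i => T.contDiff.comp_contDiffOn (he₁' i)
  have hinj : ∀ i, ∀ y ∈ Ω i, Injective (fderiv ℝ (ε i) y) := by
    intro i y hy
    have h := mdifferentiableWithinAt_extChartAt_symm (I := 𝓡 2) hy
    rw [ModelWithCorners.range_eq_univ, mdifferentiableWithinAt_univ] at h
    have hd := ((he₁' i).contDiffAt ((hΩ i).mem_nhds hy)).differentiableAt (by simp)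
    rw [fderiv_comp y T.differentiableAt hd, T.fderiv, ← mfderiv_eq_fderiv,
      mfderiv_comp y (he₁.mdifferentiableAt (by simp)) h]
    exact hT.comp ((hinj₁ _).comp (injective_chartDeriv hy))
  obtain ⟨A, hA⟩ := exists_generic (ε := ε) hΩ hε hinj
  set f : M → V4' := A ∘ ver ∘ T ∘ e₁
  have hf : ContMDiff (𝓡 2) 𝓘(ℝ, V4') ∞ f :=
    (A.contDiff.comp (contDiff_ver.comp T.contDiff)).contMDiff.comp he₁
  have hne : ∀ p q : M, p ≠ q → T (e₁ p) ≠ T (e₁ q) := fun p q h h' => h (hemb.injective (hT h'))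
  have key : ∀ p, ∃ i : t, ∃ y ∈ (extChartAt (𝓡 2) (i : M)).target,
      (extChartAt (𝓡 2) (i : M)).symm y = p := fun p => by
    obtain ⟨i, hi⟩ := hcover p
    exact ⟨i, _, (extChartAt (𝓡 2) (i : M)).map_source hi, (extChartAt (𝓡 2) _).left_inv hi⟩
  refine ⟨f, hf, fun p => ?_, fun q hq h0 => ?_, fun q hq h0 => ?_, fun p => ?_⟩
  · obtain ⟨i, y, hy, rfl⟩ := key p
    have h : Injective (fderiv ℝ (rd f i) y) := hA.imm i y hy
    rw [fderiv_rd hf hy] at h
    exact (show Injective (df f _ ∘ cd (i : M) y) from h).of_comp_right (bijective_cd hy).2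
  · obtain ⟨q₁, q₂⟩ := q
    obtain ⟨i, y, hy, rfl⟩ := key q₁
    obtain ⟨j, z, hz, rfl⟩ := key q₂
    rw [← surjective_chord hf hy hz]
    exact hA.dbl i j y hy z hz (hne _ _ hq) (sub_eq_zero.1 h0).symm
  · obtain ⟨q₁, q₂⟩ := q
    obtain ⟨i, y, hy, rfl⟩ := key q₁
    obtain ⟨j, z, hz, rfl⟩ := key q₂
    have h : Surjective ((Prod.fst : V4' → V3) ∘ chordDeriv (rd f i) (rd f j) y z) :=
      hA.curve i j y hy z hz (hne _ _ hq) (sub_eq_zero.1 h0).symm
    rw [chord_eq hf hy hz, ← Function.comp_assoc] at h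
    exact h.of_comp
  · obtain ⟨i, hi⟩ := hcover p
    exact ⟨i, hi, hA.cap i _ ((extChartAt (𝓡 2) (i : M)).map_source hi)⟩

/-- Every closed surface has a smooth map to three-space which is an immersion outside finitely
many cross caps, evenly many on each clopen set. -/
theorem exists_map_even_crossCaps :
    ∃ (φ : M → V3) (S : Finset M), ContMDiff (𝓡 2) 𝓘(ℝ, V3) ∞ φ ∧
      (∀ p ∉ S, Injective (mfderiv (𝓡 2) 𝓘(ℝ, V3) φ p)) ∧
      (∀ p ∈ S, ∃ x₀ : M, p ∈ (extChartAt (𝓡 2) x₀).source ∧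
        CrossCap (φ ∘ (extChartAt (𝓡 2) x₀).symm) (extChartAt (𝓡 2) x₀ p)) ∧
      ∀ U : Set M, IsClopen U → Even (U ∩ ↑S).ncard := by
  obtain ⟨f, hf⟩ := exists_genMap M
  set π : V4' →L[ℝ] V3 := ContinuousLinearMap.fst ℝ V3 ℝ
  have hfin : (capPts f).Finite := by simpa using (even_caps hf isClopen_univ).1
  refine ⟨π ∘ f, hfin.toFinset, π.contDiff.contMDiff.comp hf.smooth, fun p hp => ?_,
    fun p hp => ?_, fun U hU => by simpa using (even_caps hf hU).2⟩
  · rw [hfin.mem_toFinset] at hp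
    rw [mfderiv_comp p π.differentiableAt.mdifferentiableAt
      (hf.smooth.mdifferentiableAt (by simp)), mfderiv_eq_fderiv, π.fderiv]
    intro (a : E2) (b : E2) hab
    change π (df f p a) = π (df f p b) at hab
    show a = b
    have hz : π (df f p (a - b)) = 0 := by
      rw [map_sub, map_sub, sub_eq_zero]; exact hab
    by_contra hne
    have hs : (df f p (a - b)).2 ≠ 0 := fun h =>
      hne (sub_eq_zero.1 (hf.imm p ((Prod.ext hz h : df f p (a - b) = 0).trans (map_zero _).symm)))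
    refine hp ⟨((df f p (a - b)).2)⁻¹ • (a - b), ?_⟩
    rw [map_smul]
    generalize hd : df f p (a - b) = d at hz hs ⊢
    have hd' : d.1 = 0 := hz
    exact Prod.ext (by simp [e₀, hd']) (by simp [e₀, hs])
  · rw [hfin.mem_toFinset] at hp
    obtain ⟨u, hu⟩ := hp
    obtain ⟨x, hx, hcap⟩ := hf.cap p
    set y := extChartAt (𝓡 2) x p
    have hy : y ∈ (extChartAt (𝓡 2) x).target := (extChartAt (𝓡 2) x).map_source hx
    have hD := fderiv_rd hf.smooth hy
    rw [(extChartAt (𝓡 2) x).left_inv hx] at hD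
    obtain ⟨v, hv⟩ := (bijective_cd hy).2 u
    have hv' : fderiv ℝ (rd f x) y v = e₀ := by rw [hD]; simp [hv, hu]
    have hg : ContDiffAt ℝ ∞ (rd f x) y :=
      (contDiffOn_rd hf.smooth x).contDiffAt ((isOpen_extChartAt_target x).mem_nhds hy)
    have hnear : ∀ᶠ z in 𝓝 y, fderiv ℝ ((π ∘ f) ∘ (extChartAt (𝓡 2) x).symm) z =
        π.comp (fderiv ℝ (rd f x) z) := by
      filter_upwards [(isOpen_extChartAt_target x).mem_nhds hy] with z hz
      exact (fderiv_comp z π.differentiableAt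
        (((contDiffOn_rd hf.smooth x).contDiffAt
          ((isOpen_extChartAt_target x).mem_nhds hz)).differentiableAt (by simp))).trans
            (by rw [π.fderiv])
    have hD1 := hnear.self_of_nhds
    have hD2 : ∀ h, fderiv ℝ (fun z => fderiv ℝ ((π ∘ f) ∘ (extChartAt (𝓡 2) x).symm) z v) y h =
        π (fderiv ℝ (fderiv ℝ (rd f x)) y h v) := fun h => by
      have he : (fun z => fderiv ℝ ((π ∘ f) ∘ (extChartAt (𝓡 2) x).symm) z v) =ᶠ[𝓝 y]
          fun z => π (fderiv ℝ (rd f x) z v) := hnear.mono fun z hz => by simp only [hz]; rfl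
      have hd : DifferentiableAt ℝ (fderiv ℝ (rd f x)) y :=
        (hg.fderiv_right (m := 1) (by norm_cast)).differentiableAt (by simp)
      rw [he.fderiv_eq]
      have := (π.hasFDerivAt.comp y ((hd.hasFDerivAt.clm_apply (hasFDerivAt_const v y)))).fderiv
      rw [show (fun z => π (fderiv ℝ (rd f x) z v)) = π ∘ fun z => fderiv ℝ (rd f x) z v from rfl,
        this]
      simp
    refine ⟨x, hx, v, fun h0 => ?_, ?_, fun w => ?_⟩
    · rw [h0, map_zero] at hv'
      simp [e₀, Prod.ext_iff] at hv'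
    · rw [hD1]; simp [hv', π, e₀]
    · obtain ⟨⟨a, b⟩, hab⟩ := (hcap v hv').2 ((w, 0) : V4')
      refine ⟨(a, b), ?_⟩
      change fderiv ℝ (fun z => fderiv ℝ ((π ∘ f) ∘ (extChartAt (𝓡 2) x).symm) z v) y a +
        fderiv ℝ ((π ∘ f) ∘ (extChartAt (𝓡 2) x).symm) y b = w
      rw [hD2, hD1]
      exact (map_add π _ _).symm.trans (congrArg π hab)

end

end Vale.Agent.P205.Full.Topo
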