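import Mathlib
import Vale.Agent.P205.Full.Topology.Defs

/-!
# P205: relative corrugation on an open set of the plane

From two smooth vector fields `A, B` that are everywhere independent and equal to the partial
derivatives of `φ` outside a compact set, `immersion_of_formal` makes an immersion that agrees
with `φ` outside a compact set. Each of the two steps adds `λ⁻¹ χ (sin (2t)/2 • a - cos t • b)`.
-/

namespace Vale.Agent.P205.Full.Topo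

open Set Filter Topology Matrix
open scoped ContDiff Manifold

noncomputable section

variable {X : Type*} [NormedAddCommGroup X] [NormedSpace ℝ X] [FiniteDimensional ℝ X]

/-- The cross product as a continuous bilinear map. -/
def crossL : V3 →L[ℝ] V3 →L[ℝ] V3 :=
  LinearMap.toContinuousLinearMap
    ((LinearMap.toContinuousLinearMap : (V3 →ₗ[ℝ] V3) ≃ₗ[ℝ] (V3 →L[ℝ] V3)).toLinearMap ∘ₗ
      (crossProduct : V3 →ₗ[ℝ] V3 →ₗ[ℝ] V3))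

@[simp] lemma crossL_apply (v w : V3) : crossL v w = v ⨯₃ w := rfl

lemma continuous_crossL {Y : Type*} [TopologicalSpace Y] {f g : Y → V3} {s : Set Y}
    (hf : ContinuousOn f s) (hg : ContinuousOn g s) :
    ContinuousOn (fun y => f y ⨯₃ g y) s := by
  have := (crossL.continuous.comp_continuousOn hf).clm_apply hg
  exact this

lemma contDiffOn_cross {f g : X → V3} {s : Set X} (hf : ContDiffOn ℝ ∞ f s)
    (hg : ContDiffOn ℝ ∞ g s) : ContDiffOn ℝ ∞ (fun y => f y ⨯₃ g y) s :=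
  ((crossL.contDiff.comp_contDiffOn hf).clm_apply hg)

lemma dot_self_pos {v : V3} (h : v ≠ 0) : 0 < v ⬝ᵥ v := by
  obtain ⟨i, hi⟩ : ∃ i, v i ≠ 0 := Function.ne_iff.1 h
  exact lt_of_lt_of_le (mul_self_pos.2 hi)
    (Finset.single_le_sum (fun j _ => mul_self_nonneg (v j)) (Finset.mem_univ i))

lemma cross_tangent (A B : V3) :
    B ⨯₃ ((B ⨯₃ A) ⨯₃ B) = (B ⬝ᵥ B) • (B ⨯₃ A) ∧ B ⨯₃ (B ⨯₃ A) = -((B ⨯₃ A) ⨯₃ B) := by
  constructor <;> ext i <;> fin_cases i <;>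
    simp [cross_apply, dotProduct, Fin.sum_univ_three] <;> ring

/-- The algebra behind the loop: `B × γ` is nonzero. -/
lemma loop_ne {A B D : V3} (h : B ⨯₃ A ≠ 0) {K c s : ℝ} (hcs : c ^ 2 + s ^ 2 = 1) (hK : 0 ≤ K)
    (hgood : D = A ∨
      (2 * |((B ⨯₃ A) ⨯₃ B) ⬝ᵥ (B ⨯₃ D)| < K * (((B ⨯₃ A) ⨯₃ B) ⬝ᵥ ((B ⨯₃ A) ⨯₃ B)) ∧
        2 * |(B ⨯₃ A) ⬝ᵥ (B ⨯₃ D)| < K * ((B ⬝ᵥ B) * ((B ⨯₃ A) ⬝ᵥ (B ⨯₃ A))))) :
    B ⨯₃ (D + K • ((2 * c ^ 2 - 1) • ((B ⨯₃ A) ⨯₃ B) + s • (B ⨯₃ A))) ≠ 0 := by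
  intro h0
  have hB : B ≠ 0 := by rintro rfl; simp at h
  have pb := dot_self_pos h
  have pB := dot_self_pos hB
  have pa : ((B ⨯₃ A) ⨯₃ B) ⬝ᵥ ((B ⨯₃ A) ⨯₃ B) = (B ⬝ᵥ B) * ((B ⨯₃ A) ⬝ᵥ (B ⨯₃ A)) := by
    simp [cross_apply, dotProduct, Fin.sum_univ_three]; ring
  obtain ⟨t1, t2⟩ := cross_tangent A B
  have t3 : (B ⨯₃ A) ⬝ᵥ ((B ⨯₃ A) ⨯₃ B) = 0 := dot_self_cross _ _
  have t4 : ((B ⨯₃ A) ⨯₃ B) ⬝ᵥ (B ⨯₃ A) = 0 := by rw [dotProduct_comm]; exact t3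
  have e1 : (B ⨯₃ A) ⬝ᵥ (B ⨯₃ (D + K • ((2 * c ^ 2 - 1) • ((B ⨯₃ A) ⨯₃ B) + s • (B ⨯₃ A))))
      = (B ⨯₃ A) ⬝ᵥ (B ⨯₃ D)
        + K * (2 * c ^ 2 - 1) * ((B ⬝ᵥ B) * ((B ⨯₃ A) ⬝ᵥ (B ⨯₃ A))) := by
    simp only [map_add, map_smul, t1, t2, dotProduct_add, dotProduct_smul, dotProduct_neg, t3,
      smul_eq_mul]
    ring
  have e2 : ((B ⨯₃ A) ⨯₃ B) ⬝ᵥ
        (B ⨯₃ (D + K • ((2 * c ^ 2 - 1) • ((B ⨯₃ A) ⨯₃ B) + s • (B ⨯₃ A))))
      = ((B ⨯₃ A) ⨯₃ B) ⬝ᵥ (B ⨯₃ D)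
        - K * s * (((B ⨯₃ A) ⨯₃ B) ⬝ᵥ ((B ⨯₃ A) ⨯₃ B)) := by
    simp only [map_add, map_smul, t1, t2, dotProduct_add, dotProduct_smul, dotProduct_neg, t4,
      smul_eq_mul]
    ring
  rw [h0, dotProduct_zero] at e1 e2
  rcases hgood with rfl | ⟨h1, h2⟩
  · have e3 : ((B ⨯₃ D) ⨯₃ B) ⬝ᵥ (B ⨯₃ D) = 0 := by
      rw [dotProduct_comm]; exact dot_self_cross _ _
    rw [e3, pa] at e2
    have hKs : K * s = 0 := by
      have : 0 < (B ⬝ᵥ B) * ((B ⨯₃ D) ⬝ᵥ (B ⨯₃ D)) := mul_pos pB pb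
      by_contra hne
      exact (mul_ne_zero hne this.ne') (by linarith)
    rcases mul_eq_zero.1 hKs with rfl | rfl
    · nlinarith
    · have : c ^ 2 = 1 := by linarith [hcs]
      rw [this] at e1
      nlinarith [mul_pos pB pb]
  · rw [pa] at h1 e2
    have hK' : 0 < K := by
      by_contra hh
      have : K = 0 := le_antisymm (not_lt.1 hh) hK
      subst this
      simp only [zero_mul] at h1
      linarith [abs_nonneg (((B ⨯₃ A) ⨯₃ B) ⬝ᵥ (B ⨯₃ D))]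
    have hs : 2 * |s| < 1 := by
      have hpos : 0 < (B ⬝ᵥ B) * ((B ⨯₃ A) ⬝ᵥ (B ⨯₃ A)) := mul_pos pB pb
      have e : ((B ⨯₃ A) ⨯₃ B) ⬝ᵥ (B ⨯₃ D)
          = K * s * ((B ⬝ᵥ B) * ((B ⨯₃ A) ⬝ᵥ (B ⨯₃ A))) := by linarith
      rw [e, abs_mul, abs_mul, abs_of_pos hK', abs_of_pos hpos] at h1
      nlinarith [mul_pos hK' hpos]
    have hc : (1 : ℝ) / 2 ≤ 2 * c ^ 2 - 1 := by
      have : (2 * |s|) ^ 2 ≤ 1 := by nlinarith [abs_nonneg s]
      rw [mul_pow, sq_abs] at this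
      linarith
    have hpos : 0 < K * ((B ⬝ᵥ B) * ((B ⨯₃ A) ⬝ᵥ (B ⨯₃ A))) := mul_pos hK' (mul_pos pB pb)
    have := mul_le_mul_of_nonneg_right hc hpos.le
    nlinarith [neg_abs_le ((B ⨯₃ A) ⬝ᵥ (B ⨯₃ D))]

/-- A bump equal to one on `C` with compact support in `U`. -/
lemma exists_bump {U C : Set X} (hU : IsOpen U) (hC : IsCompact C) (hCU : C ⊆ U) :
    ∃ (χ : X → ℝ) (C' : Set X), ContDiff ℝ ∞ χ ∧ IsCompact C' ∧ C ⊆ C' ∧ C' ⊆ U ∧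
      (∀ x ∈ C, χ x = 1) ∧ (∀ x, 0 ≤ χ x) ∧ tsupport χ ⊆ C' := by
  obtain ⟨C', hC', hsub, hC'U⟩ := exists_compact_between hC hU hCU
  obtain ⟨χ, hχ⟩ := exists_contMDiffMap_zero_one_of_isClosed (n := (⊤ : ℕ∞)) 𝓘(ℝ, X)
    isOpen_interior.isClosed_compl hC.isClosed
    (disjoint_compl_left_iff_subset.2 hsub)
  refine ⟨χ, C', χ.contMDiff.contDiff, hC', hsub.trans interior_subset, hC'U,
    fun x hx => hχ.2.1 hx, fun x => (hχ.2.2 x).1, ?_⟩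
  refine closure_minimal (fun x hx => ?_) hC'.isClosed
  by_contra hx'
  exact hx (hχ.1 fun h => hx' (interior_subset h))

/-- One corrugation: the derivative along `e` leaves the line of `B`. -/
theorem step {U C : Set X} (hU : IsOpen U) (hC : IsCompact C) (hCU : C ⊆ U)
    {φ A B : X → V3} (hφ : ContDiffOn ℝ ∞ φ U) (hA : ContDiffOn ℝ ∞ A U)
    (hB : ContDiffOn ℝ ∞ B U) (hAB : ∀ y ∈ U, B y ⨯₃ A y ≠ 0) {e e' : X} (ℓ : X →L[ℝ] ℝ)
    (he : ℓ e = 1) (he' : ℓ e' = 0) (hout : ∀ y ∈ U, y ∉ C → fderiv ℝ φ y e = A y) :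
    ∃ (φ' : X → V3) (C' : Set X), IsCompact C' ∧ C ⊆ C' ∧ C' ⊆ U ∧ ContDiffOn ℝ ∞ φ' U ∧
      (∀ y, y ∉ C' → φ' y = φ y) ∧
      ∀ y ∈ U, B y ⨯₃ fderiv ℝ φ' y e ≠ 0 ∧
        (B y + (fderiv ℝ φ' y e' - fderiv ℝ φ y e')) ⨯₃ fderiv ℝ φ' y e ≠ 0 := by
  obtain ⟨χ, C', hχ, hC', hCC', hC'U, hone, hnn, hsupp⟩ := exists_bump hU hC hCU
  obtain ⟨b, hb⟩ : ∃ b : X → V3, ∀ y, b y = B y ⨯₃ A y := ⟨_, fun _ => rfl⟩
  obtain ⟨a, ha⟩ : ∃ a : X → V3, ∀ y, a y = (B y ⨯₃ A y) ⨯₃ B y := ⟨_, fun _ => rfl⟩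
  have hbs : ContDiffOn ℝ ∞ b U := (contDiffOn_cross hB hA).congr fun y _ => hb y
  have has : ContDiffOn ℝ ∞ a U :=
    (contDiffOn_cross (contDiffOn_cross hB hA) hB).congr fun y _ => ha y
  obtain ⟨D, hD⟩ : ∃ D : X → V3, ∀ y, D y = fderiv ℝ φ y e := ⟨_, fun _ => rfl⟩
  have hDc : ContinuousOn D U :=
    (((hφ.continuousOn_fderiv_of_isOpen hU (by simp)).clm_apply continuousOn_const)).congr
      fun y _ => hD y
  -- the amplitude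
  obtain ⟨R, hR, hR'⟩ : ∃ R : ℝ, 0 ≤ R ∧ ∀ y ∈ C,
      |a y ⬝ᵥ (B y ⨯₃ D y)| / (a y ⬝ᵥ a y) ≤ R ∧
      |b y ⬝ᵥ (B y ⨯₃ D y)| / ((B y ⬝ᵥ B y) * (b y ⬝ᵥ b y)) ≤ R := by
    have hBD : ContinuousOn (fun y => B y ⨯₃ D y) C :=
      continuous_crossL (hB.continuousOn.mono hCU) (hDc.mono hCU)
    have hdot : ∀ {f g : X → V3}, ContinuousOn f C → ContinuousOn g C →
        ContinuousOn (fun y => f y ⬝ᵥ g y) C := by
      intro f g hf hg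
      simp only [dotProduct]
      exact continuousOn_finsetSum _ fun i _ =>
        ((continuous_apply i).comp_continuousOn hf).mul ((continuous_apply i).comp_continuousOn hg)
    have hne : ∀ y ∈ C, b y ≠ 0 ∧ B y ≠ 0 ∧ a y ≠ 0 := by
      intro y hy
      have h := hAB y (hCU hy)
      have hB0 : B y ≠ 0 := by intro h0; simp [h0] at h
      refine ⟨hb y ▸ h, hB0, ?_⟩
      rw [ha]
      intro h0
      have : ((B y ⨯₃ A y) ⨯₃ B y) ⬝ᵥ ((B y ⨯₃ A y) ⨯₃ B y)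
          = (B y ⬝ᵥ B y) * ((B y ⨯₃ A y) ⬝ᵥ (B y ⨯₃ A y)) := by
        simp [cross_apply, dotProduct, Fin.sum_univ_three]; ring
      rw [h0, dotProduct_zero] at this
      exact (mul_pos (dot_self_pos hB0) (dot_self_pos h)).ne this
    have hac := has.continuousOn.mono hCU
    have hbc := hbs.continuousOn.mono hCU
    have hBc := hB.continuousOn.mono hCU
    obtain ⟨R₁, h₁⟩ := hC.exists_bound_of_continuousOn
      (f := fun y => |a y ⬝ᵥ (B y ⨯₃ D y)| / (a y ⬝ᵥ a y))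
      (((hdot hac hBD).abs).div (hdot hac hac) fun y hy => (dot_self_pos (hne y hy).2.2).ne')
    obtain ⟨R₂, h₂⟩ := hC.exists_bound_of_continuousOn
      (f := fun y => |b y ⬝ᵥ (B y ⨯₃ D y)| / ((B y ⬝ᵥ B y) * (b y ⬝ᵥ b y)))
      (((hdot hbc hBD).abs).div ((hdot hBc hBc).mul (hdot hbc hbc)) fun y hy =>
        (mul_pos (dot_self_pos (hne y hy).2.1) (dot_self_pos (hne y hy).1)).ne')
    refine ⟨max 0 (max R₁ R₂), le_max_left _ _, fun y hy => ⟨?_, ?_⟩⟩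
    · exact ((Real.le_norm_self _).trans (h₁ y hy)).trans
        ((le_max_left _ _).trans (le_max_right _ _))
    · exact ((Real.le_norm_self _).trans (h₂ y hy)).trans
        ((le_max_right _ _).trans (le_max_right _ _))
  obtain ⟨K, hK⟩ : ∃ K : X → ℝ, ∀ y, K y = χ y * (2 * R + 1) := ⟨_, fun _ => rfl⟩
  have hKs : ContDiff ℝ ∞ K := by rw [funext hK]; exact hχ.mul contDiff_const
  have hKnn : ∀ y, 0 ≤ K y := fun y => by rw [hK]; exact mul_nonneg (hnn y) (by linarith)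
  have hloop : ∀ y ∈ U, ∀ c s : ℝ, c ^ 2 + s ^ 2 = 1 →
      B y ⨯₃ (D y + K y • ((2 * c ^ 2 - 1) • a y + s • b y)) ≠ 0 := by
    intro y hy c s hcs
    rw [ha, hb]
    refine loop_ne (hAB y hy) hcs (hKnn y) ?_
    by_cases hyC : y ∈ C
    · obtain ⟨h1, h2⟩ := hR' y hyC
      have hbne := hAB y hy
      have hB0 : B y ≠ 0 := by intro h0; simp [h0] at hbne
      have pp := mul_pos (dot_self_pos hB0) (dot_self_pos hbne)
      have pa : ((B y ⨯₃ A y) ⨯₃ B y) ⬝ᵥ ((B y ⨯₃ A y) ⨯₃ B y)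
          = (B y ⬝ᵥ B y) * ((B y ⨯₃ A y) ⬝ᵥ (B y ⨯₃ A y)) := by
        simp [cross_apply, dotProduct, Fin.sum_univ_three]; ring
      rw [ha, pa] at h1
      rw [hb] at h2
      rw [div_le_iff₀ pp] at h1 h2
      right
      rw [pa, hK, hone y hyC, one_mul]
      constructor <;> nlinarith
    · exact Or.inl ((hD y).trans (hout y hy hyC))
  -- the two correcting fields
  obtain ⟨Ea, hEa⟩ : ∃ E : X → V3, ∀ y, E y = K y • a y := ⟨_, fun _ => rfl⟩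
  obtain ⟨Eb, hEb⟩ : ∃ E : X → V3, ∀ y, E y = K y • b y := ⟨_, fun _ => rfl⟩
  have hEas : ContDiffOn ℝ ∞ Ea U := (hKs.contDiffOn.smul has).congr fun y _ => hEa y
  have hEbs : ContDiffOn ℝ ∞ Eb U := (hKs.contDiffOn.smul hbs).congr fun y _ => hEb y
  have hsuppK : ∀ y, y ∉ C' → ∀ᶠ z in 𝓝 y, Ea z = 0 ∧ Eb z = 0 := by
    intro y hy
    filter_upwards [hC'.isClosed.isOpen_compl.mem_nhds hy] with z hz
    have : K z = 0 := by
      rw [hK, image_eq_zero_of_notMem_tsupport fun h => hz (hsupp h), zero_mul]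
    simp [hEa, hEb, this]
  -- uniform choice of the frequency
  obtain ⟨G, hG⟩ : ∃ G : X × ℝ × ℝ → ℝ → V3, ∀ p μ, G p μ =
      D p.1 + K p.1 • ((2 * p.2.1 ^ 2 - 1) • a p.1 + p.2.2 • b p.1)
        + μ • ((p.2.1 * p.2.2) • fderiv ℝ Ea p.1 e - p.2.1 • fderiv ℝ Eb p.1 e) :=
    ⟨_, fun _ _ => rfl⟩
  obtain ⟨H, hH⟩ : ∃ H : X × ℝ × ℝ → ℝ → V3, ∀ p μ, H p μ =
      B p.1 + μ • ((p.2.1 * p.2.2) • fderiv ℝ Ea p.1 e' - p.2.1 • fderiv ℝ Eb p.1 e') :=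
    ⟨_, fun _ _ => rfl⟩
  obtain ⟨S, hS⟩ : ∃ S : Set (ℝ × ℝ), S = {q | q.1 ^ 2 + q.2 ^ 2 = 1} := ⟨_, rfl⟩
  have hSc : IsCompact S := by
    refine ((isCompact_Icc (a := (-1 : ℝ)) (b := 1)).prod
      (isCompact_Icc (a := (-1 : ℝ)) (b := 1))).of_isClosed_subset ?_ fun q hq => ?_
    · rw [hS]; exact isClosed_eq (by fun_prop) continuous_const
    · rw [hS] at hq
      have hq' : q.1 ^ 2 + q.2 ^ 2 = 1 := hq
      exact ⟨⟨by nlinarith, by nlinarith⟩, ⟨by nlinarith, by nlinarith⟩⟩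
  have hev : ∀ᶠ μ in 𝓝 (0 : ℝ), ∀ p ∈ C' ×ˢ S,
      B p.1 ⨯₃ G p μ ≠ 0 ∧ H p μ ⨯₃ G p μ ≠ 0 := by
    refine (hC'.prod hSc).eventually_forall_of_forall_eventually fun p hp => ?_
    have hpU : p.1 ∈ U := hC'U hp.1
    have hmem : (U ×ˢ (univ : Set (ℝ × ℝ))) ×ˢ (univ : Set ℝ) ∈ 𝓝 (p, (0 : ℝ)) :=
      ((hU.prod isOpen_univ).prod isOpen_univ).mem_nhds ⟨⟨hpU, trivial⟩, trivial⟩
    have hm : MapsTo (fun q : (X × ℝ × ℝ) × ℝ => q.1.1)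
        ((U ×ˢ (univ : Set (ℝ × ℝ))) ×ˢ (univ : Set ℝ)) U := fun q hq => hq.1.1
    have hc1 : ∀ {f : X → V3}, ContinuousOn f U → ContinuousOn (fun q : (X × ℝ × ℝ) × ℝ => f q.1.1)
        ((U ×ˢ (univ : Set (ℝ × ℝ))) ×ˢ (univ : Set ℝ)) :=
      fun hf => hf.comp (by fun_prop) hm
    have hfd : ∀ {f : X → V3}, ContDiffOn ℝ ∞ f U → ∀ v : X,
        ContinuousOn (fun y => fderiv ℝ f y v) U :=
      fun hf v => (hf.continuousOn_fderiv_of_isOpen hU (by simp)).clm_apply continuousOn_const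
    have hKc : ContinuousOn (fun q : (X × ℝ × ℝ) × ℝ => K q.1.1)
        ((U ×ˢ (univ : Set (ℝ × ℝ))) ×ˢ (univ : Set ℝ)) :=
      hKs.continuous.continuousOn.comp (by fun_prop) fun q _ => mem_univ _
    have hμc : Continuous fun q : (X × ℝ × ℝ) × ℝ => q.2 := continuous_snd
    have hcc : Continuous fun q : (X × ℝ × ℝ) × ℝ => 2 * q.1.2.1 ^ 2 - 1 := by fun_prop
    have hcs' : Continuous fun q : (X × ℝ × ℝ) × ℝ => q.1.2.1 * q.1.2.2 := by fun_prop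
    have hc' : Continuous fun q : (X × ℝ × ℝ) × ℝ => q.1.2.1 := by fun_prop
    have hs' : Continuous fun q : (X × ℝ × ℝ) × ℝ => q.1.2.2 := by fun_prop
    have hGc : ContinuousAt (fun q : (X × ℝ × ℝ) × ℝ => G q.1 q.2) (p, 0) := by
      refine ContinuousOn.continuousAt ?_ hmem
      simp only [hG]
      exact ((hc1 hDc).add (hKc.smul ((hcc.continuousOn.smul (hc1 has.continuousOn)).add
        (hs'.continuousOn.smul (hc1 hbs.continuousOn))))).add (hμc.continuousOn.smul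
        ((hcs'.continuousOn.smul (hc1 (hfd hEas e))).sub
          (hc'.continuousOn.smul (hc1 (hfd hEbs e)))))
    have hHc : ContinuousAt (fun q : (X × ℝ × ℝ) × ℝ => H q.1 q.2) (p, 0) := by
      refine ContinuousOn.continuousAt ?_ hmem
      simp only [hH]
      exact (hc1 hB.continuousOn).add (hμc.continuousOn.smul
        ((hcs'.continuousOn.smul (hc1 (hfd hEas e'))).sub
          (hc'.continuousOn.smul (hc1 (hfd hEbs e')))))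
    have hBc : ContinuousAt (fun q : (X × ℝ × ℝ) × ℝ => B q.1.1) (p, 0) :=
      (hc1 hB.continuousOn).continuousAt hmem
    have h0 : B p.1 ⨯₃ G p 0 ≠ 0 := by
      rw [hG, zero_smul, add_zero]
      exact hloop p.1 hpU _ _ (by have := hp.2; rw [hS] at this; exact this)
    have h0' : H p 0 ⨯₃ G p 0 ≠ 0 := by rwa [hH, zero_smul, add_zero]
    have c1 : ContinuousAt (fun q : (X × ℝ × ℝ) × ℝ => B q.1.1 ⨯₃ G q.1 q.2) (p, 0) :=
      ((crossL.continuous.continuousAt.comp hBc).clm_apply hGc)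
    have c2 : ContinuousAt (fun q : (X × ℝ × ℝ) × ℝ => H q.1 q.2 ⨯₃ G q.1 q.2) (p, 0) :=
      ((crossL.continuous.continuousAt.comp hHc).clm_apply hGc)
    exact ((c1.eventually_ne h0).and (c2.eventually_ne h0')).mono (fun q hq => hq)
      |> fun h => (continuous_swap.tendsto ((0 : ℝ), p)).eventually h
  obtain ⟨μ, hμ0, hμ⟩ : ∃ μ : ℝ, μ ≠ 0 ∧ ∀ p ∈ C' ×ˢ S,
      B p.1 ⨯₃ G p μ ≠ 0 ∧ H p μ ⨯₃ G p μ ≠ 0 := by
    obtain ⟨δ, hδ, hh⟩ := Metric.eventually_nhds_iff.1 hev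
    exact ⟨δ / 2, by positivity, hh (by simp [abs_of_pos hδ]; linarith)⟩
  obtain ⟨φ', hφ'⟩ : ∃ φ' : X → V3, ∀ y, φ' y = φ y
      + μ • ((Real.cos (ℓ y / μ) * Real.sin (ℓ y / μ)) • Ea y - Real.cos (ℓ y / μ) • Eb y) :=
    ⟨_, fun _ => rfl⟩
  have hcos : ContDiff ℝ ∞ fun y => Real.cos (ℓ y / μ) := by fun_prop
  have hsin : ContDiff ℝ ∞ fun y => Real.sin (ℓ y / μ) := by fun_prop
  refine ⟨φ', C', hC', hCC', hC'U, ?_, fun y hy => ?_, fun y hy => ?_⟩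
  · exact (hφ.add ((((hcos.mul hsin).contDiffOn.smul hEas).sub
      (hcos.contDiffOn.smul hEbs)).const_smul μ)).congr fun y _ => hφ' y
  · obtain ⟨h1, h2⟩ := (hsuppK y hy).self_of_nhds
    rw [hφ', h1, h2]
    simp
  · obtain ⟨c, hc⟩ : ∃ c, c = Real.cos (ℓ y / μ) := ⟨_, rfl⟩
    obtain ⟨s, hs⟩ : ∃ s, s = Real.sin (ℓ y / μ) := ⟨_, rfl⟩
    have hcs : c ^ 2 + s ^ 2 = 1 := by rw [hc, hs]; exact Real.cos_sq_add_sin_sq _
    have hEad : DifferentiableAt ℝ Ea y :=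
      (hEas.contDiffAt (hU.mem_nhds hy)).differentiableAt (by simp)
    have hEbd : DifferentiableAt ℝ Eb y :=
      (hEbs.contDiffAt (hU.mem_nhds hy)).differentiableAt (by simp)
    have hφd : DifferentiableAt ℝ φ y :=
      (hφ.contDiffAt (hU.mem_nhds hy)).differentiableAt (by simp)
    have hder : ∀ v, fderiv ℝ φ' y v = fderiv ℝ φ y v
        + (ℓ v * (2 * c ^ 2 - 1)) • Ea y + (ℓ v * s) • Eb y
        + μ • ((c * s) • fderiv ℝ Ea y v - c • fderiv ℝ Eb y v) := by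
      intro v
      have hl : HasFDerivAt (fun z => ℓ z / μ) (μ⁻¹ • ℓ) y := by
        simpa [div_eq_mul_inv, smul_eq_mul, mul_comm] using ℓ.hasFDerivAt.mul_const μ⁻¹
      have h := hφd.hasFDerivAt.add ((((hl.cos.mul hl.sin).smul hEad.hasFDerivAt).sub
        (hl.cos.smul hEbd.hasFDerivAt)).const_smul μ)
      rw [show φ' = fun z => φ z + μ • ((Real.cos (ℓ z / μ) * Real.sin (ℓ z / μ)) • Ea z
        - Real.cos (ℓ z / μ) • Eb z) from funext hφ']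
      erw [h.fderiv]
      have e2 : (2 : ℝ) * c ^ 2 - 1 = c * c - s * s := by linarith
      ext i
      simp [← hc, ← hs, e2]
      field_simp
      ring
    have he1 : fderiv ℝ φ' y e = G (y, c, s) μ := by
      rw [hder, hG, he, hD, hEa, hEb]
      module
    have he2 : B y + (fderiv ℝ φ' y e' - fderiv ℝ φ y e') = H (y, c, s) μ := by
      rw [hder, hH, he']
      module
    rw [he1, he2]
    by_cases hyC : y ∈ C'
    · exact hμ (y, c, s) ⟨hyC, by rw [hS]; exact hcs⟩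
    · have hz : ∀ᶠ z in 𝓝 y, Ea z = 0 ∧ Eb z = 0 := hsuppK y hyC
      have d1 : fderiv ℝ Ea y = 0 := by
        rw [Filter.EventuallyEq.fderiv_eq (hz.mono fun z h => h.1)]
        simp
      have d2 : fderiv ℝ Eb y = 0 := by
        rw [Filter.EventuallyEq.fderiv_eq (hz.mono fun z h => h.2)]
        simp
      have h1 := hloop y hy c s hcs
      constructor
      · rw [hG]; simpa [d1, d2] using h1
      · rw [hG, hH]; simpa [d1, d2] using h1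

/-- The relative homotopy principle on an open set: formal monomorphism to immersion. -/
theorem immersion_of_formal {U C : Set X} (hU : IsOpen U) (hC : IsCompact C) (hCU : C ⊆ U)
    {φ A B : X → V3} (hφ : ContDiffOn ℝ ∞ φ U) (hA : ContDiffOn ℝ ∞ A U)
    (hB : ContDiffOn ℝ ∞ B U) (hAB : ∀ y ∈ U, B y ⨯₃ A y ≠ 0) {e e' : X} (ℓ ℓ' : X →L[ℝ] ℝ)
    (he : ℓ e = 1) (he' : ℓ e' = 0) (hl : ℓ' e' = 1) (hl' : ℓ' e = 0)
    (hout : ∀ y ∈ U, y ∉ C → fderiv ℝ φ y e = A y ∧ fderiv ℝ φ y e' = B y) :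
    ∃ (φ' : X → V3) (C' : Set X), IsCompact C' ∧ C' ⊆ U ∧ ContDiffOn ℝ ∞ φ' U ∧
      (∀ y, y ∉ C' → φ' y = φ y) ∧
      ∀ y ∈ U, fderiv ℝ φ' y e ⨯₃ fderiv ℝ φ' y e' ≠ 0 := by
  obtain ⟨φ₁, C₁, hC₁, hCC₁, hC₁U, hφ₁, heq₁, hgood₁⟩ :=
    step hU hC hCU hφ hA hB hAB ℓ he he' fun y hy hyC => (hout y hy hyC).1
  have hA₁ : ContDiffOn ℝ ∞ (fun y => fderiv ℝ φ₁ y e) U :=
    (hφ₁.fderiv_of_isOpen hU le_rfl).clm_apply contDiffOn_const
  obtain ⟨φ₂, C₂, hC₂, hCC₂, hC₂U, hφ₂, heq₂, hgood₂⟩ :=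
    step hU hC₁ hC₁U hφ₁ hB hA₁
      (fun y hy h => (hgood₁ y hy).1 (by rw [← cross_anticomm, h, neg_zero]))
      (e := e') (e' := e) ℓ' hl hl' fun y hy hyC => by
        have : φ₁ =ᶠ[𝓝 y] φ := Filter.eventually_of_mem (hC₁.isClosed.isOpen_compl.mem_nhds hyC)
          fun z hz => heq₁ z hz
        rw [this.fderiv_eq]
        exact (hout y hy fun h => hyC (hCC₁ h)).2
  refine ⟨φ₂, C₂, hC₂, hC₂U, hφ₂, fun y hy => ?_, fun y hy => ?_⟩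
  · rw [heq₂ y hy, heq₁ y fun h => hy (hCC₂ h)]
  · have := (hgood₂ y hy).2
    rwa [add_sub_cancel] at this

end

end Vale.Agent.P205.Full.Topo
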