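import Mathlib
import Vale.Agent.P205.Full.ParamInt

/-!
# P205: planar lemmas for the formal monomorphism

A frame orthogonal to a nowhere zero field on a disc, the blend of a simple zero with its
linear part, and a logarithm of a nowhere zero function on a disc.
-/

namespace Vale.Agent.P205.Full.Topo

open Set Filter Metric Matrix
open scoped ContDiff ComplexConjugate
open _root_.Topology

noncomputable section

lemma dot_pos_of_ne {n : Type*} [Fintype n] {v : n → ℝ} (h : v ≠ 0) : 0 < v ⬝ᵥ v := by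
  obtain ⟨i, hi⟩ : ∃ i, v i ≠ 0 := Function.ne_iff.1 h
  exact lt_of_lt_of_le (mul_self_pos.2 hi)
    (Finset.single_le_sum (fun j _ => mul_self_nonneg (v j)) (Finset.mem_univ i))

lemma contDiffOn_dot {X : Type*} [NormedAddCommGroup X] [NormedSpace ℝ X]
    {f g : X → (Fin 3 → ℝ)} {s : Set X} (hf : ContDiffOn ℝ ∞ f s) (hg : ContDiffOn ℝ ∞ g s) :
    ContDiffOn ℝ ∞ (fun x => f x ⬝ᵥ g x) s := by
  simp only [dotProduct]
  exact ContDiffOn.sum fun i _ => (contDiffOn_pi.1 hf i).mul (contDiffOn_pi.1 hg i)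

/-- A field orthogonal to a nowhere zero field on a disc. -/
theorem exists_orth {a : ℂ → (Fin 3 → ℝ)} {R R₁ : ℝ} (hR₁ : 0 < R₁) (hlt : R₁ < R)
    (ha : ContDiffOn ℝ ∞ a (ball 0 R)) (hne : ∀ x ∈ ball (0 : ℂ) R, a x ≠ 0) :
    ∃ u : ℂ → (Fin 3 → ℝ), ContDiffOn ℝ ∞ u (ball 0 R₁) ∧
      ∀ x ∈ ball (0 : ℂ) R₁, u x ≠ 0 ∧ u x ⬝ᵥ a x = 0 := by
  have hev : ∀ᶠ h in 𝓝 (0 : ℝ), ∀ p ∈ closedBall (0 : ℂ) R₁ ×ˢ Icc (0 : ℝ) 1,
      a (p.2 • p.1) ⬝ᵥ a ((p.2 + h) • p.1) ≠ 0 := by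
    refine ((isCompact_closedBall (0 : ℂ) R₁).prod isCompact_Icc).eventually_forall_of_forall_eventually
      fun p hp => ?_
    have hmem : p.2 • p.1 ∈ ball (0 : ℂ) R := by
      rw [mem_ball_zero_iff, norm_smul, Real.norm_eq_abs, abs_of_nonneg hp.2.1]
      calc p.2 * ‖p.1‖ ≤ 1 * R₁ := by
            gcongr
            · exact hp.2.2
            · exact mem_closedBall_zero_iff.1 hp.1
        _ < R := by linarith
    have c0 : ContinuousAt a (p.2 • p.1) := (ha.continuousOn).continuousAt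
      (isOpen_ball.mem_nhds hmem)
    have c1 : ContinuousAt (fun q : (ℂ × ℝ) × ℝ => a (q.1.2 • q.1.1)) (p, 0) :=
      ContinuousAt.comp (g := a) (f := fun q : (ℂ × ℝ) × ℝ => q.1.2 • q.1.1) c0 (by fun_prop)
    have c2 : ContinuousAt (fun q : (ℂ × ℝ) × ℝ => a ((q.1.2 + q.2) • q.1.1)) (p, 0) :=
      ContinuousAt.comp (g := a) (f := fun q : (ℂ × ℝ) × ℝ => (q.1.2 + q.2) • q.1.1)
        (by simpa using c0) (by fun_prop)
    have c3 : ContinuousAt (fun q : (ℂ × ℝ) × ℝ =>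
        a (q.1.2 • q.1.1) ⬝ᵥ a ((q.1.2 + q.2) • q.1.1)) (p, 0) := by
      simp only [dotProduct]
      exact tendsto_finsetSum _ fun i _ =>
        ((continuous_apply i).continuousAt.comp c1).mul ((continuous_apply i).continuousAt.comp c2)
    have h3 := c3.eventually_ne (y := (0 : ℝ))
      (show a (p.2 • p.1) ⬝ᵥ a ((p.2 + 0) • p.1) ≠ 0 by
        rw [add_zero]; exact (dot_pos_of_ne (hne _ hmem)).ne')
    exact (continuous_swap.tendsto ((0 : ℝ), p)).eventually h3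
  obtain ⟨δ, hδ, hδ'⟩ := Metric.eventually_nhds_iff.1 hev
  obtain ⟨n, hn⟩ := exists_nat_gt (1 / δ)
  have hn0 : (0 : ℝ) < n := lt_trans (by positivity) hn
  have hstep : (1 : ℝ) / n < δ := by
    rw [div_lt_iff₀ hn0]
    rw [div_lt_iff₀ hδ] at hn
    linarith
  have hin : ∀ i : ℕ, i ≤ n → ∀ x ∈ ball (0 : ℂ) R₁, ((i : ℝ) / n) • x ∈ ball (0 : ℂ) R := by
    intro i hi x hx
    rw [mem_ball_zero_iff, norm_smul, Real.norm_eq_abs, abs_of_nonneg (by positivity)]
    have h1 : (i : ℝ) / n ≤ 1 := (div_le_one hn0).2 (by exact_mod_cast hi)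
    have h2 := mem_ball_zero_iff.1 hx
    nlinarith [norm_nonneg x]
  suffices ∀ i : ℕ, i ≤ n → ∃ u : ℂ → (Fin 3 → ℝ), ContDiffOn ℝ ∞ u (ball 0 R₁) ∧
      ∀ x ∈ ball (0 : ℂ) R₁, u x ≠ 0 ∧ u x ⬝ᵥ a (((i : ℝ) / n) • x) = 0 by
    obtain ⟨u, hu, h⟩ := this n le_rfl
    refine ⟨u, hu, fun x hx => ?_⟩
    simpa [div_self hn0.ne'] using h x hx
  intro i
  induction i with
  | zero =>
    intro _
    have h0 := hne 0 (mem_ball_self (hR₁.trans hlt))
    obtain ⟨w, hw, hw'⟩ : ∃ w : Fin 3 → ℝ, w ≠ 0 ∧ w ⬝ᵥ a 0 = 0 := by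
      by_cases h : a 0 0 = 0 ∧ a 0 1 = 0
      · refine ⟨![1, 0, 0], by simp, ?_⟩
        simp [dotProduct, Fin.sum_univ_three, h.1]
      · refine ⟨![-(a 0 1), a 0 0, 0], ?_, ?_⟩
        · intro e
          have e0 := congrFun e 0
          have e1 := congrFun e 1
          simp at e0 e1
          exact h ⟨e1, e0⟩
        · simp [dotProduct, Fin.sum_univ_three]; ring
    exact ⟨fun _ => w, contDiffOn_const, fun x _ => ⟨hw, by simpa using hw'⟩⟩
  | succ i ih =>
    intro hi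
    obtain ⟨u, hu, hu'⟩ := ih (Nat.le_of_succ_le hi)
    obtain ⟨a', ha'⟩ : ∃ a' : ℂ → (Fin 3 → ℝ), ∀ x, a' x = a ((((i + 1 : ℕ) : ℝ) / n) • x) :=
      ⟨_, fun _ => rfl⟩
    have has : ContDiffOn ℝ ∞ a' (ball 0 R₁) :=
      (ha.comp (contDiff_const_smul _).contDiffOn (hin _ hi)).congr fun x _ => ha' x
    refine ⟨fun x => (a' x ⬝ᵥ a' x) • u x - (u x ⬝ᵥ a' x) • a' x,
      ((contDiffOn_dot has has).smul hu).sub ((contDiffOn_dot hu has).smul has),
      fun x hx => ⟨fun h0 => ?_, ?_⟩⟩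
    · obtain ⟨hune, horth⟩ := hu' x hx
      have hp : ((i : ℝ) / n) ∈ Icc (0 : ℝ) 1 :=
        ⟨by positivity, (div_le_one hn0).2 (by exact_mod_cast Nat.le_of_succ_le hi)⟩
      have hd := hδ' (y := (1 : ℝ) / n) (by simpa [abs_of_pos hn0] using hstep)
        (x, (i : ℝ) / n) ⟨ball_subset_closedBall hx, hp⟩
      have e : ((i : ℝ) / n + 1 / n) = ((i + 1 : ℕ) : ℝ) / n := by push_cast; ring
      simp only [e, ← ha'] at hd
      have ha'0 : a' x ≠ 0 := by rw [ha']; exact hne _ (hin _ hi x hx)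
      rw [sub_eq_zero] at h0
      have h1 := congrArg (fun w => w ⬝ᵥ a (((i : ℝ) / n) • x)) h0
      simp only [smul_dotProduct, horth, smul_eq_mul, mul_zero] at h1
      rw [eq_comm, mul_eq_zero, dotProduct_comm (a' x) (a _)] at h1
      rcases h1 with h1 | h1
      · rw [h1, zero_smul, smul_eq_zero] at h0
        exact h0.elim (dot_pos_of_ne ha'0).ne' hune
      · exact hd h1
    · rw [← ha']
      simp only [sub_dotProduct, smul_dotProduct, smul_eq_mul]
      ring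

/-- A nowhere zero smooth function on a disc is an exponential. -/
theorem exists_log {g : ℂ → ℂ} {R R₁ : ℝ} (hR₁ : 0 < R₁) (hlt : R₁ < R)
    (hg : ContDiffOn ℝ ∞ g (ball 0 R)) (hne : ∀ x ∈ ball (0 : ℂ) R, g x ≠ 0) :
    ∃ l : ℂ → ℂ, ContDiff ℝ ∞ l ∧ ∀ x ∈ ball (0 : ℂ) R₁, g x = Complex.exp (l x) := by
  obtain ⟨χ⟩ : Nonempty {χ : ContDiffBump (0 : ℂ) // χ.rIn = R₁ ∧ χ.rOut = (R₁ + R) / 2} :=
    ⟨⟨⟨R₁, (R₁ + R) / 2, hR₁, by linarith⟩, rfl, rfl⟩⟩
  obtain ⟨χ, hin, hout⟩ := χ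
  obtain ⟨G, hG⟩ : ∃ G : ℂ → ℂ, ∀ x, G x = g (χ x • x) := ⟨_, fun _ => rfl⟩
  have hmaps : ∀ x : ℂ, χ x • x ∈ ball (0 : ℂ) R := by
    intro x
    rw [mem_ball_zero_iff, norm_smul, Real.norm_eq_abs, abs_of_nonneg χ.nonneg]
    by_cases hx : ‖x‖ < χ.rOut
    · have := χ.le_one (x := x)
      have := χ.nonneg (x := x)
      nlinarith [norm_nonneg x]
    · rw [χ.zero_of_le_dist (by simpa [dist_zero_right] using not_lt.1 hx)]
      linarith
  have hGs : ContDiff ℝ ∞ G := by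
    rw [funext hG]
    exact hg.comp_contDiff ((χ.contDiff (n := ⊤)).smul contDiff_id) hmaps
  have hGne : ∀ x, G x ≠ 0 := fun x => hG x ▸ hne _ (hmaps x)
  obtain ⟨F, hF⟩ : ∃ F : ℂ × ℝ → ℂ, ∀ p, F p = fderiv ℝ G (p.2 • p.1) p.1 / G (p.2 • p.1) :=
    ⟨_, fun _ => rfl⟩
  have hsm : ContDiff ℝ ∞ fun p : ℂ × ℝ => p.2 • p.1 := contDiff_snd.smul contDiff_fst
  have hFs : ContDiff ℝ ∞ F := by
    rw [funext hF]
    exact (((hGs.fderiv_right (m := ∞) le_rfl).comp hsm).clm_apply contDiff_fst).mul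
      ((hGs.comp hsm).inv fun p => hGne _)
  obtain ⟨l, hl⟩ : ∃ l : ℂ → ℂ, ∀ x, l x = Complex.log (G 0) + ∫ t in (0 : ℝ)..1, F (x, t) :=
    ⟨_, fun _ => rfl⟩
  refine ⟨l, ?_, fun x hx => ?_⟩
  · rw [funext hl]
    exact contDiff_const.add (P205.ParamInt.contDiff_integral01 hFs)
  · have hFc : Continuous fun t : ℝ => F (x, t) := hFs.continuous.comp (Continuous.prodMk_right x)
    obtain ⟨h, hh⟩ : ∃ h : ℝ → ℂ, ∀ t, h t =
        Complex.exp (-(Complex.log (G 0) + ∫ s in (0 : ℝ)..t, F (x, s))) * G (t • x) :=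
      ⟨_, fun _ => rfl⟩
    have hd : ∀ t, HasDerivAt h 0 t := by
      intro t
      have h1 : HasDerivAt (fun t : ℝ => ∫ s in (0 : ℝ)..t, F (x, s)) (F (x, t)) t :=
        intervalIntegral.integral_hasDerivAt_right (hFc.intervalIntegrable _ _)
          (hFc.stronglyMeasurableAtFilter _ _) hFc.continuousAt
      have h2 : HasDerivAt (fun t : ℝ => G (t • x)) (fderiv ℝ G (t • x) x) t := by
        have hs : HasDerivAt (fun t : ℝ => t • x) x t := by
          simpa using (hasDerivAt_id t).smul_const x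
        exact (hGs.differentiable (by simp) (t • x)).hasFDerivAt.comp_hasDerivAt t hs
      have h3 := (((h1.const_add (Complex.log (G 0))).neg).cexp).mul h2
      rw [funext hh]
      refine h3.congr_deriv ?_
      have := hGne (t • x)
      rw [hF]
      field_simp
      ring
    have hc := is_const_of_deriv_eq_zero (fun t => (hd t).differentiableAt)
      (fun t => (hd t).deriv) 1 0
    simp only [hh, intervalIntegral.integral_same, add_zero, one_smul, zero_smul] at hc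
    rw [Complex.exp_neg, Complex.exp_neg, Complex.exp_log (hGne 0), inv_mul_cancel₀ (hGne 0),
      inv_mul_eq_one₀ (Complex.exp_ne_zero _), ← hl] at hc
    rw [hc, hG, χ.one_of_mem_closedBall (by
      rw [hin]; exact ball_subset_closedBall hx), one_smul]

/-- An injective real linear map of the plane is `α h + β (conj h)` with `‖α‖ ≠ ‖β‖`. -/
lemma exists_split {L : ℂ →L[ℝ] ℂ} (hL : Function.Injective L) :
    ∃ α β : ℂ, (∀ h, L h = α * h + β * conj h) ∧ ‖α‖ ≠ ‖β‖ := by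
  refine ⟨(L 1 - Complex.I * L Complex.I) / 2, (L 1 + Complex.I * L Complex.I) / 2, ?_⟩
  generalize hα : (L 1 - Complex.I * L Complex.I) / 2 = α
  generalize hβ : (L 1 + Complex.I * L Complex.I) / 2 = β
  have e : ∀ h, L h = α * h + β * conj h := by
    intro h
    have h0 : L h = h.re • L 1 + h.im • L Complex.I := by
      rw [← map_smul, ← map_smul, ← map_add]
      congr 1
      apply Complex.ext <;> simp
    rw [h0, ← hα, ← hβ]
    apply Complex.ext <;> simp <;> ring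
  refine ⟨e, fun hab => ?_⟩
  have hsq : α * conj α = β * conj β := by
    rw [Complex.mul_conj', Complex.mul_conj', hab]
  have k1 : L (β - conj α) = 0 := by
    rw [e, map_sub, Complex.conj_conj]
    linear_combination -hsq
  have k2 : L (Complex.I * (β + conj α)) = 0 := by
    rw [e, map_mul, map_add, Complex.conj_conj, Complex.conj_I]
    linear_combination Complex.I * hsq
  have z1 := hL (k1.trans (map_zero L).symm)
  have z2 := (mul_eq_zero.1 (hL (k2.trans (map_zero L).symm))).resolve_left Complex.I_ne_zero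
  have hb : β = 0 := by linear_combination (z1 + z2) / 2
  have ha : α = 0 := by
    have : conj α = 0 := by linear_combination (z2 - z1) / 2
    simpa using congrArg conj this
  have := e 1
  rw [ha, hb, zero_mul, zero_mul, add_zero] at this
  exact one_ne_zero (hL (this.trans (map_zero L).symm))

/-- The two kinds of linear model of a simple zero. -/
def kind (b : Bool) : ℂ →L[ℝ] ℂ :=
  if b then (Complex.conjCLE : ℂ →L[ℝ] ℂ) else ContinuousLinearMap.id ℝ ℂ

lemma kind_mul (b : Bool) (x y : ℂ) : kind b (x * y) = kind b x * kind b y := by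
  cases b <;> simp [kind]

lemma norm_kind (b : Bool) (x : ℂ) : ‖kind b x‖ = ‖x‖ := by
  cases b <;> simp [kind]

lemma kind_ne {b : Bool} {x : ℂ} (h : x ≠ 0) : kind b x ≠ 0 := fun e => h (by
  simpa [norm_kind] using congrArg norm e)

/-- Replace a simple zero by its dominant linear part. -/
theorem exists_blend {U : Set ℂ} {z : ℂ → ℂ} (hz : ContDiffOn ℝ ∞ z U)
    {p : ℂ} (hz0 : z p = 0) {L : ℂ →L[ℝ] ℂ}
    (hd : HasFDerivAt z L p) (hL : Function.Injective L) {ρ : ℝ} (hρ : 0 < ρ) :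
    ∃ (z' : ℂ → ℂ) (b : Bool) (c : ℂ), c ≠ 0 ∧ ContDiffOn ℝ ∞ z' U ∧
      (∀ x, x ∉ closedBall p ρ → z' x = z x) ∧
      (∀ x ∈ U, x ≠ p → z x ≠ 0 → z' x ≠ 0) ∧
      (∀ᶠ x in 𝓝 p, z' x = c * kind b (x - p)) ∧ z' p = 0 := by
  obtain ⟨α, β, hsplit, hne⟩ := exists_split hL
  obtain ⟨b, c, d, hbd, hdc⟩ : ∃ (b : Bool) (c d : ℂ),
      (∀ h, ‖L h - c * kind b h‖ = ‖d‖ * ‖h‖) ∧ ‖d‖ < ‖c‖ := by
    rcases lt_or_gt_of_ne hne with h | h
    · exact ⟨true, β, α, fun h' => by simp [kind, hsplit], h⟩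
    · exact ⟨false, α, β, fun h' => by simp [kind, hsplit], h⟩
  have hc0 : 0 < ‖c‖ := (norm_nonneg d).trans_lt hdc
  obtain ⟨r, hr, hr'⟩ := Metric.eventually_nhds_iff.1
    ((hasFDerivAt_iff_isLittleO.1 hd).bound (show 0 < (‖c‖ - ‖d‖) / 2 by linarith))
  obtain ⟨ρ', hρ', hρr, hρρ⟩ : ∃ ρ', 0 < ρ' ∧ ρ' < r ∧ ρ' ≤ ρ :=
    ⟨min ρ (r / 2), lt_min hρ (by linarith), lt_of_le_of_lt (min_le_right _ _) (by linarith),
      min_le_left _ _⟩
  obtain ⟨χ⟩ : Nonempty {χ : ContDiffBump p // χ.rIn = ρ' / 2 ∧ χ.rOut = ρ'} :=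
    ⟨⟨⟨ρ' / 2, ρ', by linarith, by linarith⟩, rfl, rfl⟩⟩
  obtain ⟨χ, hin, hout⟩ := χ
  refine ⟨fun x => (1 - χ x) • z x + χ x • (c * kind b (x - p)), b, c,
    norm_pos_iff.1 hc0, ?_, fun x hx => ?_, fun x hx hxp hzx => ?_, ?_, by simp [hz0]⟩
  · have h1 : ContDiff ℝ ∞ fun x => c * kind b (x - p) :=
      contDiff_const.mul ((kind b).contDiff.comp (contDiff_id.sub contDiff_const))
    exact ((contDiff_const.sub (χ.contDiff (n := ⊤))).contDiffOn.smul hz).add
      (((χ.contDiff (n := ⊤)).contDiffOn).smul h1.contDiffOn)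
  · rw [mem_closedBall, not_le] at hx
    simp [χ.zero_of_le_dist (show χ.rOut ≤ dist x p by linarith)]
  · by_cases hdist : dist x p < χ.rOut
    · intro h0
      have hb1 := hr' (show dist x p < r by linarith)
      rw [hz0, sub_zero] at hb1
      have hp : 0 < ‖x - p‖ := norm_pos_iff.2 (sub_ne_zero.2 hxp)
      have e : c * kind b (x - p) + (1 - χ x) • ((z x - L (x - p))
          + (L (x - p) - c * kind b (x - p))) = 0 := by
        simp only [Complex.real_smul] at h0 ⊢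
        push_cast at h0 ⊢
        linear_combination h0
      have hle : ‖c * kind b (x - p)‖ ≤ ((‖c‖ - ‖d‖) / 2 + ‖d‖) * ‖x - p‖ := by
        rw [eq_neg_of_add_eq_zero_left e, norm_neg, norm_smul, Real.norm_eq_abs,
          abs_of_nonneg (by linarith [χ.le_one (x := x)])]
        calc (1 - χ x) * _ ≤ 1 * (‖z x - L (x - p)‖ + ‖L (x - p) - c * kind b (x - p)‖) := by
              gcongr
              · linarith [χ.nonneg (x := x)]
              · exact norm_add_le _ _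
          _ ≤ _ := by rw [hbd]; linarith
      rw [norm_mul, norm_kind] at hle
      nlinarith
    · simpa [χ.zero_of_le_dist (not_lt.1 hdist)] using hzx
  · filter_upwards [closedBall_mem_nhds p (show 0 < χ.rIn by linarith)] with x hx
    simp [χ.one_of_mem_closedBall hx]

end

end Vale.Agent.P205.Full.Topo
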