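import Mathlib
import Vale.Agent.P205.Full.Topology.Corrug
import Vale.Agent.P205.Full.Topology.Plane

/-!
# P205: two cross caps in a disc cancel

If a map of a disc into three-space is an immersion except at two cross caps, it can be changed
on a compact subset of the disc to an immersion. In a frame along a nowhere zero partial
derivative the other one is `E * (Tp (x - p) * Tq (x - q))` with `Tp, Tq` the identity or the
conjugation; both zeros are moved to the origin and there the pair of fields is tilted into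
an independent pair, so the relative corrugation applies.
-/

namespace Vale.Agent.P205.Full.Topo

open Set Filter Metric Matrix
open scoped ContDiff ComplexConjugate
open _root_.Topology

noncomputable section

/-- Three vectors `a, u, a × u` detect a vector. -/
lemma frame_eq_zero {a u d : V3} (ha : a ≠ 0) (hu : u ≠ 0) (hau : u ⬝ᵥ a = 0)
    (h1 : d ⬝ᵥ a = 0) (h2 : d ⬝ᵥ u = 0) (h3 : d ⬝ᵥ (a ⨯₃ u) = 0) : d = 0 := by
  have hpos := mul_pos (dot_pos_of_ne ha) (dot_pos_of_ne hu)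
  have hau' : a ⬝ᵥ u = 0 := by rw [dotProduct_comm]; exact hau
  have hvv : (a ⨯₃ u) ⬝ᵥ (a ⨯₃ u) = (a ⬝ᵥ a) * (u ⬝ᵥ u) := by
    rw [cross_dot_cross, hau', hau]; ring
  have key : ((a ⨯₃ u) ⬝ᵥ (a ⨯₃ u)) • d
      = ((d ⬝ᵥ a) * (u ⬝ᵥ u) - (d ⬝ᵥ u) * (a ⬝ᵥ u)) • a
        + ((d ⬝ᵥ u) * (a ⬝ᵥ a) - (d ⬝ᵥ a) * (a ⬝ᵥ u)) • u
        + (d ⬝ᵥ (a ⨯₃ u)) • (a ⨯₃ u) := by
    ext i
    fin_cases i <;> simp [cross_apply, dotProduct, Fin.sum_univ_three] <;> ring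
  rw [h1, h2, h3, hvv] at key
  simp only [zero_mul, sub_zero, zero_smul, add_zero] at key
  exact (smul_eq_zero.1 key).resolve_left hpos.ne'

lemma cross_ne_of_indep {v w : V3} (h : ∀ m t : ℝ, m • v + t • w = 0 → m = 0 ∧ t = 0) :
    v ⨯₃ w ≠ 0 :=
  crossProduct_ne_zero_iff_linearIndependent.2 (LinearIndependent.pair_iff.2 h)

lemma coeff_eq_zero {v w : V3} (h : v ⨯₃ w ≠ 0) {m t : ℝ} (h0 : m • v + t • w = 0) :
    m = 0 ∧ t = 0 := by
  have h1 := congrArg (fun z => v ⨯₃ z) h0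
  have h2 := congrArg (fun z => z ⨯₃ w) h0
  simp only [map_add, map_smul, cross_self, smul_zero, zero_add, add_zero, map_zero,
    LinearMap.add_apply, LinearMap.smul_apply, LinearMap.zero_apply] at h1 h2
  exact ⟨(smul_eq_zero.1 h2).resolve_right h, (smul_eq_zero.1 h1).resolve_right h⟩

/-- The derivative of a dot product at a zero of the first factor. -/
lemma fderiv_dot_zero {f g : ℂ → V3} {p : ℂ} (hf : DifferentiableAt ℝ f p)
    (hg : DifferentiableAt ℝ g p) (h0 : f p = 0) (h : ℂ) :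
    fderiv ℝ (fun x => f x ⬝ᵥ g x) p h = fderiv ℝ f p h ⬝ᵥ g p := by
  have hfi : ∀ i, DifferentiableAt ℝ (fun x => f x i) p := differentiableAt_pi.1 hf
  have hgi : ∀ i, DifferentiableAt ℝ (fun x => g x i) p := differentiableAt_pi.1 hg
  simp only [dotProduct]
  rw [fderiv_fun_sum fun i _ => (hfi i).fun_mul (hgi i), _root_.sum_apply]
  refine Finset.sum_congr rfl fun i _ => ?_
  rw [fderiv_fun_mul (hfi i) (hgi i), fderiv_pi hfi]
  simp [h0, mul_comm]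

/-- A frame along `∂ₑ φ` and the coordinates of the other partial derivative. -/
lemma crossCap_coord {φ a u : ℂ → V3} {U : Set ℂ} (hU : IsOpen U) (hφ : ContDiffOn ℝ ∞ φ U)
    {e e' : ℂ} (hspan : ∀ l : ℂ, ∃ c₁ c₂ : ℝ, l = c₁ • e + c₂ • e')
    (ha : ∀ x ∈ U, a x = fderiv ℝ φ x e) (hu : ContDiffOn ℝ ∞ u U)
    (hne : ∀ x ∈ U, a x ≠ 0 ∧ u x ≠ 0 ∧ u x ⬝ᵥ a x = 0) {p : ℂ} (hp : p ∈ U)
    (hcc : CrossCap φ p) {z : ℂ → ℂ} (hz : ∀ x ∈ U, z x =
      ((fderiv ℝ φ x e' ⬝ᵥ ((u x ⬝ᵥ u x)⁻¹ • u x) : ℝ) : ℂ)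
        + ((fderiv ℝ φ x e' ⬝ᵥ (((a x ⨯₃ u x) ⬝ᵥ (a x ⨯₃ u x))⁻¹ • (a x ⨯₃ u x)) : ℝ) : ℂ)
          * Complex.I) :
    z p = 0 ∧ ∃ L : ℂ →L[ℝ] ℂ, HasFDerivAt z L p ∧ Function.Injective L := by
  obtain ⟨k, hk0, hDk, hsurj⟩ := hcc
  obtain ⟨c₁, c₂, hk⟩ := hspan k
  obtain ⟨hap, hup, hort⟩ := hne p hp
  have hE : c₁ • a p + c₂ • fderiv ℝ φ p e' = 0 := by
    rw [ha p hp, ← map_smul, ← map_smul, ← map_add, ← hk, hDk]
  have hc₂ : c₂ ≠ 0 := by
    rintro rfl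
    rw [zero_smul, add_zero, smul_eq_zero] at hE
    rcases hE with rfl | h
    · exact hk0 (by rw [hk]; simp)
    · exact hap h
  obtain ⟨α, hα⟩ : ∃ α : ℝ, fderiv ℝ φ p e' = α • a p := by
    refine ⟨-(c₁ / c₂), ?_⟩
    have h' : c₂ • fderiv ℝ φ p e' = -(c₁ • a p) := eq_neg_of_add_eq_zero_right hE
    rw [← inv_smul_smul₀ hc₂ (fderiv ℝ φ p e'), h', smul_neg, smul_smul, neg_smul]
    congr 2
    ring
  have hkk : k = c₂ • (e' - α • e) := by
    have hE' : (c₁ + c₂ * α) • a p = 0 := by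
      rw [add_smul, mul_smul, ← hα, hE]
    have hc : c₁ + c₂ * α = 0 := (smul_eq_zero.1 hE').resolve_right hap
    rw [hk, smul_sub, smul_smul, show c₂ * α = -c₁ by linarith, neg_smul, sub_neg_eq_add,
      add_comm]
  obtain ⟨K, hK⟩ : ∃ K : ℂ → V3, ∀ x, K x = fderiv ℝ φ x (e' - α • e) := ⟨_, fun _ => rfl⟩
  have hKs : ContDiffOn ℝ ∞ K U :=
    ((hφ.fderiv_of_isOpen hU le_rfl).clm_apply contDiffOn_const).congr fun x _ => hK x
  have hKp : K p = 0 := by rw [hK, map_sub, map_smul, ← ha p hp, hα, sub_self]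
  have hdot : ∀ x ∈ U, ∀ w : V3, a x ⬝ᵥ w = 0 → fderiv ℝ φ x e' ⬝ᵥ w = K x ⬝ᵥ w := by
    intro x hx w hw
    rw [hK, map_sub, map_smul, ← ha x hx, sub_dotProduct, smul_dotProduct, hw, smul_zero,
      sub_zero]
  obtain ⟨U', hU'⟩ : ∃ U' : ℂ → V3, ∀ x, U' x = (u x ⬝ᵥ u x)⁻¹ • u x := ⟨_, fun _ => rfl⟩
  obtain ⟨V', hV'⟩ : ∃ V' : ℂ → V3,
      ∀ x, V' x = ((a x ⨯₃ u x) ⬝ᵥ (a x ⨯₃ u x))⁻¹ • (a x ⨯₃ u x) := ⟨_, fun _ => rfl⟩
  have has : ContDiffOn ℝ ∞ a U :=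
    ((hφ.fderiv_of_isOpen hU le_rfl).clm_apply contDiffOn_const).congr ha
  have hv := contDiffOn_cross has hu
  have hvne : ∀ x ∈ U, a x ⨯₃ u x ≠ 0 := by
    intro x hx h0
    obtain ⟨h1, h2, h3⟩ := hne x hx
    have h4 : (a x ⨯₃ u x) ⬝ᵥ (a x ⨯₃ u x) = (a x ⬝ᵥ a x) * (u x ⬝ᵥ u x) := by
      rw [cross_dot_cross, h3, mul_zero, sub_zero]
    rw [h0, dotProduct_zero] at h4
    exact (mul_pos (dot_pos_of_ne h1) (dot_pos_of_ne h2)).ne h4
  have hUs : DifferentiableAt ℝ U' p := by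
    rw [funext hU']
    exact ((((contDiffOn_dot hu hu).inv fun x hx => (dot_pos_of_ne (hne x hx).2.1).ne').smul
      hu).contDiffAt (hU.mem_nhds hp)).differentiableAt (by simp)
  have hVs : DifferentiableAt ℝ V' p := by
    rw [funext hV']
    exact ((((contDiffOn_dot hv hv).inv fun x hx => (dot_pos_of_ne (hvne x hx)).ne').smul
      hv).contDiffAt (hU.mem_nhds hp)).differentiableAt (by simp)
  have hKd : DifferentiableAt ℝ K p :=
    (hKs.contDiffAt (hU.mem_nhds hp)).differentiableAt (by simp)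
  have hzK : ∀ x ∈ U, z x = Complex.ofRealCLM (K x ⬝ᵥ U' x)
      + Complex.I * Complex.ofRealCLM (K x ⬝ᵥ V' x) := by
    intro x hx
    rw [hz x hx, hU', hV', hdot x hx _ (by rw [dotProduct_smul, dotProduct_comm (a x) (u x),
      (hne x hx).2.2, smul_zero]), hdot x hx _ (by rw [dotProduct_smul, dot_self_cross,
      smul_zero])]
    simp [mul_comm]
  have h1 : HasFDerivAt (fun x => K x ⬝ᵥ U' x) (fderiv ℝ (fun x => K x ⬝ᵥ U' x) p) p := by
    refine DifferentiableAt.hasFDerivAt ?_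
    simp only [dotProduct]
    exact DifferentiableAt.fun_sum fun i _ =>
      (differentiableAt_pi.1 hKd i).fun_mul (differentiableAt_pi.1 hUs i)
  have h2 : HasFDerivAt (fun x => K x ⬝ᵥ V' x) (fderiv ℝ (fun x => K x ⬝ᵥ V' x) p) p := by
    refine DifferentiableAt.hasFDerivAt ?_
    simp only [dotProduct]
    exact DifferentiableAt.fun_sum fun i _ =>
      (differentiableAt_pi.1 hKd i).fun_mul (differentiableAt_pi.1 hVs i)
  obtain ⟨L, hL⟩ : ∃ L : ℂ →L[ℝ] ℂ, L = Complex.ofRealCLM.comp (fderiv ℝ (fun x => K x ⬝ᵥ U' x) p)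
      + Complex.I • Complex.ofRealCLM.comp (fderiv ℝ (fun x => K x ⬝ᵥ V' x) p) := ⟨_, rfl⟩
  refine ⟨by simp [hzK p hp, hKp], L, ?_, ?_⟩
  · rw [hL]
    refine HasFDerivAt.congr_of_eventuallyEq ((Complex.ofRealCLM.hasFDerivAt.comp p h1).add
      ((Complex.ofRealCLM.hasFDerivAt.comp p h2).const_mul Complex.I)) ?_
    filter_upwards [hU.mem_nhds hp] with x hx
    simp [hzK x hx]
  · refine (injective_iff_map_eq_zero L).2 fun h hh => ?_
    have e1 : fderiv ℝ K p h ⬝ᵥ u p = 0 := by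
      have e := congrArg Complex.re hh
      simp [hL] at e
      rw [fderiv_dot_zero hKd hUs hKp, hU', dotProduct_smul, smul_eq_mul, mul_eq_zero] at e
      exact e.resolve_left (inv_ne_zero (dot_pos_of_ne hup).ne')
    have e2 : fderiv ℝ K p h ⬝ᵥ (a p ⨯₃ u p) = 0 := by
      have e := congrArg Complex.im hh
      simp [hL] at e
      rw [fderiv_dot_zero hKd hVs hKp, hV', dotProduct_smul, smul_eq_mul, mul_eq_zero] at e
      exact e.resolve_left (inv_ne_zero (dot_pos_of_ne (hvne p hp)).ne')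
    obtain ⟨d, hd⟩ : ∃ d, d = fderiv ℝ K p h - ((fderiv ℝ K p h ⬝ᵥ a p) / (a p ⬝ᵥ a p)) • a p :=
      ⟨_, rfl⟩
    have hd0 : d = 0 := by
      refine frame_eq_zero hap hup hort ?_ ?_ ?_
      · rw [hd, sub_dotProduct, smul_dotProduct, smul_eq_mul,
          div_mul_cancel₀ _ (dot_pos_of_ne hap).ne', sub_self]
      · rw [hd, sub_dotProduct, smul_dotProduct, dotProduct_comm (a p) (u p), hort, e1,
          smul_zero, sub_zero]
      · rw [hd, sub_dotProduct, smul_dotProduct, dot_self_cross, e2, smul_zero, sub_zero]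
    obtain ⟨T, hT⟩ : ∃ T : ℂ × ℝ →ₗ[ℝ] V3,
        ∀ h' t, T (h', t) = fderiv ℝ K p h' + t • a p :=
      ⟨(fderiv ℝ K p).toLinearMap.coprod (LinearMap.toSpanSingleton ℝ V3 (a p)),
        fun _ _ => by simp⟩
    have hTs : Function.Surjective T := by
      intro w
      obtain ⟨⟨h', l⟩, hw⟩ := hsurj w
      obtain ⟨d₁, d₂, hl⟩ := hspan l
      refine ⟨(c₂ • h', d₁ + d₂ * α), ?_⟩
      have hKk : (fun x => fderiv ℝ φ x k) = fun x => c₂ • K x := by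
        funext x
        rw [hK, hkk, map_smul]
      simp only [hKk] at hw
      rw [fderiv_fun_const_smul hKd, hl, map_add, map_smul, map_smul, ← ha p hp, hα] at hw
      rw [hT, map_smul, ← hw, add_smul, mul_smul]
      rfl
    have hTi := (LinearMap.injective_iff_surjective_of_finrank_eq_finrank
      (by simp [Complex.finrank_real_complex])).2 hTs
    have hz0 : T (h, -((fderiv ℝ K p h ⬝ᵥ a p) / (a p ⬝ᵥ a p))) = T (0, 0) := by
      rw [hT, hT, map_zero, zero_smul, add_zero, neg_smul, ← sub_eq_add_neg, ← hd, hd0]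
    exact congrArg Prod.fst (hTi hz0)

/-- Near two simple zeros a function is replaced by `exp * Tp (x - p) * Tq (x - q)`. -/
lemma exists_factor {z : ℂ → ℂ} {r r₁ r₂ r₃ : ℝ} (hr₁ : r < r₁) (hr₂ : r₁ < r₂) (hr₃ : r₂ < r₃)
    (hzs : ContDiffOn ℝ ∞ z (ball 0 r₃)) {p q : ℂ} (hp : p ∈ ball (0 : ℂ) r)
    (hq : q ∈ ball (0 : ℂ) r) (hpq : p ≠ q)
    (hznz : ∀ x ∈ ball (0 : ℂ) r₃, x ≠ p → x ≠ q → z x ≠ 0) (hzp : z p = 0) (hzq : z q = 0)
    {Lp Lq : ℂ →L[ℝ] ℂ} (hLp : HasFDerivAt z Lp p) (hLpi : Function.Injective Lp)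
    (hLq : HasFDerivAt z Lq q) (hLqi : Function.Injective Lq) :
    ∃ (bp bq : Bool) (E : ℂ → ℂ), ContDiff ℝ ∞ E ∧ (∀ x, E x ≠ 0) ∧
      ∀ x ∈ ball (0 : ℂ) r₂, x ∉ closedBall (0 : ℂ) r₁ →
        z x = E x * (kind bp (x - p) * kind bq (x - q)) := by
  have hr : 0 < r := (norm_nonneg p).trans_lt (mem_ball_zero_iff.1 hp)
  obtain ⟨ρ, hρ, hρd, hρr⟩ : ∃ ρ > 0, ρ < dist p q ∧ ρ ≤ r₁ - r :=
    ⟨min (dist p q / 2) (r₁ - r), lt_min (by linarith [dist_pos.2 hpq]) (by linarith),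
      (min_le_left _ _).trans_lt (by linarith [dist_pos.2 hpq]), min_le_right _ _⟩
  have hball : ∀ {c : ℂ}, c ∈ ball (0 : ℂ) r → closedBall c ρ ⊆ closedBall 0 r₁ := fun hc =>
    closedBall_subset_closedBall' (by linarith [mem_ball.1 hc])
  obtain ⟨z₁, bp, cp, hcp0, hz₁s, hz₁o, hz₁nz, hz₁p, hz₁p0⟩ :=
    exists_blend hzs hzp hLp hLpi hρ
  have hqn : ∀ᶠ x in 𝓝 q, z₁ x = z x :=
    Filter.eventually_of_mem (isClosed_closedBall.isOpen_compl.mem_nhds (show q ∉ closedBall p ρ by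
      rw [mem_closedBall, dist_comm, not_le]; exact hρd)) fun x hx => hz₁o x hx
  obtain ⟨z₂, bq, cq, hcq0, hz₂s, hz₂o, hz₂nz, hz₂q, hz₂q0⟩ :=
    exists_blend hz₁s (show z₁ q = 0 by rw [hqn.self_of_nhds, hzq])
      (hLq.congr_of_eventuallyEq hqn) hLqi hρ
  have hz₂p : ∀ᶠ x in 𝓝 p, z₂ x = cp * kind bp (x - p) := by
    filter_upwards [hz₁p, isClosed_closedBall.isOpen_compl.mem_nhds (show p ∉ closedBall q ρ by
      rw [mem_closedBall, not_le]; exact hρd)] with x h1 h2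
    rw [hz₂o x h2, h1]
  -- the logarithm of the quotient
  obtain ⟨g, hg⟩ : ∃ g : ℂ → ℂ, ∀ x, g x = if x = p then cp / kind bq (p - q)
      else if x = q then cq / kind bp (q - p)
      else z₂ x / (kind bp (x - p) * kind bq (x - q)) := ⟨_, fun _ => rfl⟩
  have hkne : ∀ (b : Bool) {x y : ℂ}, x ≠ y → kind b (x - y) ≠ 0 :=
    fun b {x y} h => kind_ne (sub_ne_zero.2 h)
  have hks : ∀ (b : Bool) (c : ℂ), ContDiff ℝ ∞ fun x => kind b (x - c) :=
    fun b c => (kind b).contDiff.comp (contDiff_id.sub contDiff_const)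
  have hinv : ∀ {f : ℂ → ℂ} {x : ℂ}, ContDiffAt ℝ ∞ f x → f x ≠ 0 →
      ContDiffAt ℝ ∞ (fun y => (f y)⁻¹) x := fun hf h => hf.inv h
  have hgs : ContDiffOn ℝ ∞ g (ball 0 r₃) := by
    intro x hx
    refine ContDiffAt.contDiffWithinAt ?_
    rcases eq_or_ne x p with rfl | h1
    · refine (((contDiffAt_const (c := cp)).mul (hinv (hks bq q).contDiffAt
        (hkne bq hpq))).congr_of_eventuallyEq ?_)
      filter_upwards [hz₂p, isOpen_ne.mem_nhds hpq] with y hy hyq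
      rw [hg]
      by_cases h : y = x
      · subst h; rw [if_pos rfl]; exact div_eq_mul_inv _ _
      · rw [if_neg h, if_neg hyq, hy]
        have := hkne bp h
        have := hkne bq hyq
        field_simp
    rcases eq_or_ne x q with rfl | h2
    · refine (((contDiffAt_const (c := cq)).mul (hinv (hks bp p).contDiffAt
        (hkne bp hpq.symm))).congr_of_eventuallyEq ?_)
      filter_upwards [hz₂q, isOpen_ne.mem_nhds hpq.symm] with y hy hyp
      rw [hg, if_neg hyp]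
      by_cases h : y = x
      · subst h; rw [if_pos rfl]; exact div_eq_mul_inv _ _
      · rw [if_neg h, hy]
        have := hkne bq h
        have := hkne bp hyp
        field_simp
    refine (((hz₂s.contDiffAt (isOpen_ball.mem_nhds hx)).mul (hinv
      ((hks bp p).contDiffAt.mul (hks bq q).contDiffAt)
      (mul_ne_zero (hkne bp h1) (hkne bq h2)))).congr_of_eventuallyEq ?_)
    filter_upwards [isOpen_ne.mem_nhds h1, isOpen_ne.mem_nhds h2] with y hy1 hy2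
    rw [hg, if_neg hy1, if_neg hy2, div_eq_mul_inv]
  have hgne : ∀ x ∈ ball (0 : ℂ) r₃, g x ≠ 0 := by
    intro x hx
    rw [hg]
    split_ifs with h1 h2
    · exact div_ne_zero hcp0 (hkne bq hpq)
    · exact div_ne_zero hcq0 (hkne bp hpq.symm)
    · exact div_ne_zero (hz₂nz x hx h2 (hz₁nz x hx h1 (hznz x hx h1 h2)))
        (mul_ne_zero (hkne bp h1) (hkne bq h2))
  obtain ⟨lg, hlg, hlgg⟩ := exists_log (by linarith : (0 : ℝ) < r₂) hr₃ hgs hgne
  refine ⟨bp, bq, fun x => Complex.exp (lg x), hlg.cexp, fun x => Complex.exp_ne_zero _,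
    fun y hy hy1 => ?_⟩
  have hyp : y ≠ p := fun h => hy1 (h ▸ hball hp (mem_closedBall_self hρ.le))
  have hyq : y ≠ q := fun h => hy1 (h ▸ hball hq (mem_closedBall_self hρ.le))
  have h2 : z₂ y = z y := by
    rw [hz₂o y fun h => hy1 (hball hq h), hz₁o y fun h => hy1 (hball hp h)]
  change z y = Complex.exp (lg y) * (kind bp (y - p) * kind bq (y - q))
  rw [← hlgg y hy, hg, if_neg hyp, if_neg hyq, h2,
    div_mul_cancel₀ _ (mul_ne_zero (hkne bp hyp) (hkne bq hyq))]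

/-- The pair of coefficient fields: `(1, 0), (0, W)` where `s = 0`, independent everywhere. -/
lemma exists_pairs (bp bq : Bool) {W : ℂ → ℂ} {s : ℂ → ℝ} (hWs : ContDiff ℝ ∞ W)
    (hss : ContDiff ℝ ∞ s) (hs0 : s 0 = 1) (hW0 : ∀ x : ℂ, x ≠ 0 → W x ≠ 0)
    (hWσ : ∀ x, s x ≠ 0 → W x = kind bp x * kind bq x) :
    ∃ (P₀ : ℂ → ℝ) (P : ℂ → ℂ) (Q₀ : ℂ → ℝ) (Q : ℂ → ℂ), ContDiff ℝ ∞ P₀ ∧ ContDiff ℝ ∞ P ∧
      ContDiff ℝ ∞ Q₀ ∧ ContDiff ℝ ∞ Q ∧
      (∀ x, x ≠ 0 → s x = 0 → P₀ x = 1 ∧ P x = 0 ∧ Q₀ x = 0 ∧ Q x = W x) ∧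
      ∀ (x : ℂ) (m t : ℝ), m * P₀ x + t * Q₀ x = 0 → m • P x + t • Q x = 0 →
        m = 0 ∧ t = 0 := by
  have hQs : ContDiff ℝ ∞ fun x => W x + Complex.ofRealCLM (s x ^ 2) :=
    hWs.add (Complex.ofRealCLM.contDiff.comp (hss.pow 2))
  by_cases hb : bp = bq
  · subst hb
    obtain ⟨hh, hhd⟩ : ∃ hh : ℂ → ℂ, ∀ x, hh x = kind bp x := ⟨_, fun _ => rfl⟩
    have hhs : ContDiff ℝ ∞ hh := by rw [funext hhd]; exact (kind bp).contDiff
    obtain ⟨n, hn⟩ : ∃ n : ℂ → ℝ, ∀ x, n x = (hh x).re ^ 2 + (hh x).im ^ 2 + s x ^ 2 :=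
      ⟨_, fun _ => rfl⟩
    have hre : ContDiff ℝ ∞ fun x => (hh x).re := Complex.reCLM.contDiff.comp hhs
    have him : ContDiff ℝ ∞ fun x => (hh x).im := Complex.imCLM.contDiff.comp hhs
    have hns : ContDiff ℝ ∞ n := by
      rw [funext hn]; exact ((hre.pow 2).add (him.pow 2)).add (hss.pow 2)
    have hnpos : ∀ x, 0 < n x := by
      intro x
      rw [hn]
      rcases eq_or_ne x 0 with rfl | hx
      · rw [hs0]; positivity
      · have : 0 < Complex.normSq (hh x) := Complex.normSq_pos.2 (hhd x ▸ kind_ne hx)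
        rw [Complex.normSq_apply] at this
        nlinarith [sq_nonneg (s x)]
    have hni : ContDiff ℝ ∞ fun x => (n x)⁻¹ := hns.inv fun x => (hnpos x).ne'
    refine ⟨fun x => ((hh x).re ^ 2 + (hh x).im ^ 2 - s x ^ 2) * (n x)⁻¹,
      fun x => Complex.ofRealCLM (2 * (hh x).im * s x * (n x)⁻¹)
        - Complex.I * Complex.ofRealCLM (2 * (hh x).re * s x * (n x)⁻¹),
      fun x => 2 * (hh x).im * s x, fun x => W x + Complex.ofRealCLM (s x ^ 2),
      (((hre.pow 2).add (him.pow 2)).sub (hss.pow 2)).mul hni,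
      (Complex.ofRealCLM.contDiff.comp (((contDiff_const.mul him).mul hss).mul hni)).sub
        (contDiff_const.mul
          (Complex.ofRealCLM.contDiff.comp (((contDiff_const.mul hre).mul hss).mul hni))),
      (contDiff_const.mul him).mul hss, hQs, fun x hx hsx => ?_, fun x m t h1 h2 => ?_⟩
    · have hn' : 0 < (hh x).re ^ 2 + (hh x).im ^ 2 := by
        simpa [hn, hsx] using hnpos x
      simp [hsx, hn, hn'.ne']
    · have e1 := congrArg Complex.re h2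
      have e2 := congrArg Complex.im h2
      simp at e1 e2
      by_cases hsx : s x = 0
      · have hx : x ≠ 0 := fun h => by simp [h, hs0] at hsx
        have hn' : 0 < (hh x).re ^ 2 + (hh x).im ^ 2 := by simpa [hn, hsx] using hnpos x
        simp [hsx] at h1 e1 e2
        have ht : t = 0 := by
          by_contra ht
          exact hW0 x hx (Complex.ext (e1.resolve_left ht) (e2.resolve_left ht))
        refine ⟨?_, ht⟩
        simpa [hn, hsx, hn'.ne'] using h1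
      · have hW2 := hWσ x hsx
        rw [← hhd] at hW2
        rw [hW2] at e1 e2
        simp [sq] at e1 e2
        have hn' := hnpos x
        field_simp at h1 e1 e2
        rw [hn] at h1 e1 e2 hn'
        generalize (hh x).re = A, (hh x).im = B, s x = S at *
        have hm : m = 0 := by
          have : m * (A ^ 2 + B ^ 2 + S ^ 2) ^ 2 = 0 := by
            linear_combination (A ^ 2 + B ^ 2 - S ^ 2) * h1 + 2 * B * S * e1 - 2 * A * S * e2
          simpa [hn'.ne'] using this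
        refine ⟨hm, ?_⟩
        subst hm
        simp [hn'.ne', hsx] at h1 e1 e2
        rcases h1 with hB0 | ht
        swap
        · exact ht
        · subst hB0
          rcases e1 with ht | hA
          · exact ht
          · nlinarith [mul_self_pos.2 hsx]
  · refine ⟨fun _ => 1, fun _ => 0, fun _ => 0, fun x => W x + Complex.ofRealCLM (s x ^ 2),
      contDiff_const, contDiff_const, contDiff_const, hQs,
      fun x hx hsx => by simp [hsx], fun x m t h1 h2 => ?_⟩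
    simp at h1 h2
    rw [← mul_add, mul_eq_zero, Complex.ofReal_eq_zero] at h2
    refine ⟨h1, h2.resolve_right fun h0 => ?_⟩
    by_cases hsx : s x = 0
    · have hx : x ≠ 0 := fun h => by simp [h, hs0] at hsx
      exact hW0 x hx (by simpa [hsx] using h0)
    · rw [hWσ x hsx] at h0
      have hm : kind bp x * kind bq x = x * conj x := by
        cases bp <;> cases bq <;>
          first | exact absurd rfl hb | simp [kind, mul_comm]
      have h' := congrArg Complex.re h0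
      rw [hm] at h'
      simp [sq] at h'
      nlinarith [mul_self_pos.2 hsx]

/-- A direction off both kernels. -/
lemma exists_direction {φ : ℂ → V3} {p q : ℂ} (hcp : CrossCap φ p) (hcq : CrossCap φ q) :
    ∃ e : ℂ, e ≠ 0 ∧ fderiv ℝ φ p e ≠ 0 ∧ fderiv ℝ φ q e ≠ 0 := by
  have hker : ∀ {x : ℂ}, CrossCap φ x → ∀ v w : ℂ,
      (∀ l : ℂ, ∃ c₁ c₂ : ℝ, l = c₁ • v + c₂ • w) →
      fderiv ℝ φ x v = 0 → fderiv ℝ φ x w = 0 → False := by
    rintro x ⟨k, _, _, hs⟩ v w hvw hv hw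
    have h0 : ∀ l, fderiv ℝ φ x l = 0 := fun l => by
      obtain ⟨c₁, c₂, rfl⟩ := hvw l
      rw [map_add, map_smul, map_smul, hv, hw, smul_zero, smul_zero, add_zero]
    have hs' : Function.Surjective
        (fderiv ℝ (fun y => fderiv ℝ φ y k) x).toLinearMap := fun y => by
      obtain ⟨hl, h⟩ := hs y
      exact ⟨hl.1, by simpa [h0] using h⟩
    have := LinearMap.finrank_le_finrank_of_injective
      (f := (fderiv ℝ (fun y => fderiv ℝ φ y k) x).toLinearMap.dualMap)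
      (LinearMap.dualMap_injective_of_surjective hs')
    simp [Subspace.dual_finrank_eq, Complex.finrank_real_complex] at this
  have b1 : ∀ l : ℂ, ∃ c₁ c₂ : ℝ, l = c₁ • (1 : ℂ) + c₂ • Complex.I :=
    fun l => ⟨l.re, l.im, by apply Complex.ext <;> simp⟩
  have b2 : ∀ l : ℂ, ∃ c₁ c₂ : ℝ, l = c₁ • (1 : ℂ) + c₂ • (1 + Complex.I) :=
    fun l => ⟨l.re - l.im, l.im, by apply Complex.ext <;> simp⟩
  have b3 : ∀ l : ℂ, ∃ c₁ c₂ : ℝ, l = c₁ • Complex.I + c₂ • (1 + Complex.I) :=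
    fun l => ⟨l.im - l.re, l.re, by apply Complex.ext <;> simp⟩
  have k1 := hker hcp _ _ b1
  have k2 := hker hcp _ _ b2
  have k3 := hker hcp _ _ b3
  have m1 := hker hcq _ _ b1
  have m2 := hker hcq _ _ b2
  have m3 := hker hcq _ _ b3
  by_contra hcon
  push Not at hcon
  have n1 := hcon 1 one_ne_zero
  have n2 := hcon Complex.I Complex.I_ne_zero
  have n3 := hcon (1 + Complex.I) fun h => by simpa using congrArg Complex.re h
  grind

/-- Both points are moved to the origin, and a bump marks the origin. -/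
lemma exists_moved (bp bq : Bool) {p q : ℂ} {r r₁ : ℝ} (hr : 0 < r) (hr₁ : r < r₁)
    (hp : p ∈ ball (0 : ℂ) r) (hq : q ∈ ball (0 : ℂ) r) :
    ∃ (W : ℂ → ℂ) (s : ℂ → ℝ), ContDiff ℝ ∞ W ∧ ContDiff ℝ ∞ s ∧ s 0 = 1 ∧
      (∀ x : ℂ, x ≠ 0 → W x ≠ 0) ∧ (∀ x, s x ≠ 0 → W x = kind bp x * kind bq x) ∧
      ∀ x : ℂ, r₁ < ‖x‖ → s x = 0 ∧ W x = kind bp (x - p) * kind bq (x - q) := by
  obtain ⟨χ⟩ : Nonempty {χ : ContDiffBump (0 : ℂ) // χ.rIn = r ∧ χ.rOut = r₁} :=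
    ⟨⟨⟨r, r₁, hr, hr₁⟩, rfl, rfl⟩⟩
  obtain ⟨χ, hχin, hχout⟩ := χ
  obtain ⟨ψ⟩ : Nonempty {χ : ContDiffBump (0 : ℂ) // χ.rIn = r / 2 ∧ χ.rOut = r} :=
    ⟨⟨⟨r / 2, r, by linarith, by linarith⟩, rfl, rfl⟩⟩
  obtain ⟨ψ, hψin, hψout⟩ := ψ
  obtain ⟨σ, hσ⟩ : ∃ σ : ℂ → ℝ, ∀ x, σ x = 1 - χ x := ⟨_, fun _ => rfl⟩
  obtain ⟨s, hs⟩ : ∃ s : ℂ → ℝ, ∀ x, s x = ψ x := ⟨_, fun _ => rfl⟩
  have hσs : ContDiff ℝ ∞ σ := by
    rw [funext hσ]; exact contDiff_const.sub (χ.contDiff (n := ⊤))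
  have hss : ContDiff ℝ ∞ s := by rw [funext hs]; exact ψ.contDiff (n := ⊤)
  have hσ0 : ∀ x : ℂ, ‖x‖ ≤ r → σ x = 0 := fun x hx => by
    rw [hσ, χ.one_of_mem_closedBall (by rw [hχin]; exact mem_closedBall_zero_iff.2 hx), sub_self]
  have hsσ : ∀ x, s x ≠ 0 → σ x = 0 := fun x hx => hσ0 x (by
    by_contra h
    exact hx (by rw [hs]; exact ψ.zero_of_le_dist (by rw [dist_zero_right, hψout]; linarith)))
  have hs0 : s 0 = 1 := by
    rw [hs]; exact ψ.one_of_mem_closedBall (mem_closedBall_self (by rw [hψin]; linarith))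
  obtain ⟨W, hW⟩ : ∃ W : ℂ → ℂ,
      ∀ x, W x = kind bp (x - σ x • p) * kind bq (x - σ x • q) := ⟨_, fun _ => rfl⟩
  have hW0 : ∀ x : ℂ, x ≠ 0 → W x ≠ 0 := by
    intro x hx
    have key : ∀ c : ℂ, ‖c‖ ≤ r → x - σ x • c ≠ 0 := by
      intro c hc h
      rw [sub_eq_zero] at h
      have hσb : 0 ≤ σ x ∧ σ x ≤ 1 := by
        rw [hσ]; constructor <;> linarith [χ.nonneg (x := x), χ.le_one (x := x)]
      have : ‖x‖ ≤ r := by
        rw [h, norm_smul, Real.norm_eq_abs, abs_of_nonneg hσb.1]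
        nlinarith [norm_nonneg c]
      rw [hσ0 x this, zero_smul] at h
      exact hx h
    rw [hW]
    exact mul_ne_zero (kind_ne (key p (mem_ball_zero_iff.1 hp).le))
      (kind_ne (key q (mem_ball_zero_iff.1 hq).le))
  have hWσ : ∀ x, σ x = 0 → W x = kind bp x * kind bq x := fun x h => by simp [hW, h]
  have hWs : ContDiff ℝ ∞ W := by
    rw [funext hW]
    exact ((kind bp).contDiff.comp (contDiff_id.sub (hσs.smul contDiff_const))).mul
      ((kind bq).contDiff.comp (contDiff_id.sub (hσs.smul contDiff_const)))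
  refine ⟨W, s, hWs, hss, hs0, hW0, fun x hx => hWσ x (hsσ x hx), fun y hy' => ?_⟩
  have hσ1 : σ y = 1 := by
    rw [hσ, χ.zero_of_le_dist (by rw [hχout, dist_zero_right]; exact hy'.le), sub_zero]
  refine ⟨by by_contra h; simp [hsσ y h] at hσ1, ?_⟩
  rw [hW, hσ1, one_smul, one_smul]

/-- The tilted pair spans a plane. -/
lemma frame_indep {a u v : V3} {E P Q : ℂ} {P₀ Q₀ β : ℝ} (ha : a ≠ 0) (hu : u ≠ 0) (hvne : v ≠ 0)
    (hua : u ⬝ᵥ a = 0) (hv : v = a ⨯₃ u) (hE : E ≠ 0)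
    (hind : ∀ m t : ℝ, m * P₀ + t * Q₀ = 0 → m • P + t • Q = 0 → m = 0 ∧ t = 0) :
    (Q₀ • a + (E * Q).re • u + (E * Q).im • v
        + β • (P₀ • a + (E * P).re • u + (E * P).im • v))
      ⨯₃ (P₀ • a + (E * P).re • u + (E * P).im • v) ≠ 0 := by
  refine cross_ne_of_indep fun m t h0 => ?_
  have hau : a ⬝ᵥ u = 0 := by rw [dotProduct_comm]; exact hua
  have hav : a ⬝ᵥ v = 0 := by rw [hv]; exact dot_self_cross _ _
  have huv : u ⬝ᵥ v = 0 := by rw [hv]; exact dot_cross_self _ _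
  have hva : v ⬝ᵥ a = 0 := by rw [dotProduct_comm]; exact hav
  have hvu : v ⬝ᵥ u = 0 := by rw [dotProduct_comm]; exact huv
  have pa := (dot_pos_of_ne ha).ne'
  have pu := (dot_pos_of_ne hu).ne'
  have pv := (dot_pos_of_ne hvne).ne'
  have e0 := congrArg (fun w => w ⬝ᵥ a) h0
  have e1 := congrArg (fun w => w ⬝ᵥ u) h0
  have e2 := congrArg (fun w => w ⬝ᵥ v) h0
  simp only [add_dotProduct, smul_dotProduct, zero_dotProduct, smul_eq_mul, hua, hau, hav, huv,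
    hva, hvu, mul_zero, zero_add, add_zero] at e0 e1 e2
  have f0 : (t + m * β) * P₀ + m * Q₀ = 0 :=
    mul_right_cancel₀ pa (by linear_combination e0)
  have f1 : (t + m * β) * (E * P).re + m * (E * Q).re = 0 :=
    mul_right_cancel₀ pu (by linear_combination e1)
  have f2 : (t + m * β) * (E * P).im + m * (E * Q).im = 0 :=
    mul_right_cancel₀ pv (by linear_combination e2)
  have f : E * ((t + m * β) • P + m • Q) = 0 := by
    rw [mul_add, mul_smul_comm, mul_smul_comm]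
    apply Complex.ext
    · simp only [Complex.add_re, Complex.smul_re, Complex.zero_re, smul_eq_mul]; exact f1
    · simp only [Complex.add_im, Complex.smul_im, Complex.zero_im, smul_eq_mul]; exact f2
  obtain ⟨g1, g2⟩ := hind _ _ f0 ((mul_eq_zero.1 f).resolve_left hE)
  subst g2
  simpa using g1

/-- Two cross caps in a disc cancel. -/
theorem disc_extension {φ : ℂ → V3} {R r : ℝ} (hrR : r < R)
    (hφ : ContDiffOn ℝ ∞ φ (ball 0 R)) {p q : ℂ} (hp : p ∈ ball (0 : ℂ) r)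
    (hq : q ∈ ball (0 : ℂ) r) (hpq : p ≠ q) (hcp : CrossCap φ p) (hcq : CrossCap φ q)
    (himm : ∀ x ∈ ball (0 : ℂ) R, x ≠ p → x ≠ q → Function.Injective (fderiv ℝ φ x)) :
    ∃ (φ' : ℂ → V3) (C : Set ℂ), IsCompact C ∧ C ⊆ ball 0 R ∧ (∀ x, x ∉ C → φ' x = φ x) ∧
      ContDiffOn ℝ ∞ φ' (ball 0 R) ∧
      ∀ x ∈ ball (0 : ℂ) R, Function.Injective (fderiv ℝ φ' x) := by
  have hr : 0 < r := (norm_nonneg p).trans_lt (mem_ball_zero_iff.1 hp)
  obtain ⟨r₁, hr₁, hr₁R⟩ := exists_between hrR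
  obtain ⟨r₂, hr₂, hr₂R⟩ := exists_between hr₁R
  obtain ⟨r₃, hr₃, hr₃R⟩ := exists_between hr₂R
  have s₃ : ball (0 : ℂ) r₃ ⊆ ball 0 R := ball_subset_ball hr₃R.le
  have s₂ : ball (0 : ℂ) r₂ ⊆ ball 0 r₃ := ball_subset_ball hr₃.le
  have hpR : p ∈ ball (0 : ℂ) R := ball_subset_ball hrR.le hp
  have hqR : q ∈ ball (0 : ℂ) R := ball_subset_ball hrR.le hq
  have hp3 : p ∈ ball (0 : ℂ) r₃ := ball_subset_ball (by linarith) hp
  have hq3 : q ∈ ball (0 : ℂ) r₃ := ball_subset_ball (by linarith) hq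
  obtain ⟨e, he0, hep, heq⟩ := exists_direction hcp hcq
  obtain ⟨e', he'⟩ : ∃ e', e' = Complex.I * e := ⟨_, rfl⟩
  obtain ⟨ℓ, hℓ⟩ : ∃ ℓ : ℂ →L[ℝ] ℝ, ∀ x, ℓ x = (x * e⁻¹).re :=
    ⟨Complex.reCLM.comp ((ContinuousLinearMap.mul ℝ ℂ).flip e⁻¹), fun _ => rfl⟩
  obtain ⟨ℓ', hℓ'⟩ : ∃ ℓ : ℂ →L[ℝ] ℝ, ∀ x, ℓ x = (x * e⁻¹).im :=
    ⟨Complex.imCLM.comp ((ContinuousLinearMap.mul ℝ ℂ).flip e⁻¹), fun _ => rfl⟩
  have he'e : e' * e⁻¹ = Complex.I := by rw [he', mul_assoc, mul_inv_cancel₀ he0, mul_one]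
  have dual : ℓ e = 1 ∧ ℓ e' = 0 ∧ ℓ' e' = 1 ∧ ℓ' e = 0 := by
    simp [hℓ, hℓ', he'e, mul_inv_cancel₀ he0]
  have hspan : ∀ l : ℂ, ∃ c₁ c₂ : ℝ, l = c₁ • e + c₂ • e' := fun l => ⟨ℓ l, ℓ' l, by
    rw [hℓ, hℓ', he', Complex.real_smul, Complex.real_smul, ← mul_assoc, ← add_mul,
      Complex.re_add_im, mul_assoc, inv_mul_cancel₀ he0, mul_one]⟩
  -- the frame
  obtain ⟨a, ha⟩ : ∃ a : ℂ → V3, ∀ x, a x = fderiv ℝ φ x e := ⟨_, fun _ => rfl⟩
  obtain ⟨B, hB⟩ : ∃ B : ℂ → V3, ∀ x, B x = fderiv ℝ φ x e' := ⟨_, fun _ => rfl⟩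
  have has : ContDiffOn ℝ ∞ a (ball 0 R) :=
    ((hφ.fderiv_of_isOpen isOpen_ball le_rfl).clm_apply contDiffOn_const).congr fun x _ => ha x
  have hBs : ContDiffOn ℝ ∞ B (ball 0 R) :=
    ((hφ.fderiv_of_isOpen isOpen_ball le_rfl).clm_apply contDiffOn_const).congr fun x _ => hB x
  have hane : ∀ x ∈ ball (0 : ℂ) R, a x ≠ 0 := by
    intro x hx
    rw [ha]
    rcases eq_or_ne x p with rfl | h1
    · exact hep
    rcases eq_or_ne x q with rfl | h2
    · exact heq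
    exact fun h => he0 (himm x hx h1 h2 (h.trans (map_zero _).symm))
  obtain ⟨u, hus, hu⟩ := exists_orth (by linarith : (0 : ℝ) < r₃) hr₃R has hane
  obtain ⟨v, hv⟩ : ∃ v : ℂ → V3, ∀ x, v x = a x ⨯₃ u x := ⟨_, fun _ => rfl⟩
  have hvs : ContDiffOn ℝ ∞ v (ball 0 r₃) :=
    (contDiffOn_cross (has.mono s₃) hus).congr fun x _ => hv x
  have hvne : ∀ x ∈ ball (0 : ℂ) r₃, v x ≠ 0 := by
    intro x hx h0
    have h1 : v x ⬝ᵥ v x = (a x ⬝ᵥ a x) * (u x ⬝ᵥ u x) := by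
      rw [hv, cross_dot_cross, (hu x hx).2, mul_zero, sub_zero]
    rw [h0, dotProduct_zero] at h1
    exact (mul_pos (dot_pos_of_ne (hane x (s₃ hx))) (dot_pos_of_ne (hu x hx).1)).ne h1
  obtain ⟨z, hz⟩ : ∃ z : ℂ → ℂ, ∀ x, z x = ((B x ⬝ᵥ ((u x ⬝ᵥ u x)⁻¹ • u x) : ℝ) : ℂ)
      + ((B x ⬝ᵥ ((v x ⬝ᵥ v x)⁻¹ • v x) : ℝ) : ℂ) * Complex.I := ⟨_, fun _ => rfl⟩
  have hcoord : ∀ x ∈ ball (0 : ℂ) r₃,
      B x = ((B x ⬝ᵥ a x) / (a x ⬝ᵥ a x)) • a x + (z x).re • u x + (z x).im • v x := by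
    intro x hx
    have hre : (z x).re = (B x ⬝ᵥ u x) / (u x ⬝ᵥ u x) := by simp [hz, inv_mul_eq_div]
    have him : (z x).im = (B x ⬝ᵥ v x) / (v x ⬝ᵥ v x) := by simp [hz, inv_mul_eq_div]
    obtain ⟨hu0, hua⟩ := hu x hx
    have hau : a x ⬝ᵥ u x = 0 := by rw [dotProduct_comm]; exact hua
    have hav : a x ⬝ᵥ v x = 0 := by rw [hv]; exact dot_self_cross _ _
    have huv : u x ⬝ᵥ v x = 0 := by rw [hv]; exact dot_cross_self _ _
    have hva : v x ⬝ᵥ a x = 0 := by rw [dotProduct_comm]; exact hav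
    have hvu : v x ⬝ᵥ u x = 0 := by rw [dotProduct_comm]; exact huv
    rw [hre, him, eq_comm, ← sub_eq_zero]
    refine frame_eq_zero (hane x (s₃ hx)) hu0 hua ?_ ?_ ?_ <;>
      simp [sub_dotProduct, add_dotProduct, ← hv, hua, hau, hav, huv, hva, hvu,
        (dot_pos_of_ne (hane x (s₃ hx))).ne', (dot_pos_of_ne hu0).ne',
        (dot_pos_of_ne (hvne x hx)).ne']
  have hzs : ContDiffOn ℝ ∞ z (ball 0 r₃) := by
    have hd : ∀ {w : ℂ → V3}, ContDiffOn ℝ ∞ w (ball 0 r₃) →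
        (∀ x ∈ ball (0 : ℂ) r₃, w x ≠ 0) →
        ContDiffOn ℝ ∞ (fun x => (((B x ⬝ᵥ ((w x ⬝ᵥ w x)⁻¹ • w x) : ℝ)) : ℂ)) (ball 0 r₃) :=
      fun hw hwne => Complex.ofRealCLM.contDiff.comp_contDiffOn (contDiffOn_dot (hBs.mono s₃)
        (((contDiffOn_dot hw hw).inv fun x hx => (dot_pos_of_ne (hwne x hx)).ne').smul hw))
    exact ((hd hus fun x hx => (hu x hx).1).add
      ((hd hvs hvne).mul contDiffOn_const)).congr fun x _ => hz x
  have hznz : ∀ x ∈ ball (0 : ℂ) r₃, x ≠ p → x ≠ q → z x ≠ 0 := by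
    intro x hx h1 h2 h0
    have hc := hcoord x hx
    rw [h0] at hc
    simp only [Complex.zero_re, Complex.zero_im, zero_smul, add_zero] at hc
    have hk : fderiv ℝ φ x (e' - ((B x ⬝ᵥ a x) / (a x ⬝ᵥ a x)) • e) = 0 := by
      rw [map_sub, map_smul, ← ha, ← hB, ← hc, sub_self]
    have := himm x (s₃ hx) h1 h2 (hk.trans (map_zero _).symm)
    have h3 := congrArg ℓ' this
    rw [map_sub, map_smul, dual.2.2.1, dual.2.2.2, smul_zero, sub_zero, map_zero] at h3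
    exact one_ne_zero h3
  have hcc : ∀ {x : ℂ}, x ∈ ball (0 : ℂ) r₃ → CrossCap φ x →
      z x = 0 ∧ ∃ L : ℂ →L[ℝ] ℂ, HasFDerivAt z L x ∧ Function.Injective L :=
    fun hx hc => crossCap_coord isOpen_ball (hφ.mono s₃) hspan (fun x _ => ha x) hus
      (fun x hx => ⟨hane x (s₃ hx), hu x hx⟩) hx hc fun y _ => by rw [hz, hB, hv]
  obtain ⟨hzp, Lp, hLp, hLpi⟩ := hcc hp3 hcp
  obtain ⟨hzq, Lq, hLq, hLqi⟩ := hcc hq3 hcq
  obtain ⟨bp, bq, E, hEs, hEne, hEz⟩ :=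
    exists_factor hr₁ hr₂ hr₃ hzs hp hq hpq hznz hzp hzq hLp hLpi hLq hLqi
  obtain ⟨W, s, hWs, hss, hs0, hW0, hWσ, hWout⟩ := exists_moved bp bq hr hr₁ hp hq
  obtain ⟨P₀, P, Q₀, Q, hP₀s, hPs, hQ₀s, hQs, hzero, hind⟩ :=
    exists_pairs bp bq hWs hss hs0 hW0 hWσ
  -- the formal monomorphism
  obtain ⟨A₁, hA₁⟩ : ∃ A : ℂ → V3, ∀ x,
      A x = P₀ x • a x + (E x * P x).re • u x + (E x * P x).im • v x := ⟨_, fun _ => rfl⟩
  obtain ⟨A₂, hA₂⟩ : ∃ A : ℂ → V3, ∀ x,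
      A x = Q₀ x • a x + (E x * Q x).re • u x + (E x * Q x).im • v x
        + ((B x ⬝ᵥ a x) / (a x ⬝ᵥ a x)) • A₁ x := ⟨_, fun _ => rfl⟩
  have has2 := has.mono (s₂.trans s₃)
  have hus2 := hus.mono s₂
  have hvs2 := hvs.mono s₂
  have hΦ : ∀ {c₀ : ℂ → ℝ} {c : ℂ → ℂ}, ContDiff ℝ ∞ c₀ → ContDiff ℝ ∞ c →
      ContDiffOn ℝ ∞ (fun x => c₀ x • a x + (E x * c x).re • u x + (E x * c x).im • v x)
        (ball 0 r₂) := fun h0 h =>
    ((h0.contDiffOn.smul has2).add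
      ((Complex.reCLM.contDiff.comp (hEs.mul h)).contDiffOn.smul hus2)).add
      ((Complex.imCLM.contDiff.comp (hEs.mul h)).contDiffOn.smul hvs2)
  have hA₁s : ContDiffOn ℝ ∞ A₁ (ball 0 r₂) := (hΦ hP₀s hPs).congr fun x _ => hA₁ x
  have hA₂s : ContDiffOn ℝ ∞ A₂ (ball 0 r₂) :=
    ((hΦ hQ₀s hQs).add ((((contDiffOn_dot (hBs.mono (s₂.trans s₃)) has2).mul
      ((contDiffOn_dot has2 has2).inv fun x hx =>
        (dot_pos_of_ne (hane x (s₃ (s₂ hx)))).ne')).smul hA₁s))).congr fun x _ => by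
          rw [hA₂, div_eq_mul_inv]; rfl
  have hindep : ∀ x ∈ ball (0 : ℂ) r₂, A₂ x ⨯₃ A₁ x ≠ 0 := by
    intro x hx
    rw [hA₂, hA₁]
    exact frame_indep (hane x (s₃ (s₂ hx))) (hu x (s₂ hx)).1 (hvne x (s₂ hx)) (hu x (s₂ hx)).2
      (hv x) (hEne x) (hind x)
  have hout : ∀ y ∈ ball (0 : ℂ) r₂, y ∉ closedBall (0 : ℂ) r₁ →
      fderiv ℝ φ y e = A₁ y ∧ fderiv ℝ φ y e' = A₂ y := by
    intro y hy hy1
    have hy' : r₁ < ‖y‖ := by simpa [mem_closedBall_zero_iff] using hy1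
    have hy0 : y ≠ 0 := fun h => by simp [h] at hy'; linarith
    obtain ⟨hsy, hWy⟩ := hWout y hy'
    obtain ⟨q1, q2, q3, q4⟩ := hzero y hy0 hsy
    have hA : A₁ y = a y := by simp [hA₁, q1, q2]
    refine ⟨by rw [hA, ha], ?_⟩
    rw [← hB, hA₂, hA, q3, q4]
    have hEW : E y * W y = z y := by rw [hWy, hEz y hy hy1]
    rw [hEW, zero_smul, zero_add]
    conv_lhs => rw [hcoord y (s₂ hy)]
    abel
  obtain ⟨φ', C', hC', hC'sub, hφ's, hφ'eq, hφ'imm⟩ :=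
    immersion_of_formal isOpen_ball (isCompact_closedBall (0 : ℂ) r₁)
      (closedBall_subset_ball hr₂) (hφ.mono (s₂.trans s₃)) hA₁s hA₂s hindep ℓ ℓ'
      dual.1 dual.2.1 dual.2.2.1 dual.2.2.2 hout
  have hnb : ∀ x ∉ C', φ' =ᶠ[𝓝 x] φ := fun x hx =>
    Filter.eventually_of_mem (hC'.isClosed.isOpen_compl.mem_nhds hx) hφ'eq
  refine ⟨φ', C', hC', hC'sub.trans (s₂.trans s₃), hφ'eq, fun x hx => ?_, fun x hx => ?_⟩
  · by_cases h2 : x ∈ ball (0 : ℂ) r₂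
    · exact (hφ's.contDiffAt (isOpen_ball.mem_nhds h2)).contDiffWithinAt
    · exact ((hφ.contDiffAt (isOpen_ball.mem_nhds hx)).congr_of_eventuallyEq
        (hnb x fun h => h2 (hC'sub h))).contDiffWithinAt
  · by_cases h2 : x ∈ ball (0 : ℂ) r₂
    · refine (injective_iff_map_eq_zero _).2 fun l hl => ?_
      obtain ⟨c₁, c₂, rfl⟩ := hspan l
      rw [map_add, map_smul, map_smul] at hl
      generalize hd₁ : fderiv ℝ φ' x e = d₁ at hl
      generalize hd₂ : fderiv ℝ φ' x e' = d₂ at hl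
      have hne : d₁ ⨯₃ d₂ ≠ 0 := hd₁ ▸ hd₂ ▸ hφ'imm x h2
      obtain ⟨hc₁, hc₂⟩ := coeff_eq_zero hne hl
      rw [hc₁, hc₂, zero_smul, zero_smul, add_zero]
    · rw [(hnb x fun h => h2 (hC'sub h)).fderiv_eq]
      have h2' : r₂ ≤ ‖x‖ := by simpa [mem_ball_zero_iff] using h2
      refine himm x hx (fun h => ?_) (fun h => ?_) <;> rw [h] at h2' <;>
        linarith [mem_ball_zero_iff.1 hp, mem_ball_zero_iff.1 hq]

end

end Vale.Agent.P205.Full.Topo
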