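import Mathlib
import Vale.Agent.P205.Full.Topology.Disc

/-!
# P205: moving a cross cap and cancelling it against another one

`Good φ S`: a smooth map of the surface, an immersion off `S`, with cross caps on `S`. A map
can be changed inside a chart; a push in a small disc moves a cross cap, so a cross cap can be
brought into a disc around any other one of its component, where the two cancel.
-/

namespace Vale.Agent.P205.Full.Topo

open Set Filter Metric
open scoped ContDiff Manifold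
open _root_.Topology

noncomputable section

lemma CrossCap.congr {X : Type*} [NormedAddCommGroup X] [NormedSpace ℝ X] {f g : X → V3} {x : X}
    (h : CrossCap f x) (hfg : g =ᶠ[𝓝 x] f) : CrossCap g x := by
  obtain ⟨k, hk, h0, hs⟩ := h
  refine ⟨k, hk, by rw [hfg.fderiv_eq, h0], ?_⟩
  have : (fun z => fderiv ℝ g z k) =ᶠ[𝓝 x] fun z => fderiv ℝ f z k :=
    (hfg.fderiv (𝕜 := ℝ)).mono fun z hz => by simp only [hz]
  rw [this.fderiv_eq, hfg.fderiv_eq]
  exact hs

/-- A cross cap is preserved by a change of variable with invertible derivative. -/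
lemma CrossCap.comp {X Y : Type*} [NormedAddCommGroup X] [NormedSpace ℝ X] [NormedAddCommGroup Y]
    [NormedSpace ℝ Y] {ψ : Y → V3} {τ : X → Y} {x : X} (hψ : ContDiffAt ℝ ∞ ψ (τ x))
    (hτ : ContDiffAt ℝ ∞ τ x) (hbij : Function.Bijective (fderiv ℝ τ x))
    (h : CrossCap ψ (τ x)) : CrossCap (ψ ∘ τ) x := by
  obtain ⟨k, hk, h0, hs⟩ := h
  obtain ⟨k', hk'⟩ := hbij.2 k
  have dψ := hψ.differentiableAt (by simp)
  have dτ := hτ.differentiableAt (by simp)
  refine ⟨k', fun e => hk (by rw [← hk', e, map_zero]), ?_, ?_⟩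
  · rw [fderiv_comp x dψ dτ, ContinuousLinearMap.comp_apply, hk', h0]
  have hev : (fun z => fderiv ℝ (ψ ∘ τ) z k') =ᶠ[𝓝 x]
      fun z => fderiv ℝ ψ (τ z) (fderiv ℝ τ z k') := by
    filter_upwards [hτ.continuousAt.eventually
      ((hψ.of_le (by simp : (1 : ℕ∞ω) ≤ ∞)).eventually (by simp)),
      (hτ.of_le (by simp : (1 : ℕ∞ω) ≤ ∞)).eventually (by simp)] with z h1 h2
    rw [fderiv_comp z (h1.differentiableAt (by simp)) (h2.differentiableAt (by simp)),
      ContinuousLinearMap.comp_apply]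
  have d2 : DifferentiableAt ℝ (fderiv ℝ ψ) (τ x) :=
    (hψ.fderiv_right (m := ∞) le_rfl).differentiableAt (by simp)
  have dc : DifferentiableAt ℝ (fun z => fderiv ℝ ψ (τ z)) x := d2.comp x dτ
  have du : DifferentiableAt ℝ (fun z => fderiv ℝ τ z k') x :=
    ((hτ.fderiv_right (m := ∞) le_rfl).differentiableAt (by simp)).clm_apply
      (differentiableAt_const _)
  have hder : ∀ v, fderiv ℝ (fun z => fderiv ℝ (ψ ∘ τ) z k') x v
      = fderiv ℝ ψ (τ x) (fderiv ℝ (fun z => fderiv ℝ τ z k') x v)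
        + fderiv ℝ (fun y => fderiv ℝ ψ y k) (τ x) (fderiv ℝ τ x v) := by
    intro v
    rw [hev.fderiv_eq, fderiv_clm_apply dc du, show (fun z => fderiv ℝ ψ (τ z))
      = fderiv ℝ ψ ∘ τ from rfl, fderiv_comp x d2 dτ,
      fderiv_clm_apply d2 (differentiableAt_const k)]
    simp [hk']
  intro w
  obtain ⟨⟨h₁, l₁⟩, hw⟩ := hs w
  obtain ⟨h', hh'⟩ := hbij.2 h₁
  obtain ⟨l', hl'⟩ := hbij.2 (l₁ - fderiv ℝ (fun z => fderiv ℝ τ z k') x h')
  refine ⟨(h', l'), ?_⟩
  simp only at hw ⊢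
  rw [← hw, hder, hh', fderiv_comp x dψ dτ, ContinuousLinearMap.comp_apply, hl', map_sub]
  abel

variable {M : Type*} [TopologicalSpace M] [ChartedSpace E2 M] [IsManifold (𝓡 2) ∞ M]

/-- A cross cap, read in some chart. -/
def CC (φ : M → V3) (x : M) : Prop :=
  ∃ x₀ : M, x ∈ (extChartAt (𝓡 2) x₀).source ∧
    CrossCap (φ ∘ (extChartAt (𝓡 2) x₀).symm) (extChartAt (𝓡 2) x₀ x)

/-- An immersion off `S` with cross caps on `S`. -/
def Good (φ : M → V3) (S : Set M) : Prop :=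
  ContMDiff (𝓡 2) 𝓘(ℝ, V3) ∞ φ ∧
    (∀ x, x ∉ S → Function.Injective (mfderiv (𝓡 2) 𝓘(ℝ, V3) φ x)) ∧ ∀ x ∈ S, CC φ x

lemma contDiffOn_read {φ : M → V3} (hφ : ContMDiff (𝓡 2) 𝓘(ℝ, V3) ∞ φ) (x₀ : M) :
    ContDiffOn ℝ ∞ (φ ∘ (extChartAt (𝓡 2) x₀).symm) (extChartAt (𝓡 2) x₀).target :=
  (hφ.comp_contMDiffOn (contMDiffOn_extChartAt_symm x₀)).contDiffOn

lemma bijective_chartDeriv {x₀ : M} {y : E2} (hy : y ∈ (extChartAt (𝓡 2) x₀).target) :
    Function.Bijective (chartDeriv x₀ y) := by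
  have h : (mfderivWithin 𝓘(ℝ, E2) (𝓡 2) (extChartAt (𝓡 2) x₀).symm
      (Set.range (𝓡 2)) y).IsInvertible :=
    isInvertible_mfderivWithin_extChartAt_symm hy
  rw [ModelWithCorners.range_eq_univ, mfderivWithin_univ] at h
  exact h.bijective

/-- An immersion, read in a chart. -/
lemma injective_read {φ : M → V3} (hφ : ContMDiff (𝓡 2) 𝓘(ℝ, V3) ∞ φ) {x₀ : M} {y : E2}
    (hy : y ∈ (extChartAt (𝓡 2) x₀).target) :
    Function.Injective (fderiv ℝ (φ ∘ (extChartAt (𝓡 2) x₀).symm) y) ↔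
      Function.Injective (mfderiv (𝓡 2) 𝓘(ℝ, V3) φ ((extChartAt (𝓡 2) x₀).symm y)) := by
  have hs : MDifferentiableAt 𝓘(ℝ, E2) (𝓡 2) (extChartAt (𝓡 2) x₀).symm y :=
    ((contMDiffOn_extChartAt_symm (n := ∞) x₀).contMDiffAt
      ((isOpen_extChartAt_target x₀).mem_nhds hy)).mdifferentiableAt (by simp)
  rw [← mfderiv_eq_fderiv, mfderiv_comp y (hφ.mdifferentiableAt (by simp)) hs]
  have hb := bijective_chartDeriv hy
  change Function.Injective (mfderiv (𝓡 2) 𝓘(ℝ, V3) φ ((extChartAt (𝓡 2) x₀).symm y)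
    ∘ chartDeriv x₀ y) ↔ _
  exact ⟨fun h => fun a b hab => by
    obtain ⟨a', rfl⟩ := hb.2 a
    obtain ⟨b', rfl⟩ := hb.2 b
    rw [h hab], fun h => h.comp hb.1⟩

omit [IsManifold (𝓡 2) ∞ M] in
lemma CC.congr {φ φ' : M → V3} {x : M} (h : CC φ x) (he : φ' =ᶠ[𝓝 x] φ) : CC φ' x := by
  obtain ⟨x₀, hx, hc⟩ := h
  refine ⟨x₀, hx, hc.congr ?_⟩
  have ht := (extChartAt (𝓡 2) x₀).map_source hx
  have hcont := (continuousOn_extChartAt_symm (I := 𝓡 2) x₀).continuousAt
    ((isOpen_extChartAt_target x₀).mem_nhds ht)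
  rw [← (extChartAt (𝓡 2) x₀).left_inv hx] at he
  exact hcont.preimage_mem_nhds he

/-- A cross cap in one chart is one in every chart. -/
lemma CC.chart {φ : M → V3} (hφ : ContMDiff (𝓡 2) 𝓘(ℝ, V3) ∞ φ) {x : M} (h : CC φ x) {x₀ : M}
    (hx₀ : x ∈ (extChartAt (𝓡 2) x₀).source) :
    CrossCap (φ ∘ (extChartAt (𝓡 2) x₀).symm) (extChartAt (𝓡 2) x₀ x) := by
  obtain ⟨x₁, hx₁, hc⟩ := h
  have ht := (extChartAt (𝓡 2) x₀).map_source hx₀
  have ht₁ := (extChartAt (𝓡 2) x₁).map_source hx₁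
  have hsym : ∀ (a b : M), x ∈ (extChartAt (𝓡 2) a).source → x ∈ (extChartAt (𝓡 2) b).source →
      ∀ᶠ y in 𝓝 (extChartAt (𝓡 2) a x),
        y ∈ (extChartAt (𝓡 2) a).target ∧
          (extChartAt (𝓡 2) a).symm y ∈ (extChartAt (𝓡 2) b).source := by
    intro a b ha hb
    have hta := (isOpen_extChartAt_target a).mem_nhds ((extChartAt (𝓡 2) a).map_source ha)
    refine Filter.Eventually.and hta ?_
    refine ((continuousOn_extChartAt_symm (I := 𝓡 2) a).continuousAt hta).preimage_mem_nhds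
      ((isOpen_extChartAt_source b).mem_nhds ?_)
    rwa [(extChartAt (𝓡 2) a).left_inv ha]
  obtain ⟨τ, hτ⟩ : ∃ τ : E2 → E2,
      ∀ y, τ y = extChartAt (𝓡 2) x₁ ((extChartAt (𝓡 2) x₀).symm y) := ⟨_, fun _ => rfl⟩
  obtain ⟨τ', hτ'⟩ : ∃ τ : E2 → E2,
      ∀ y, τ y = extChartAt (𝓡 2) x₀ ((extChartAt (𝓡 2) x₁).symm y) := ⟨_, fun _ => rfl⟩
  have hsm : ∀ (a b : M), x ∈ (extChartAt (𝓡 2) a).source → x ∈ (extChartAt (𝓡 2) b).source →
      ContDiffAt ℝ ∞ (fun y => extChartAt (𝓡 2) b ((extChartAt (𝓡 2) a).symm y))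
        (extChartAt (𝓡 2) a x) := by
    intro a b ha hb
    have h1 : ContMDiffAt 𝓘(ℝ, E2) (𝓡 2) ∞ (extChartAt (𝓡 2) a).symm (extChartAt (𝓡 2) a x) :=
      (contMDiffOn_extChartAt_symm a).contMDiffAt
        ((isOpen_extChartAt_target a).mem_nhds ((extChartAt (𝓡 2) a).map_source ha))
    have h2 : ContMDiffAt (𝓡 2) 𝓘(ℝ, E2) ∞ (extChartAt (𝓡 2) b)
        ((extChartAt (𝓡 2) a).symm (extChartAt (𝓡 2) a x)) := by
      rw [(extChartAt (𝓡 2) a).left_inv ha]
      exact contMDiffAt_extChartAt' (by rwa [← extChartAt_source (I := 𝓡 2)])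
    exact (h2.comp _ h1).contDiffAt
  have hτx : τ (extChartAt (𝓡 2) x₀ x) = extChartAt (𝓡 2) x₁ x := by
    rw [hτ, (extChartAt (𝓡 2) x₀).left_inv hx₀]
  have hτs : ContDiffAt ℝ ∞ τ (extChartAt (𝓡 2) x₀ x) := by
    rw [funext hτ]; exact hsm x₀ x₁ hx₀ hx₁
  have hτs' : ContDiffAt ℝ ∞ τ' (τ (extChartAt (𝓡 2) x₀ x)) := by
    rw [hτx, funext hτ']; exact hsm x₁ x₀ hx₁ hx₀
  have hid : τ' ∘ τ =ᶠ[𝓝 (extChartAt (𝓡 2) x₀ x)] id := by
    filter_upwards [hsym x₀ x₁ hx₀ hx₁] with y hy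
    rw [Function.comp_apply, hτ', hτ, (extChartAt (𝓡 2) x₁).left_inv hy.2,
      (extChartAt (𝓡 2) x₀).right_inv hy.1, id]
  have hinj : Function.Injective (fderiv ℝ τ (extChartAt (𝓡 2) x₀ x)) := by
    intro a b hab
    have := hid.fderiv_eq (𝕜 := ℝ)
    rw [fderiv_comp _ (hτs'.differentiableAt (by simp)) (hτs.differentiableAt (by simp)),
      fderiv_id] at this
    have ea := congrArg (fun L : E2 →L[ℝ] E2 => L a) this
    have eb := congrArg (fun L : E2 →L[ℝ] E2 => L b) this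
    simp only [ContinuousLinearMap.comp_apply, ContinuousLinearMap.id_apply] at ea eb
    rw [← ea, ← eb, hab]
  have hbij : Function.Bijective (fderiv ℝ τ (extChartAt (𝓡 2) x₀ x)) :=
    ⟨hinj, LinearMap.surjective_of_injective (f := (fderiv ℝ τ _).toLinearMap) hinj⟩
  rw [← hτx] at hc
  refine (hc.comp ?_ hτs hbij).congr ?_
  · rw [hτx]
    exact (contDiffOn_read hφ x₁).contDiffAt ((isOpen_extChartAt_target x₁).mem_nhds ht₁)
  · filter_upwards [hsym x₀ x₁ hx₀ hx₁] with y hy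
    rw [Function.comp_apply, Function.comp_apply, Function.comp_apply, hτ,
      (extChartAt (𝓡 2) x₁).left_inv hy.2]

variable [T2Space M]

/-- Change a map inside a chart. -/
theorem good_modify {φ : M → V3} {S S' : Set M} (hG : Good φ S) (x₀ : M) {C : Set E2}
    (hC : IsCompact C) (hCt : C ⊆ (extChartAt (𝓡 2) x₀).target) {f : E2 → V3}
    (hf : ContDiffOn ℝ ∞ f (extChartAt (𝓡 2) x₀).target)
    (heq : ∀ y ∈ (extChartAt (𝓡 2) x₀).target, y ∉ C →
      f y = φ ((extChartAt (𝓡 2) x₀).symm y))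
    (hSS : ∀ x ∉ (extChartAt (𝓡 2) x₀).symm '' C, (x ∈ S' ↔ x ∈ S))
    (hin : ∀ y ∈ C, ((extChartAt (𝓡 2) x₀).symm y ∈ S' → CrossCap f y) ∧
      ((extChartAt (𝓡 2) x₀).symm y ∉ S' → Function.Injective (fderiv ℝ f y))) :
    ∃ φ' : M → V3, Good φ' S' := by
  classical
  obtain ⟨e, he⟩ : ∃ e, e = extChartAt (𝓡 2) x₀ := ⟨_, rfl⟩
  rw [← he] at hCt hf heq hSS hin
  obtain ⟨K, hK⟩ : ∃ K, K = e.symm '' C := ⟨_, rfl⟩
  have hKc : IsClosed K := by
    rw [hK]
    exact (hC.image_of_continuousOn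
      ((he ▸ continuousOn_extChartAt_symm (I := 𝓡 2) x₀).mono hCt)).isClosed
  obtain ⟨φ', hφ'⟩ : ∃ φ' : M → V3, ∀ x, φ' x = if x ∈ K then f (e x) else φ x :=
    ⟨_, fun _ => rfl⟩
  have hKs : K ⊆ e.source := by
    rw [hK]; rintro _ ⟨y, hy, rfl⟩; exact e.map_target (hCt hy)
  have hout : ∀ x ∉ K, φ' =ᶠ[𝓝 x] φ := fun x hx => by
    filter_upwards [hKc.isOpen_compl.mem_nhds hx] with z hz
    rw [hφ', if_neg hz]
  have hsrc : ∀ x ∈ e.source, φ' x = f (e x) := by
    intro x hx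
    by_cases hxK : x ∈ K
    · rw [hφ', if_pos hxK]
    · rw [hφ', if_neg hxK, heq _ (e.map_source hx) (fun h => hxK (by
        rw [hK]; exact ⟨_, h, e.left_inv hx⟩)), e.left_inv hx]
  have hread : ∀ y ∈ e.target, φ' ∘ e.symm =ᶠ[𝓝 y] f := fun y hy => by
    filter_upwards [(he ▸ isOpen_extChartAt_target x₀ : IsOpen e.target).mem_nhds hy] with z hz
    rw [Function.comp_apply, hsrc _ (e.map_target hz), e.right_inv hz]
  have hsm : ContMDiff (𝓡 2) 𝓘(ℝ, V3) ∞ φ' := by
    intro x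
    by_cases hx : x ∈ K
    · have hxs := hKs hx
      have hs : e.source ∈ 𝓝 x :=
        (he ▸ isOpen_extChartAt_source (I := 𝓡 2) x₀ : IsOpen e.source).mem_nhds hxs
      refine ContMDiffAt.congr_of_eventuallyEq ?_ (Filter.eventually_of_mem hs hsrc)
      refine (hf.contDiffAt ((he ▸ isOpen_extChartAt_target x₀ : IsOpen e.target).mem_nhds
        (e.map_source hxs))).contMDiffAt.comp x ?_
      subst he
      exact contMDiffAt_extChartAt' (by rwa [← extChartAt_source (I := 𝓡 2)])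
    · exact (hG.1 x).congr_of_eventuallyEq (hout x hx)
  refine ⟨φ', hsm, fun x hx => ?_, fun x hx => ?_⟩
  · by_cases hxK : x ∈ K
    · obtain ⟨y, hy, rfl⟩ := hK ▸ hxK
      have h1 := (hin y hy).2 hx
      subst he
      rw [← (hread y (hCt hy)).fderiv_eq] at h1
      exact (injective_read hsm (hCt hy)).1 h1
    · rw [(hout x hxK).mfderiv_eq]
      exact hG.2.1 x fun h => hx ((hSS x (hK ▸ hxK)).2 h)
  · by_cases hxK : x ∈ K
    · obtain ⟨y, hy, rfl⟩ := hK ▸ hxK
      have h1 := (hin y hy).1 hx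
      refine ⟨x₀, by rw [← he]; exact e.map_target (hCt hy), ?_⟩
      rw [← he, e.right_inv (hCt hy)]
      exact h1.congr (hread y (hCt hy))
    · exact (hG.2.2 x ((hSS x (hK ▸ hxK)).1 hx)).congr (hout x hxK)

/-- A push in a small disc moves the new point within it. -/
theorem exists_move_nhd {S : Set M} (hS : S.Finite) {c : M} (hc : c ∉ S) :
    ∃ V : Set M, IsOpen V ∧ c ∈ V ∧ Disjoint V S ∧ ∀ a ∈ V, ∀ b ∈ V,
      (∃ φ : M → V3, Good φ (insert a S)) → ∃ φ : M → V3, Good φ (insert b S) := by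
  obtain ⟨e, he⟩ : ∃ e, e = extChartAt (𝓡 2) c := ⟨_, rfl⟩
  have hto : IsOpen e.target := he ▸ isOpen_extChartAt_target c
  have hso : IsOpen e.source := he ▸ isOpen_extChartAt_source c
  have hO : IsOpen (e.target ∩ e.symm ⁻¹' Sᶜ) :=
    (he ▸ continuousOn_extChartAt_symm (I := 𝓡 2) c).isOpen_inter_preimage hto
      hS.isClosed.isOpen_compl
  have hcs : c ∈ e.source := he ▸ mem_extChartAt_source c
  have hcO : e c ∈ e.target ∩ e.symm ⁻¹' Sᶜ :=
    ⟨e.map_source hcs, by simpa [e.left_inv hcs] using hc⟩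
  obtain ⟨ρ, hρ, hρO⟩ := nhds_basis_closedBall.mem_iff.1 (hO.mem_nhds hcO)
  obtain ⟨χ⟩ : Nonempty {χ : ContDiffBump (e c) // χ.rIn = ρ / 2 ∧ χ.rOut = ρ} :=
    ⟨⟨⟨ρ / 2, ρ, by linarith, by linarith⟩, rfl, rfl⟩⟩
  obtain ⟨χ, hχin, hχout⟩ := χ
  obtain ⟨Lc, hLc⟩ := ((χ.hasCompactSupport.fderiv ℝ)).exists_bound_of_continuous
    ((χ.contDiff (n := 1)).continuous_fderiv (by simp))
  obtain ⟨d, hd, hdρ, hdL⟩ : ∃ d > 0, d ≤ ρ / 2 ∧ 2 * d * Lc < 1 / 2 := by
    have hL0 : 0 ≤ Lc := (norm_nonneg _).trans (hLc (e c))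
    refine ⟨min (ρ / 2) (1 / (4 * Lc + 4) / 2), lt_min (by linarith) (by positivity),
      min_le_left _ _, ?_⟩
    calc 2 * min (ρ / 2) (1 / (4 * Lc + 4) / 2) * Lc
        ≤ 2 * (1 / (4 * Lc + 4) / 2) * Lc := by gcongr; exact min_le_right _ _
      _ < 1 / 2 := by
          rw [show 2 * (1 / (4 * Lc + 4) / 2) * Lc = Lc / (4 * Lc + 4) by ring,
            div_lt_iff₀ (by positivity)]
          linarith
  refine ⟨e.source ∩ e ⁻¹' ball (e c) d,
    (he ▸ continuousOn_extChartAt (I := 𝓡 2) c).isOpen_inter_preimage hso isOpen_ball,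
    ⟨hcs, mem_ball_self hd⟩, ?_, ?_⟩
  · rw [Set.disjoint_left]
    rintro x ⟨hx, hxb⟩ hxS
    have := (hρO (ball_subset_closedBall (ball_subset_ball (by linarith) hxb))).2
    rw [mem_preimage, e.left_inv hx] at this
    exact this hxS
  rintro a ⟨ha, hab⟩ b ⟨hb, hbb⟩ ⟨φ, hG⟩
  obtain ⟨τ, hτ⟩ : ∃ τ : E2 → E2, ∀ y, τ y = y + χ y • (e a - e b) := ⟨_, fun _ => rfl⟩
  have hτs : ContDiff ℝ ∞ τ := by
    rw [funext hτ]; exact contDiff_id.add ((χ.contDiff (n := ⊤)).smul contDiff_const)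
  have hv : ‖e a - e b‖ ≤ 2 * d := by
    rw [← dist_eq_norm]
    linarith [dist_triangle_right (e a) (e b) (e c), mem_ball.1 hab, mem_ball.1 hbb]
  have hL0 : 0 ≤ Lc := (norm_nonneg _).trans (hLc (e c))
  have hlip : ∀ y z, ‖χ y - χ z‖ ≤ Lc * ‖y - z‖ := fun y z =>
    Convex.norm_image_sub_le_of_norm_fderiv_le
      (fun w _ => (χ.contDiff (n := 1)).differentiable one_ne_zero w) (fun w _ => hLc w)
      convex_univ (mem_univ z) (mem_univ y)
  have hτinj : Function.Injective τ := by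
    intro y z hyz
    rw [hτ, hτ] at hyz
    by_contra hne
    have h1 : y - z = (χ z - χ y) • (e a - e b) := by
      rw [sub_smul, eq_sub_iff_add_eq]
      linear_combination (norm := module) hyz
    have h2 : ‖y - z‖ ≤ Lc * ‖z - y‖ * (2 * d) := by
      conv_lhs => rw [h1, norm_smul]
      exact mul_le_mul (hlip z y) hv (norm_nonneg _) (by positivity)
    have h3 : 0 < ‖y - z‖ := norm_pos_iff.2 (sub_ne_zero.2 hne)
    rw [norm_sub_rev z y] at h2
    nlinarith
  have hτd : ∀ y, Function.Bijective (fderiv ℝ τ y) := by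
    intro y
    have hd' : ∀ v, fderiv ℝ τ y v = v + fderiv ℝ χ y v • (e a - e b) := by
      intro v
      have := ((χ.contDiff (n := 1)).differentiable one_ne_zero y)
      rw [funext hτ, fderiv_fun_add differentiableAt_fun_id (this.smul_const _),
        fderiv_smul_const this, fderiv_fun_id]
      rfl
    have hinj : Function.Injective (fderiv ℝ τ y) := by
      refine (injective_iff_map_eq_zero _).2 fun v hv0 => ?_
      rw [hd', add_eq_zero_iff_eq_neg] at hv0
      by_contra hne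
      have h1 : ‖v‖ ≤ Lc * ‖v‖ * (2 * d) := by
        conv_lhs => rw [hv0, norm_neg, norm_smul]
        exact mul_le_mul (((fderiv ℝ χ y).le_opNorm v).trans
          (mul_le_mul_of_nonneg_right (hLc y) (norm_nonneg _))) hv (norm_nonneg _) (by positivity)
      have h3 : 0 < ‖v‖ := norm_pos_iff.2 hne
      nlinarith
    exact ⟨hinj, LinearMap.surjective_of_injective (f := (fderiv ℝ τ y).toLinearMap) hinj⟩
  have hτout : ∀ y ∉ closedBall (e c) ρ, τ y = y := fun y hy => by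
    rw [hτ, χ.zero_of_le_dist (by rw [hχout]; exact (not_le.1 hy).le), zero_smul, add_zero]
  have hτin : ∀ y ∈ closedBall (e c) ρ, τ y ∈ closedBall (e c) ρ := fun y hy => by
    by_contra h
    exact h (by rwa [hτinj (hτout _ h)])
  have hτb : τ (e b) = e a := by
    rw [hτ, χ.one_of_mem_closedBall (by
      rw [hχin]; exact ball_subset_closedBall (ball_subset_ball hdρ hbb)), one_smul,
      add_sub_cancel]
  have hsub : closedBall (e c) ρ ⊆ e.target := fun y hy => (hρO hy).1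
  have hτt : MapsTo τ e.target e.target := fun y hy => by
    by_cases h : y ∈ closedBall (e c) ρ
    · exact hsub (hτin y h)
    · rwa [hτout y h]
  have hnS : ∀ y ∈ closedBall (e c) ρ, e.symm y ∉ S := fun y hy => (hρO hy).2
  have hamem : e a ∈ closedBall (e c) ρ := ball_subset_closedBall (ball_subset_ball (by linarith) hab)
  have hbmem : e b ∈ closedBall (e c) ρ := ball_subset_closedBall (ball_subset_ball (by linarith) hbb)
  refine good_modify hG c (isCompact_closedBall (e c) ρ) (he ▸ hsub)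
    (f := (φ ∘ e.symm) ∘ τ) (he ▸ ((he ▸ contDiffOn_read hG.1 c :
      ContDiffOn ℝ ∞ (φ ∘ e.symm) e.target).comp hτs.contDiffOn hτt))
    (fun y _ hy => by rw [← he, Function.comp_apply, hτout y hy, Function.comp_apply]) ?_ ?_
  · rw [← he]
    intro x hx
    simp only [mem_insert_iff]
    refine or_congr_left ⟨?_, ?_⟩ <;> rintro rfl
    · exact absurd ⟨_, hbmem, e.left_inv hb⟩ hx
    · exact absurd ⟨_, hamem, e.left_inv ha⟩ hx
  · rw [← he]
    intro y hy
    have hrd : ContDiffAt ℝ ∞ (φ ∘ e.symm) (τ y) :=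
      (he ▸ contDiffOn_read hG.1 c).contDiffAt (hto.mem_nhds (hτt (hsub hy)))
    refine ⟨fun h => ?_, fun h => ?_⟩
    · have hy' : y = e b := by
        rw [mem_insert_iff] at h
        rw [← h.resolve_right (hnS y hy), e.right_inv (hsub hy)]
      subst hy'
      refine CrossCap.comp hrd hτs.contDiffAt (hτd _) ?_
      rw [hτb]
      subst he
      exact (hG.2.2 a (mem_insert _ _)).chart hG.1 ha
    · rw [fderiv_comp y (hrd.differentiableAt (by simp))
        (hτs.differentiable (by simp) y), ContinuousLinearMap.coe_comp]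
      refine Function.Injective.comp ?_ (hτd y).1
      subst he
      refine (injective_read hG.1 (hτt (hsub hy))).2 (hG.2.1 _ ?_)
      rw [mem_insert_iff, not_or]
      refine ⟨fun h2 => h (Or.inl ?_), hnS _ (hτin y hy)⟩
      have h3 : τ y = τ (extChartAt (𝓡 2) c b) := by
        rw [hτb, ← h2, (extChartAt (𝓡 2) c).right_inv (hτt (hsub hy))]
      rw [hτinj h3, (extChartAt (𝓡 2) c).left_inv hb]

omit [IsManifold (𝓡 2) ∞ M] [T2Space M] in
lemma isPreconnected_punctured (c : E2) {ρ : ℝ} :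
    IsPreconnected (ball c ρ \ {c}) := by
  have e : ball c ρ \ {c} = (fun p : ℝ × E2 => c + p.1 • p.2) '' (Ioo 0 ρ ×ˢ sphere (0 : E2) 1) := by
    ext y
    constructor
    · rintro ⟨hy, hne⟩
      have hpos : 0 < ‖y - c‖ := norm_pos_iff.2 (sub_ne_zero.2 hne)
      refine ⟨(‖y - c‖, ‖y - c‖⁻¹ • (y - c)), ⟨⟨hpos, by simpa [dist_eq_norm] using hy⟩, ?_⟩, ?_⟩
      · simp [norm_smul, hpos.ne']
      · simp [smul_smul, hpos.ne']
    · rintro ⟨⟨t, w⟩, ⟨ht, hw⟩, rfl⟩
      have hw' : ‖w‖ = 1 := by simpa using hw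
      refine ⟨by simpa [dist_eq_norm, norm_smul, hw', abs_of_pos ht.1] using ht.2, fun h => ?_⟩
      have := congrArg (fun z => ‖z - c‖) (show c + t • w = c from h)
      simp [norm_smul, hw', ht.1.ne'] at this
  rw [e]
  exact (isPreconnected_Ioo.prod (isPreconnected_sphere
    (by rw [← Module.finrank_eq_rank, finrank_euclideanSpace_fin]; norm_num) 0 1)).image _
    (by fun_prop)

omit [IsManifold (𝓡 2) ∞ M] in
/-- A small coordinate disc around `c` avoiding the other points of `S`. -/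
lemma exists_disc {S : Set M} (hS : S.Finite) (c : M) :
    ∃ ρ > 0, closedBall (extChartAt (𝓡 2) c c) ρ ⊆ (extChartAt (𝓡 2) c).target ∧
      ∀ y ∈ closedBall (extChartAt (𝓡 2) c c) ρ,
        (extChartAt (𝓡 2) c).symm y ∈ S → (extChartAt (𝓡 2) c).symm y = c := by
  have hO : IsOpen ((extChartAt (𝓡 2) c).target ∩ (extChartAt (𝓡 2) c).symm ⁻¹' (S \ {c})ᶜ) :=
    (continuousOn_extChartAt_symm (I := 𝓡 2) c).isOpen_inter_preimage
      (isOpen_extChartAt_target c) (hS.sdiff).isClosed.isOpen_compl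
  obtain ⟨ρ, hρ, h⟩ := nhds_basis_closedBall.mem_iff.1 (hO.mem_nhds
    ⟨mem_extChartAt_target c, by simp⟩)
  exact ⟨ρ, hρ, fun y hy => (h hy).1, fun y hy hS' => by_contra fun hne => (h hy).2 ⟨hS', hne⟩⟩

/-- A cross cap can be moved next to any point of its component. -/
theorem exists_near {φ : M → V3} {S : Set M} (hS : S.Finite) {q : M} (hq : q ∉ S)
    (hG : Good φ (insert q S)) {p : M} (hp : p ∈ connectedComponent q) :
    p ∈ closure {z | z ∉ S ∧ ∃ φ' : M → V3, Good φ' (insert z S)} := by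
  obtain ⟨G, hGd⟩ : ∃ G : Set M, G = {z | z ∉ S ∧ ∃ φ' : M → V3, Good φ' (insert z S)} := ⟨_, rfl⟩
  rw [← hGd]
  have hloc : ∀ c ∉ S, ∃ V : Set M, IsOpen V ∧ c ∈ V ∧ ((G ∩ V).Nonempty → V ⊆ G) := by
    intro c hc
    obtain ⟨V, hV, hcV, hd, hmove⟩ := exists_move_nhd hS hc
    refine ⟨V, hV, hcV, fun ⟨a, haG, haV⟩ b hb => ?_⟩
    rw [hGd] at haG ⊢
    exact ⟨Set.disjoint_left.1 hd hb, hmove a haV b hb haG.2⟩
  have hGo : IsOpen G := isOpen_iff_forall_mem_open.2 fun z hz => by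
    obtain ⟨V, hV, hzV, hsub⟩ := hloc z (by rw [hGd] at hz; exact hz.1)
    exact ⟨V, hsub ⟨z, hz, hzV⟩, hV, hzV⟩
  have hpre : ∀ K : Set M, IsPreconnected K → Disjoint K S → (K ∩ G).Nonempty → K ⊆ G := by
    intro K hK hd ⟨a, haK, haG⟩ x hx
    by_contra hxG
    have hopen : IsOpen {y | ∃ V : Set M, IsOpen V ∧ y ∈ V ∧ Disjoint V G} :=
      isOpen_iff_forall_mem_open.2 fun y ⟨V, hV, hyV, hd⟩ =>
        ⟨V, fun z hz => ⟨V, hV, hz, hd⟩, hV, hyV⟩
    have hcov : K ⊆ G ∪ {y | ∃ V : Set M, IsOpen V ∧ y ∈ V ∧ Disjoint V G} := by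
      intro y hy
      obtain ⟨V, hV, hyV, hsub⟩ := hloc y (Set.disjoint_left.1 hd hy)
      by_cases h : (G ∩ V).Nonempty
      · exact Or.inl (hsub h hyV)
      · refine Or.inr ⟨V, hV, hyV, Set.disjoint_left.2 fun z hz hzG => h ⟨z, hzG, hz⟩⟩
    obtain ⟨y, -, hyG, V, -, hyV, hdV⟩ := hK G _ hGo hopen hcov ⟨a, haK, haG⟩
      ⟨x, hx, (hcov hx).resolve_left hxG⟩
    exact Set.disjoint_left.1 hdV hyV hyG
  have hclo : IsOpen (closure G) := isOpen_iff_mem_nhds.2 fun z hz => by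
    obtain ⟨e, he⟩ : ∃ e, e = extChartAt (𝓡 2) z := ⟨_, rfl⟩
    obtain ⟨ρ, hρ, hρt, hρS⟩ := exists_disc hS z
    rw [← he] at hρt hρS
    have hzs : z ∈ e.source := he ▸ mem_extChartAt_source z
    have hW : e.source ∩ e ⁻¹' ball (e z) ρ ∈ 𝓝 z := Filter.inter_mem
      ((he ▸ isOpen_extChartAt_source (I := 𝓡 2) z : IsOpen e.source).mem_nhds hzs)
      ((he ▸ continuousAt_extChartAt (I := 𝓡 2) z).preimage_mem_nhds (ball_mem_nhds _ hρ))
    refine Filter.mem_of_superset hW fun x ⟨hxs, hxb⟩ => ?_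
    by_cases hzG : z ∈ G ∧ x = z
    · exact subset_closure (hzG.2 ▸ hzG.1)
    by_cases hxz : x = z
    · exact hxz ▸ hz
    refine subset_closure (hpre (e.symm '' (ball (e z) ρ \ {e z})) ?_ ?_ ?_ ⟨e x, ⟨hxb, ?_⟩,
      e.left_inv hxs⟩)
    · exact (isPreconnected_punctured _).image _ ((he ▸ continuousOn_extChartAt_symm z).mono
        fun y hy => hρt (ball_subset_closedBall hy.1))
    · rw [Set.disjoint_left]
      rintro _ ⟨y, ⟨hy, hne⟩, rfl⟩ hyS
      refine hne ?_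
      rw [← hρS y (ball_subset_closedBall hy) hyS, e.right_inv (hρt (ball_subset_closedBall hy))]
      rfl
    · obtain ⟨w, hw, hwG⟩ := mem_closure_iff_nhds.1 hz _ hW
      by_cases hwz : w = z
      · subst hwz
        have hnb : G ∩ (e.source ∩ e ⁻¹' ball (e w) ρ) ∈ 𝓝 w :=
          Filter.inter_mem (hGo.mem_nhds hwG) hW
        have hcont : ContinuousAt e.symm (e w) :=
          (he ▸ continuousOn_extChartAt_symm w).continuousAt
            ((he ▸ isOpen_extChartAt_target w : IsOpen e.target).mem_nhds (e.map_source hzs))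
        have h2 := hcont.preimage_mem_nhds (by rw [e.left_inv hzs]; exact hnb)
        have : (𝓝[≠] (e w)).NeBot := Module.punctured_nhds_neBot ℝ E2 _
        obtain ⟨y, ⟨hy2, hyb⟩, hyne⟩ := Filter.nonempty_of_mem
          (Filter.inter_mem (mem_nhdsWithin_of_mem_nhds (t := {e w}ᶜ)
            (Filter.inter_mem h2 (ball_mem_nhds _ hρ))) self_mem_nhdsWithin)
        exact ⟨e.symm y, ⟨y, ⟨hyb, hyne⟩, rfl⟩, hy2.1⟩
      · exact ⟨w, ⟨e w, ⟨hw.2, fun h => hwz (e.injOn hw.1 hzs h)⟩, e.left_inv hw.1⟩, hwG⟩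
    · exact fun h => hxz (e.injOn hxs hzs h)
  exact (IsClopen.connectedComponent_subset ⟨isClosed_closure, hclo⟩
    (subset_closure (by rw [hGd]; exact ⟨hq, φ, hG⟩))) hp

/-- Two cross caps of one component cancel. -/
theorem cancel_pair {φ : M → V3} {S : Set M} (hS : S.Finite) (hG : Good φ S) {p q : M}
    (hp : p ∈ S) (hq : q ∈ S) (hpq : p ≠ q) (hcomp : p ∈ connectedComponent q) :
    ∃ φ' : M → V3, Good φ' (S \ {p, q}) := by
  have hins : insert q (S \ {q}) = S := by rw [insert_sdiff_singleton, insert_eq_of_mem hq]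
  have hnear := exists_near (S := S \ {q}) hS.sdiff (fun h => h.2 rfl) (hins.symm ▸ hG) hcomp
  obtain ⟨ρ, hρ, hρt, hρS⟩ := exists_disc hS p
  obtain ⟨e, he⟩ : ∃ e, e = extChartAt (𝓡 2) p := ⟨_, rfl⟩
  rw [← he] at hρt hρS
  have hps : p ∈ e.source := he ▸ mem_extChartAt_source p
  have hW : e.source ∩ e ⁻¹' ball (e p) (ρ / 2) ∈ 𝓝 p := Filter.inter_mem
    ((he ▸ isOpen_extChartAt_source (I := 𝓡 2) p : IsOpen e.source).mem_nhds hps)
    ((he ▸ continuousAt_extChartAt (I := 𝓡 2) p).preimage_mem_nhds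
      (ball_mem_nhds _ (by linarith)))
  obtain ⟨z, ⟨hzs, hzb⟩, hzS, φ₁, hG₁⟩ := mem_closure_iff_nhds.1 hnear _ hW
  have hzp : z ≠ p := fun h => hzS (h ▸ ⟨hp, hpq⟩)
  obtain ⟨L, hL⟩ : ∃ L : ℂ ≃ₗᵢ[ℝ] E2, L = Complex.orthonormalBasisOneI.repr := ⟨_, rfl⟩
  obtain ⟨A, hA⟩ : ∃ A : ℂ → E2, ∀ w, A w = e p + L w := ⟨_, fun _ => rfl⟩
  obtain ⟨B, hB⟩ : ∃ B : E2 → ℂ, ∀ y, B y = L.symm (y - e p) := ⟨_, fun _ => rfl⟩
  have hAB : ∀ y, A (B y) = y := fun y => by simp [hA, hB]
  have hBA : ∀ w, B (A w) = w := fun w => by simp [hA, hB]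
  have hAs : ContDiff ℝ ∞ A := by
    rw [funext hA]; exact contDiff_const.add L.toContinuousLinearEquiv.contDiff
  have hBs : ContDiff ℝ ∞ B := by
    rw [funext hB]
    exact L.symm.toContinuousLinearEquiv.contDiff.comp (contDiff_id.sub contDiff_const)
  have hAd : ∀ w, Function.Bijective (fderiv ℝ A w) := fun w => by
    have : HasFDerivAt A (L.toContinuousLinearEquiv : ℂ →L[ℝ] E2) w := by
      rw [funext hA]; exact (L.toContinuousLinearEquiv.hasFDerivAt).const_add _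
    rw [this.fderiv]; exact L.bijective
  have hBd : ∀ y, Function.Bijective (fderiv ℝ B y) := fun y => by
    have : HasFDerivAt B (L.symm.toContinuousLinearEquiv : E2 →L[ℝ] ℂ) y := by
      rw [funext hB]
      exact L.symm.toContinuousLinearEquiv.hasFDerivAt.comp y ((hasFDerivAt_id y).sub_const _)
    rw [this.fderiv]; exact L.symm.bijective
  have hAball : ∀ {r : ℝ} {w : ℂ}, A w ∈ ball (e p) r ↔ w ∈ ball (0 : ℂ) r := fun {r w} => by
    simp [hA, dist_eq_norm]
  have hAt : MapsTo A (ball (0 : ℂ) ρ) e.target := fun w hw =>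
    hρt (ball_subset_closedBall (hAball.2 hw))
  have hto : IsOpen e.target := he ▸ isOpen_extChartAt_target p
  have hread : ContDiffOn ℝ ∞ (φ₁ ∘ e.symm) e.target := he ▸ contDiffOn_read hG₁.1 p
  have hψs : ContDiffOn ℝ ∞ ((φ₁ ∘ e.symm) ∘ A) (ball 0 ρ) :=
    hread.comp hAs.contDiffOn hAt
  have hcap : ∀ x ∈ insert z (S \ {q}), x ∈ e.source → e x ∈ ball (e p) ρ →
      CrossCap ((φ₁ ∘ e.symm) ∘ A) (B (e x)) := by
    intro x hx hxs hxb
    refine CrossCap.comp ?_ hAs.contDiffAt (hAd _) ?_ <;> rw [hAB]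
    · exact hread.contDiffAt (hto.mem_nhds (e.map_source hxs))
    · subst he; exact (hG₁.2.2 x hx).chart hG₁.1 hxs
  obtain ⟨ψ', C, hC, hCb, hψeq, hψ's, hψimm⟩ :=
    disc_extension (r := ρ / 2) (by linarith) hψs (p := B (e p)) (q := B (e z))
      (hAball.1 (by rw [hAB]; exact mem_ball_self (by linarith)))
      (hAball.1 (by rw [hAB]; exact hzb))
      (fun h => hzp (e.injOn hzs hps (by simpa [hAB] using (congrArg A h).symm)))
      (hcap p (Or.inr ⟨hp, hpq⟩) hps (mem_ball_self hρ))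
      (hcap z (Or.inl rfl) hzs (ball_subset_ball (by linarith) hzb)) (fun w hw h1 h2 => by
        rw [fderiv_comp w ((hread.contDiffAt (hto.mem_nhds (hAt hw))).differentiableAt (by simp))
          (hAs.differentiable (by simp) w), ContinuousLinearMap.coe_comp]
        refine Function.Injective.comp ?_ (hAd w).1
        subst he
        refine (injective_read hG₁.1 (hAt hw)).2 (hG₁.2.1 _ ?_)
        rw [mem_insert_iff, not_or]
        refine ⟨fun h => h2 ?_, fun h => h1 ?_⟩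
        · rw [← h, (extChartAt (𝓡 2) p).right_inv (hAt hw), hBA]
        · have h3 := hρS _ (ball_subset_closedBall (hAball.2 hw)) h.1
          have h4 := congrArg (extChartAt (𝓡 2) p) h3
          rw [(extChartAt (𝓡 2) p).right_inv (hAt hw)] at h4
          rw [← h4, hBA])
  obtain ⟨K, hK⟩ : ∃ K : Set E2, K = closedBall (e p) (ρ / 2) ∪ A '' C := ⟨_, rfl⟩
  have hKb : K ⊆ ball (e p) ρ := by
    rw [hK]
    rintro y (hy | ⟨w, hw, rfl⟩)
    · exact closedBall_subset_ball (by linarith) hy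
    · exact hAball.2 (hCb hw)
  refine good_modify hG₁ p (S' := S \ {p, q}) (C := K) (f := ψ' ∘ B)
    (hK ▸ (isCompact_closedBall _ _).union (hC.image hAs.continuous))
    (he ▸ fun y hy => hρt (ball_subset_closedBall (hKb hy))) ?_ ?_ ?_ ?_
  · rw [← he]
    intro y hy
    by_cases hyb : B y ∈ ball (0 : ℂ) ρ
    · exact ((hψ's.contDiffAt (isOpen_ball.mem_nhds hyb)).comp y
        hBs.contDiffAt).contDiffWithinAt
    · refine ((hread.contDiffAt (hto.mem_nhds hy)).congr_of_eventuallyEq ?_).contDiffWithinAt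
      filter_upwards [hBs.continuous.continuousAt.preimage_mem_nhds
        (hC.isClosed.isOpen_compl.mem_nhds fun h => hyb (hCb h))] with u hu
      rw [Function.comp_apply, hψeq _ hu, Function.comp_apply, hAB]
  · rw [← he]
    intro y _ hy
    rw [Function.comp_apply, hψeq _ (fun h => hy (hK ▸ Or.inr ⟨_, h, hAB y⟩)),
      Function.comp_apply, hAB, Function.comp_apply]
  · rw [← he]
    intro x hx
    have hxp : x ≠ p := fun h => hx ⟨e p, hK ▸ Or.inl (mem_closedBall_self (by linarith)), by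
      rw [h]; exact e.left_inv hps⟩
    have hxz : x ≠ z := fun h => hx ⟨e z, hK ▸ Or.inl (ball_subset_closedBall hzb), by
      rw [h]; exact e.left_inv hzs⟩
    simp [hxp, hxz]
  · rw [← he]
    intro y hy
    refine ⟨fun h => ?_, fun _ => ?_⟩
    · exact absurd (hρS y (ball_subset_closedBall (hKb hy)) h.1) fun e' => h.2 (Or.inl e')
    · rw [fderiv_comp y ((hψ's.contDiffAt (isOpen_ball.mem_nhds (hAball.1 (by
          rw [hAB]; exact hKb hy)))).differentiableAt (by simp))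
        (hBs.differentiable (by simp) y), ContinuousLinearMap.coe_comp]
      exact (hψimm _ (hAball.1 (by rw [hAB]; exact hKb hy))).comp (hBd y).1

/-- A map with evenly many cross caps on every clopen set gives an immersion. -/
theorem immersion_of_even {φ : M → V3} {S : Set M} (hS : S.Finite) (hG : Good φ S)
    (heven : ∀ U : Set M, IsClopen U → Even (U ∩ S).ncard) :
    ∃ φ' : M → V3, Good φ' ∅ := by
  have : LocallyConnectedSpace M := ChartedSpace.locallyConnectedSpace E2 M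
  induction h : S.ncard using Nat.strong_induction_on generalizing φ S with
  | _ n ih =>
    rcases S.eq_empty_or_nonempty with rfl | ⟨q, hq⟩
    · exact ⟨φ, hG⟩
    obtain ⟨p, hp, hpq⟩ : ∃ p ∈ connectedComponent q ∩ S, p ≠ q := by
      by_contra hcon
      push Not at hcon
      have e : connectedComponent q ∩ S = {q} :=
        eq_singleton_iff_unique_mem.2 ⟨⟨mem_connectedComponent, hq⟩, hcon⟩
      have := heven (connectedComponent q)
        ⟨isClosed_connectedComponent, isOpen_connectedComponent⟩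
      rw [e, ncard_singleton] at this
      exact Nat.not_even_one this
    obtain ⟨φ', hG'⟩ := cancel_pair hS hG hp.2 hq hpq hp.1
    have hpair : ({p, q} : Set M).ncard = 2 := ncard_pair hpq
    have hsub : ({p, q} : Set M) ⊆ S := insert_subset hp.2 (singleton_subset_iff.2 hq)
    refine ih _ ?_ hS.sdiff hG' (fun U hU => ?_) rfl
    · rw [← h, ncard_sdiff hsub, hpair]
      have : 2 ≤ S.ncard := hpair ▸ ncard_le_ncard hsub hS
      omega
    · have hUf : (U ∩ S).Finite := hS.inter_of_right U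
      by_cases hqU : q ∈ U
      · have hpU : p ∈ U := hU.connectedComponent_subset hqU hp.1
        have hs : ({p, q} : Set M) ⊆ U ∩ S :=
          insert_subset ⟨hpU, hp.2⟩ (singleton_subset_iff.2 ⟨hqU, hq⟩)
        rw [← inter_sdiff_assoc, ncard_sdiff hs, hpair]
        have h2 : 2 ≤ (U ∩ S).ncard := hpair ▸ ncard_le_ncard hs hUf
        exact (Nat.even_sub h2).2 (iff_of_true (heven U hU) even_two)
      · have hpU : p ∉ U := fun h' =>
          hU.compl.connectedComponent_subset hqU hp.1 h'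
        rw [← inter_sdiff_assoc, Disjoint.sdiff_eq_left]
        · exact heven U hU
        · rw [Set.disjoint_right]
          rintro x (rfl | rfl) hx
          · exact hpU hx.1
          · exact hqU hx.1

end

end Vale.Agent.P205.Full.Topo
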