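import Mathlib
import Vale.Agent.P205.Full.Topology.Move

/-!
# P205: an immersion into three-space from a map with evenly many cross caps
-/

namespace Vale.Agent.P205.Full.Topo

open Set
open scoped ContDiff Manifold

noncomputable section

variable {M : Type*} [TopologicalSpace M] [ChartedSpace E2 M] [IsManifold (𝓡 2) ∞ M] [T2Space M]

/-- An immersion into Euclidean three-space from a map with cross caps only, an even number on
every clopen set. -/
theorem exists_immersion_of_crossCaps (φ : M → V3) (S : Finset M)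
    (hsm : ContMDiff (𝓡 2) 𝓘(ℝ, V3) ∞ φ)
    (himm : ∀ p ∉ S, Function.Injective (mfderiv (𝓡 2) 𝓘(ℝ, V3) φ p))
    (hcc : ∀ p ∈ S, CC φ p) (heven : ∀ U : Set M, IsClopen U → Even (U ∩ ↑S).ncard) :
    ∃ F : M → EuclideanSpace ℝ (Fin 3),
      ContMDiff (𝓡 2) 𝓘(ℝ, EuclideanSpace ℝ (Fin 3)) ∞ F ∧
      ∀ x, Function.Injective (mfderiv (𝓡 2) 𝓘(ℝ, EuclideanSpace ℝ (Fin 3)) F x) := by
  obtain ⟨φ', hs, hi, -⟩ := immersion_of_even (φ := φ) S.finite_toSet
    ⟨hsm, fun x hx => himm x (by simpa using hx), fun x hx => hcc x (by simpa using hx)⟩ heven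
  obtain ⟨L, hL⟩ : ∃ L : V3 ≃L[ℝ] EuclideanSpace ℝ (Fin 3),
      L = (EuclideanSpace.equiv (Fin 3) ℝ).symm := ⟨_, rfl⟩
  refine ⟨L ∘ φ', L.contDiff.contMDiff.comp hs, fun x => ?_⟩
  rw [mfderiv_comp x (L.differentiableAt.mdifferentiableAt) (hs.mdifferentiableAt (by simp)),
    mfderiv_eq_fderiv, L.fderiv]
  exact L.injective.comp (hi x (notMem_empty x))

end

end Vale.Agent.P205.Full.Topo
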