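import Mathlib
import Vale.Agent.P205.Full.Topology.CrossCaps
import Vale.Agent.P205.Full.Topology.Reduce

/-!
# P205: every closed surface immerses in three-space
-/

namespace Vale.Agent.P205.Full.Topo

open scoped Manifold ContDiff

/-- Every closed surface immerses in Euclidean three-space. -/
theorem exists_immersion_three (M : Type*) [TopologicalSpace M] [ChartedSpace E2 M]
    [IsManifold (𝓡 2) ∞ M] [T2Space M] [CompactSpace M] :
    ∃ F : M → EuclideanSpace ℝ (Fin 3),
      ContMDiff (𝓡 2) 𝓘(ℝ, EuclideanSpace ℝ (Fin 3)) ∞ F ∧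
      ∀ x, Function.Injective (mfderiv (𝓡 2) 𝓘(ℝ, EuclideanSpace ℝ (Fin 3)) F x) := by
  obtain ⟨φ, S, h₁, h₂, h₃, h₄⟩ := exists_map_even_crossCaps M
  exact exists_immersion_of_crossCaps φ S h₁ h₂ h₃ h₄

end Vale.Agent.P205.Full.Topo
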